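import Claimed.Agent.R323.Ad.Defs
import Claimed.Agent.R323.Nu.Main

/-!
# Row 323, block A, leaf L-AD-K5: `adSig m = sig m`      (helper272; contract + plan by helper195)

`integral_fun_norm_addHaar`: `adSig (j+1) = (j+1) ω_{j+1} ∫_0^∞ r^j (2/(1+r²))^{j+1} dr`; `θ = 2 arctan r` turns the radial integral into the
Wallis integral `nuW j = ∫_0^π sin^j`.   Exit: `adk_sig_eq`.
-/

set_option autoImplicit false
open MeasureTheory Set

namespace Claimed.Agent.R323

open Claimed.Agent.Gmt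

theorem adk_sin_two_arctan (r : ℝ) : Real.sin (2 * Real.arctan r) = 2 * r / (1 + r ^ 2) := by
  have h0 : 0 < 1 + r ^ 2 := by positivity
  rw [Real.sin_two_mul, Real.sin_arctan, Real.cos_arctan]
  have h1 : Real.sqrt (1 + r ^ 2) * Real.sqrt (1 + r ^ 2) = 1 + r ^ 2 := Real.mul_self_sqrt h0.le
  have h2 : Real.sqrt (1 + r ^ 2) ≠ 0 := (Real.sqrt_pos.2 h0).ne'
  field_simp
  rw [sq (Real.sqrt _), h1]

theorem adk_image : (fun r : ℝ => 2 * Real.arctan r) '' Ioi 0 = Ioo 0 Real.pi := by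
  ext θ
  constructor
  · rintro ⟨r, hr, rfl⟩
    have h1 := Real.arctan_pos.2 hr
    have h2 := Real.arctan_lt_pi_div_two r
    exact ⟨by positivity, by linarith⟩
  · rintro ⟨h1, h2⟩
    refine ⟨Real.tan (θ / 2), Real.tan_pos_of_pos_of_lt_pi_div_two (by linarith) (by linarith), ?_⟩
    simp only
    rw [Real.arctan_tan (by linarith) (by linarith)]
    ring

/-- `∫_0^∞ r^j (2/(1+r²))^{j+1} dr = ∫_0^π sin^j`. -/
theorem adk_subst (j : ℕ) :
    ∫ r in Ioi (0 : ℝ), r ^ j * (2 / (1 + r ^ 2)) ^ (j + 1) = ∫ x in (0 : ℝ)..Real.pi, Real.sin x ^ j := by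
  rw [intervalIntegral.integral_of_le Real.pi_pos.le, integral_Ioc_eq_integral_Ioo, ← adk_image]
  rw [integral_image_eq_integral_abs_deriv_smul (f' := fun r => 2 * (1 / (1 + r ^ 2))) measurableSet_Ioi
    (fun r _ => ((Real.hasDerivAt_arctan r).const_mul 2).hasDerivWithinAt)
    (fun a _ b _ hab => Real.arctan_injective (by simpa using hab))]
  refine setIntegral_congr_fun measurableSet_Ioi fun r _ => ?_
  have h0 : 0 < 1 + r ^ 2 := by positivity
  rw [adk_sin_two_arctan, abs_of_pos (by positivity), smul_eq_mul, pow_succ, div_pow, div_pow, mul_pow]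
  field_simp

theorem adk_main (j : ℕ) :
    ∫ v : EuclideanSpace ℝ (Fin (j + 1)), (2 / (1 + ‖v‖ ^ 2)) ^ (j + 1)
      = ((j : ℝ) + 1) * (volume (Metric.ball (0 : EuclideanSpace ℝ (Fin (j + 1))) 1)).toReal
        * ∫ x in (0 : ℝ)..Real.pi, Real.sin x ^ j := by
  have h := integral_fun_norm_addHaar (volume : Measure (EuclideanSpace ℝ (Fin (j + 1))))
    (fun r : ℝ => (2 / (1 + r ^ 2)) ^ (j + 1))
  rw [h, finrank_euclideanSpace, Fintype.card_fin, Nat.add_sub_cancel]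
  simp only [smul_eq_mul, nsmul_eq_mul]
  rw [adk_subst]
  push_cast
  rw [mul_assoc]
  rfl

/-- **L-AD-K5** -/
theorem adk_sig_eq (m : ℕ) (hm : 1 ≤ m) : adSig m = sig m := by
  obtain ⟨j, rfl⟩ : ∃ j, m = j + 1 := ⟨m - 1, by omega⟩
  rw [nuc_sig_eq, nuSig_succ, nuSig_eq_om]
  exact adk_main j

end Claimed.Agent.R323
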