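import Claimed.Agent.R323.Ad.Gen
import Claimed.Agent.R323.Nu.Main
import Claimed.Agent.R323.Ad.Sig
import Claimed.Agent.Lib.Gmt.RbHalfA

/-!
# Row 323, block A, package A6: the Clifford cones, half spaces, `adSig`.      Contract + plan by helper195.

* `ad_cliff_reg`, `ad_cliff_link`: `φ x = (m-j) ∑_{i ≤ j} x_i² - j ∑_{i > j} x_i²` is smooth, `∇φ x = 2((m-j) x', -j x'') ≠ 0` for `x ≠ 0`, `cliffCone m j = {φ < 0}` (open, an exact cone).
  `gmtSim_bd_local` on `ball x ‖x‖`: for `x ≠ 0`: `x ∈ gmtBd ↔ φ x = 0`.   On the unit sphere `A + B = 1`, so `(m-j) A = j B ↔ A = j/m ∧ B = (m-j)/m`.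
* `ad_iInf_le`: `cliffMin m` is attained (finite nonempty set: `Set.Nonempty.csInf_mem`), `ad_gen_area`.
* `ad_not_half`: `gmtBd` depends only on the a.e. class; `gmtBd (gmtHalf 0 e) = {y | ⟪y, e⟫ = 0}` (`gmtSim_bd_local` with `φ = ⟪·, e⟫`, or a lemma of `Lib/Gmt`).
* `ad_sig_eq`: `MeasureTheory.integral_fun_norm_addHaar`: `adSig m = m ω_m ∫_0^∞ r^{m-1} (2/(1+r²))^m dr`; `r = tan(θ/2)`: `(2/(1+r²))^m r^{m-1} dr = sin^{m-1} θ dθ`, so `= nuSig (m-1) * nuW (m-1) = nuSig m`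
  (`nuSig_eq_om`, `nuSig_succ`, `nuc_sig_eq`).   [substitution on `(0,π)`: `integral_comp_mul_deriv`-type on `[0, π - δ]`, then `δ → 0`; or `MeasureTheory.integral_image_eq_integral_abs_deriv_smul` for `tan(·/2) : Ioo 0 π → Ioi 0`.]
-/

set_option autoImplicit false
open scoped ContDiff ENNReal NNReal RealInnerProductSpace Topology
open MeasureTheory Metric Set Filter
open Claims.C0508

namespace Claimed.Agent.R323

open Claimed.Agent.Gmt

/-- the defining function of the Clifford cone. -/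
noncomputable def adCfPhi (m j : ℕ) (y : E (m + 2)) : ℝ :=
  ((m : ℝ) - j) * nuQ (fun i : Fin (m + 2) => i.val ≤ j) y - (j : ℝ) * nuQ (fun i : Fin (m + 2) => ¬ i.val ≤ j) y

theorem ad_cf_contDiff (m j : ℕ) : ContDiff ℝ ∞ (adCfPhi m j) :=
  (contDiff_const.mul (nu_q_contDiff _)).sub (contDiff_const.mul (nu_q_contDiff _))

theorem ad_cf_fderiv_ne (m j : ℕ) (hj : 1 ≤ j) (hjm : j < m) {y : E (m + 2)} (hy : y ≠ 0) :
    fderiv ℝ (adCfPhi m j) y ≠ 0 := by
  have hα : (0 : ℝ) < j := by exact_mod_cast hj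
  have hβ : (0 : ℝ) < (m : ℝ) - j := by
    have : (j : ℝ) < m := by exact_mod_cast hjm
    linarith
  intro h0
  have h1 := (nu_phi_hasGradientAt (fun i : Fin (m + 2) => i.val ≤ j) (j : ℝ) ((m : ℝ) - j) y).hasFDerivAt.fderiv
  have h2 : fderiv ℝ (fun y : E (m + 2) => ((m : ℝ) - j) * nuQ (fun i : Fin (m + 2) => i.val ≤ j) y
      - (j : ℝ) * nuQ (fun i : Fin (m + 2) => ¬ i.val ≤ j) y) y = 0 := h0
  rw [h2] at h1
  exact nu_grad_ne_zero _ hα hβ hy ((map_eq_zero_iff _ (LinearIsometryEquiv.injective _)).1 h1.symm)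

theorem ad_mem_cliffCone (m j : ℕ) (y : E (m + 2)) : y ∈ cliffCone m j ↔ adCfPhi m j y < 0 := by
  rw [nuc_cone_eq]
  unfold nuCone adCfPhi
  rw [mem_ofPred_eq, sub_neg]

theorem ad_cf_smul (m j : ℕ) (t : ℝ) (y : E (m + 2)) : adCfPhi m j (t • y) = t ^ 2 * adCfPhi m j y := by
  unfold adCfPhi nuQ
  simp only [PiLp.smul_apply, smul_eq_mul, mul_pow, ← Finset.mul_sum]
  ring

theorem ad_cliff_local (m j : ℕ) (x : E (m + 2)) (r : ℝ) :
    (cliffCone m j ∩ ball x r : Set (E (m + 2))) =ᵐ[volume]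
      ({y | y ∈ ball x r ∧ adCfPhi m j y < 0} : Set (E (m + 2))) := by
  have : cliffCone m j ∩ ball x r = {y | y ∈ ball x r ∧ adCfPhi m j y < 0} := by
    ext y
    simp only [mem_inter_iff, ad_mem_cliffCone, mem_ofPred_eq]
    exact and_comm
  rw [this]
  exact ae_eq_refl _

theorem ad_cliff_bd_iff (m j : ℕ) (hj : 1 ≤ j) (hjm : j < m) {x : E (m + 2)} (hx : x ≠ 0) :
    x ∈ gmtBd (cliffCone m j) ↔ adCfPhi m j x = 0 := by
  have hr : 0 < ‖x‖ := norm_pos_iff.2 hx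
  have hne : ∀ y ∈ ball x ‖x‖, y ≠ 0 := by
    intro y hy h0
    rw [h0, mem_ball, dist_comm, dist_zero_right] at hy
    exact lt_irrefl _ hy
  exact (gmtSim_bd_local (p := x) (r := ‖x‖) (φ := adCfPhi m j) (ad_cf_contDiff m j).contDiffOn
    (fun y hy => ad_cf_fderiv_ne m j hj hjm (hne y hy)) (ad_cliff_local m j x ‖x‖) (mem_ball_self hr)).1

/-- **L-AD-K1** -/
theorem ad_cliff_reg (m j : ℕ) (hj : 1 ≤ j) (hjm : j < m) : AdReg (m + 2) (cliffCone m j) := by
  refine ⟨?_, ?_, ?_⟩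
  · rw [nuc_cone_eq]
    exact (nuCone_isOpen _ _ _).measurableSet
  · intro ρ hρ
    have : gmtDil 0 ρ (cliffCone m j) = cliffCone m j := by
      ext y
      show 0 + ρ • y ∈ cliffCone m j ↔ _
      rw [zero_add, ad_mem_cliffCone, ad_mem_cliffCone, ad_cf_smul]
      have h2 : 0 < ρ ^ 2 := by positivity
      constructor
      · intro h
        by_contra hc
        have := mul_nonneg h2.le (not_lt.1 hc)
        linarith
      · intro h
        exact mul_neg_of_pos_of_neg h2 h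
    rw [this]
    exact ae_eq_refl _
  · intro x hxb hx
    have hr : 0 < ‖x‖ := norm_pos_iff.2 hx
    have hne : ∀ y ∈ ball x ‖x‖, y ≠ 0 := by
      intro y hy h0
      rw [h0, mem_ball, dist_comm, dist_zero_right] at hy
      exact lt_irrefl _ hy
    exact ⟨‖x‖, hr, adCfPhi m j, (ad_cf_contDiff m j).contDiffOn, (ad_cliff_bd_iff m j hj hjm hx).1 hxb,
      fun y hy => ad_cf_fderiv_ne m j hj hjm (hne y hy), ad_cliff_local m j x ‖x‖⟩

/-- **L-AD-K2** -/
theorem ad_cliff_link (m j : ℕ) (hj : 1 ≤ j) (hjm : j < m) :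
    adLink (cliffCone m j) = cliffordProduct m j := by
  have hm : (0 : ℝ) < m := by
    have : 0 < m := by omega
    exact_mod_cast this
  ext x
  have hadd := nuQ_add (fun i : Fin (m + 2) => i.val ≤ j) x
  have hA : nuQ (fun i : Fin (m + 2) => i.val ≤ j) x = ∑ i : Fin (m + 2) with i.val ≤ j, x i ^ 2 := rfl
  have hB : nuQ (fun i : Fin (m + 2) => ¬ i.val ≤ j) x = ∑ i : Fin (m + 2) with j < i.val, x i ^ 2 := by
    unfold nuQ
    simp only [not_le]
  unfold adLink cliffordProduct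
  simp only [mem_inter_iff, mem_sphere_iff_norm, sub_zero, mem_ofPred_eq]
  rw [← hA, ← hB]
  constructor
  · rintro ⟨hb, hn⟩
    have hx : x ≠ 0 := by
      intro h0
      rw [h0, norm_zero] at hn
      norm_num at hn
    have h0 := (ad_cliff_bd_iff m j hj hjm hx).1 hb
    unfold adCfPhi at h0
    rw [hn] at hadd
    constructor
    · rw [eq_div_iff hm.ne']
      nlinarith
    · rw [eq_div_iff hm.ne']
      nlinarith
  · rintro ⟨h1, h2⟩
    rw [h1, h2] at hadd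
    have hn2 : ‖x‖ ^ 2 = 1 := by
      rw [← hadd]
      field_simp
      ring
    have hn : ‖x‖ = 1 := by
      nlinarith [norm_nonneg x]
    have hx : x ≠ 0 := by
      intro h0
      rw [h0, norm_zero] at hn
      norm_num at hn
    refine ⟨(ad_cliff_bd_iff m j hj hjm hx).2 ?_, hn⟩
    unfold adCfPhi
    rw [h1, h2]
    field_simp
    ring

/-- **L-AD-K3** -/
theorem ad_iInf_le (m : ℕ) (hm : 2 ≤ m) :
    (⨅ (k : ℕ) (_ : 1 ≤ k ∧ k < m), μH[(m : ℝ)] (cliffordProduct m k)) ≤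
      adC m * ENNReal.ofReal (cliffMin m) := by
  have hfin : ({j | 1 ≤ j ∧ j < m} : Set ℕ).Finite :=
    (Set.finite_lt_nat m).subset fun j hj => hj.2
  have hne : ({j | 1 ≤ j ∧ j < m} : Set ℕ).Nonempty := ⟨1, le_rfl, by omega⟩
  obtain ⟨j, hj, hjm⟩ : cliffMin m ∈ (fun j => linkArea (cliffCone m j)) '' {j | 1 ≤ j ∧ j < m} :=
    (hne.image _).csInf_mem (hfin.image _)
  refine (iInf₂_le j hj).trans ?_
  rw [← ad_cliff_link m j hj.1 hj.2, ad_gen_area (ad_cliff_reg m j hj.1 hj.2), ← hjm]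

/-- **L-AD-K4** -/
theorem ad_not_half {k : ℕ} {S : Set (E k)} (h : IsHalf S) :
    ∃ a : E k, a ≠ 0 ∧ ∀ y ∈ gmtBd S, ⟪a, y⟫ = 0 := by
  obtain ⟨e, he, hSe⟩ := h
  have hk : 1 ≤ k := by
    rcases Nat.eq_zero_or_pos k with rfl | hk
    · have : e = 0 := Subsingleton.elim _ _
      rw [this, norm_zero] at he
      exact absurd he zero_ne_one
    · exact hk
  refine ⟨e, fun h0 => by rw [h0, norm_zero] at he; exact zero_ne_one he, fun y hy => ?_⟩
  rw [gmtBd_congr hSe, gmtBd_gmtHalf hk 0 he] at hy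
  have hy' : ⟪y - 0, e⟫ = 0 := hy
  rw [sub_zero] at hy'
  rw [real_inner_comm]
  exact hy'

/-- **L-AD-K5** -/
theorem ad_sig_eq (m : ℕ) (hm : 1 ≤ m) : adSig m = sig m := adk_sig_eq m hm

end Claimed.Agent.R323
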