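import Claimed.Agent.R323.Ad.DblDefs

/-!
# Row 323, A3 (γ): one sheet through `a` contributes a full sphere in the limit `τ → ∞`.   EUCLIDEAN.   Architect helper258.

`E k = EuclideanSpace ℝ (Fin k)`;  `nd`, area formula: `R322/Base/Area/{Defs,LinNd,Jac}.lean` (`lintegral_image_eq_lintegral_nd_mul`: `μH[m]` on both sides).
LEAVES: `L-ADB-LIN` = `adb_lin`;  `L-ADB-PT` = `adb_blow_pt`;  `L-ADB-BLOW` = `adb_blow` (glue: area formula + scaling + Fatou).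
-/

set_option autoImplicit false
open scoped ContDiff ENNReal NNReal RealInnerProductSpace Topology
open MeasureTheory Metric Set Filter
open Claimed.Agent.R322.Base.Area (nd)

namespace Claimed.Agent.R323

variable {m n : ℕ}

/-- a linear isometry of `E m` onto the range of an injective linear map -/
theorem adb_exists_isom (L : EuclideanSpace ℝ (Fin m) →L[ℝ] EuclideanSpace ℝ (Fin n)) (hL : Function.Injective L) :
    ∃ Q : EuclideanSpace ℝ (Fin m) →ₗᵢ[ℝ] EuclideanSpace ℝ (Fin n), Set.range Q = Set.range L := by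
  obtain ⟨S, hS⟩ : ∃ S : Submodule ℝ (EuclideanSpace ℝ (Fin n)), S = LinearMap.range (L : EuclideanSpace ℝ (Fin m) →ₗ[ℝ] EuclideanSpace ℝ (Fin n)) :=
    ⟨_, rfl⟩
  have hfin : Module.finrank ℝ S = m := by
    rw [hS, LinearMap.finrank_range_of_inj hL, finrank_euclideanSpace_fin]
  let b : OrthonormalBasis (Fin m) ℝ S := (stdOrthonormalBasis ℝ S).reindex (finCongr hfin)
  refine ⟨S.subtypeₗᵢ.comp b.repr.symm.toLinearIsometry, ?_⟩
  ext y
  constructor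
  · rintro ⟨x, rfl⟩
    have hmem : ∀ y ∈ S, y ∈ Set.range L := by
      intro y hy
      rw [hS] at hy
      obtain ⟨z, hz⟩ := hy
      exact ⟨z, hz⟩
    exact hmem _ (b.repr.symm x).2
  · rintro ⟨x, rfl⟩
    have hx : L x ∈ S := by rw [hS]; exact ⟨x, rfl⟩
    refine ⟨b.repr ⟨L x, hx⟩, ?_⟩
    simp

/-- **linear change of variables**: for an injective linear `L : E m → E n`, `∫ nd L (1 + |L w|²/4)^{-m} dw = adbI m`.
PLAN: area formula for `L` on `univ` (`lintegral_image_eq_lintegral_nd_mul`, `f' = fun _ => L`): LHS `= ∫⁻_{range L} φ(|y|) dμH[m]`.   Take a linear isometry `Q : E m →ₗᵢ E n` with `range Q = range L`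
(`stdOrthonormalBasis` of the `m`-dimensional subspace `range L`; `finrank (range L) = m` by injectivity);  area formula for `Q` (`nd Q = 1`: `nd_sq`/`adjoint Q ∘ Q = id`) or `Isometry.hausdorffMeasure_image` + `MeasurableEmbedding.lintegral_map`. -/
theorem adb_lin (L : EuclideanSpace ℝ (Fin m) →L[ℝ] EuclideanSpace ℝ (Fin n)) (hL : Function.Injective L) :
    ∫⁻ w : EuclideanSpace ℝ (Fin m), ENNReal.ofReal (nd L) * ENNReal.ofReal (((1 + ‖L w‖ ^ 2 / 4) ^ m)⁻¹) ∂μH[(m : ℝ)] = adbI m := by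
  obtain ⟨Q, hQ⟩ := adb_exists_isom L hL
  have h1 := Claimed.Agent.R322.Base.Area.lintegral_image_eq_lintegral_nd_mul (s := univ) (f := L) (f' := fun _ => L)
    MeasurableSet.univ (fun x _ => L.hasFDerivWithinAt) hL.injOn (fun y => ENNReal.ofReal (((1 + ‖y‖ ^ 2 / 4) ^ m)⁻¹))
  have h2 := Claimed.Agent.R322.Base.Area.lintegral_image_eq_lintegral_nd_mul (s := univ) (f := Q)
    (f' := fun _ => Q.toContinuousLinearMap)
    MeasurableSet.univ (fun x _ => Q.toContinuousLinearMap.hasFDerivWithinAt) Q.injective.injOn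
    (fun y => ENNReal.ofReal (((1 + ‖y‖ ^ 2 / 4) ^ m)⁻¹))
  have hnd : nd Q.toContinuousLinearMap = 1 := Q.normDet_eq_one
  rw [image_univ, Measure.restrict_univ] at h1 h2
  rw [← h1, ← hQ, h2, adbI]
  apply lintegral_congr
  intro z
  rw [hnd, ENNReal.ofReal_one, one_mul, Q.norm_map]


/-- **pointwise limit of the rescaled integrand.**   `|y| = |a| = 1 ⟹ cosh τ - sinh τ ⟨a,y⟩ = e^{-τ} + sinh τ |y - a|²/2`.   With `y = g (u₀ + e^{-τ} w)`, `g` differentiable at `u₀`: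
`e^{τ} (cosh τ - sinh τ ⟨a,y⟩) = 1 + e^{τ} sinh τ |g(u₀ + e^{-τ} w) - g u₀|²/2 → 1 + |L w|²/4`   (`e^{τ} sinh τ e^{-2τ} → 1/2`;  `e^{τ}(g(u₀ + e^{-τ} w) - g u₀) → L w`: `HasFDerivAt.lim` / `hasFDerivAt_iff_tendsto_slope`-type along `c_j = e^{j} → ∞`). -/
theorem adb_blow_pt (g : EuclideanSpace ℝ (Fin m) → EuclideanSpace ℝ (Fin n)) (U : Set (EuclideanSpace ℝ (Fin m))) (hU : IsOpen U)
    (u₀ : EuclideanSpace ℝ (Fin m)) (hu₀ : u₀ ∈ U) (hg : DifferentiableAt ℝ g u₀) (hs : ∀ u ∈ U, ‖g u‖ = 1)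
    (w : EuclideanSpace ℝ (Fin m)) :
    Tendsto (fun j : ℕ => Real.exp (-(j : ℝ)) * adbB j ⟪g u₀, g (u₀ + Real.exp (-(j : ℝ)) • w)⟫) atTop
      (𝓝 ((1 + ‖fderiv ℝ g u₀ w‖ ^ 2 / 4)⁻¹)) := by
  have hc : Tendsto (fun j : ℕ => ‖Real.exp (j : ℝ)‖) atTop atTop := by
    simp only [Real.norm_eq_abs, Real.abs_exp]
    exact Real.tendsto_exp_atTop.comp tendsto_natCast_atTop_atTop
  have hT := hg.hasFDerivAt.lim w hc
  have he : Tendsto (fun j : ℕ => Real.exp (-(j : ℝ))) atTop (𝓝 0) :=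
    Real.tendsto_exp_neg_atTop_nhds_zero.comp tendsto_natCast_atTop_atTop
  have hmem : ∀ᶠ j : ℕ in atTop, u₀ + Real.exp (-(j : ℝ)) • w ∈ U := by
    have : Tendsto (fun j : ℕ => u₀ + Real.exp (-(j : ℝ)) • w) atTop (𝓝 (u₀ + (0 : ℝ) • w)) :=
      tendsto_const_nhds.add (he.smul_const w)
    rw [zero_smul, add_zero] at this
    exact this (hU.mem_nhds hu₀)
  have hlim : Tendsto (fun j : ℕ => (1 + ((1 - Real.exp (-(j : ℝ)) ^ 2) / 2)
      * ‖Real.exp (j : ℝ) • (g (u₀ + (Real.exp (j : ℝ))⁻¹ • w) - g u₀)‖ ^ 2 / 2)⁻¹) atTop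
      (𝓝 ((1 + ‖fderiv ℝ g u₀ w‖ ^ 2 / 4)⁻¹)) := by
    have h1 : Tendsto (fun j : ℕ => 1 + ((1 - Real.exp (-(j : ℝ)) ^ 2) / 2)
        * ‖Real.exp (j : ℝ) • (g (u₀ + (Real.exp (j : ℝ))⁻¹ • w) - g u₀)‖ ^ 2 / 2) atTop
        (𝓝 (1 + ((1 - (0 : ℝ) ^ 2) / 2) * ‖fderiv ℝ g u₀ w‖ ^ 2 / 2)) :=
      tendsto_const_nhds.add ((((tendsto_const_nhds.sub (he.pow 2)).div_const 2).mul
        (hT.norm.pow 2)).div_const 2)
    have h2 : (1 + ((1 - (0 : ℝ) ^ 2) / 2) * ‖fderiv ℝ g u₀ w‖ ^ 2 / 2)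
        = 1 + ‖fderiv ℝ g u₀ w‖ ^ 2 / 4 := by ring
    rw [h2] at h1
    exact h1.inv₀ (by positivity)
  refine hlim.congr' ?_
  filter_upwards [hmem] with j hj
  have hE : 0 < Real.exp (j : ℝ) := Real.exp_pos _
  rw [Real.exp_neg] at hj ⊢
  set E : ℝ := Real.exp (j : ℝ) with hEdef
  set y := g (u₀ + E⁻¹ • w) with hy
  have h1 : ‖y‖ = 1 := hs _ hj
  have h2 : ‖g u₀‖ = 1 := hs _ hu₀
  have h3 : ‖E • (y - g u₀)‖ ^ 2 = E ^ 2 * (2 - 2 * ⟪g u₀, y⟫) := by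
    rw [norm_smul, Real.norm_eq_abs, abs_of_pos hE, mul_pow, norm_sub_sq_real, h1, h2,
      real_inner_comm]
    ring
  rw [h3]
  unfold adbB
  rw [Real.cosh_eq, Real.sinh_eq, Real.exp_neg, ← hEdef, ← mul_inv]
  congr 1
  field_simp
  ring

/-- affine change of variables for `μH[m]` on `E m` -/
theorem adb_subst (u₀ : EuclideanSpace ℝ (Fin m)) {r : ℝ} (hr : 0 < r) (H : EuclideanSpace ℝ (Fin m) → ℝ≥0∞) :
    ∫⁻ u, H u ∂μH[(m : ℝ)] = ∫⁻ w, ENNReal.ofReal (r ^ m) * H (u₀ + r • w) ∂μH[(m : ℝ)] := by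
  have : (μH[(m : ℝ)] : Measure (EuclideanSpace ℝ (Fin m))).IsAddHaarMeasure := by
    have := MeasureTheory.isAddHaarMeasure_hausdorffMeasure (E := EuclideanSpace ℝ (Fin m))
    rwa [finrank_euclideanSpace_fin] at this
  have h1 : ∫⁻ w, H (u₀ + r • w) ∂μH[(m : ℝ)] = ENNReal.ofReal ((r ^ m)⁻¹) * ∫⁻ u, H u ∂μH[(m : ℝ)] := by
    have e1 := (measurableEmbedding_const_smul₀ (α := EuclideanSpace ℝ (Fin m)) hr.ne').lintegral_map
      (μ := (μH[(m : ℝ)] : Measure (EuclideanSpace ℝ (Fin m)))) (fun u => H (u₀ + u))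
    rw [Measure.map_addHaar_smul _ hr.ne', finrank_euclideanSpace_fin, lintegral_smul_measure, lintegral_add_left_eq_self,
      abs_of_pos (by positivity)] at e1
    rw [← e1]
    rfl
  rw [lintegral_const_mul' _ _ ENNReal.ofReal_ne_top, h1, ← mul_assoc, ← ENNReal.ofReal_mul (by positivity),
    mul_inv_cancel₀ (by positivity), ENNReal.ofReal_one, one_mul]

/-- the integrand on the sheet is continuous -/
theorem adb_blow_cont (g : EuclideanSpace ℝ (Fin m) → EuclideanSpace ℝ (Fin n)) (U : Set (EuclideanSpace ℝ (Fin m))) (hU : IsOpen U)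
    (u₀ : EuclideanSpace ℝ (Fin m)) (hu₀ : u₀ ∈ U) (hg : ContDiffOn ℝ 1 g U) (hs : ∀ u ∈ U, ‖g u‖ = 1) (j : ℕ) :
    ContinuousOn (fun u => ENNReal.ofReal (nd (fderiv ℝ g u) * adbB j ⟪g u₀, g u⟫ ^ m)) U := by
  have h1 : ContinuousOn (fun u => nd (fderiv ℝ g u)) U :=
    Claimed.Agent.R322.Base.Area.continuous_nd.comp_continuousOn (hg.continuousOn_fderiv_of_isOpen hU le_rfl)
  have h2 : ContinuousOn (fun u => adbB j ⟪g u₀, g u⟫) U := by
    unfold adbB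
    apply ContinuousOn.inv₀
    · exact continuousOn_const.sub (continuousOn_const.mul (continuousOn_const.inner hg.continuousOn))
    · intro u hu
      have h3 : ⟪g u₀, g u⟫ ≤ 1 := by
        have := real_inner_le_norm (g u₀) (g u)
        rwa [hs u₀ hu₀, hs u hu, one_mul] at this
      exact (adbB_den_pos h3 (Nat.cast_nonneg j)).ne'
  exact ENNReal.continuous_ofReal.comp_continuousOn (h1.mul (h2.pow m))

/-- **(γ)**.   PLAN.  1. area formula on `U` (`hinj`, `f' = fderiv ℝ g`): `∫⁻_{g '' U} β_j(⟨a,y⟩)^m dμH = ∫⁻_U nd(Dg u) β_j(⟨a, g u⟩)^m dμH(u)`.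
2. substitution `u = u₀ + e^{-j} w`: `μH[m]` on `E m` is an additive Haar measure (`isAddHaarMeasure_hausdorffMeasure`, `finrank = m`): `∫⁻ h(u) du = e^{-jm} ∫⁻ h(u₀ + e^{-j} w) dw`
   (`Measure.lintegral_comp_smul`-type: `lintegral_add_left_eq_self`, `Measure.map_addHaar_smul`).   So the integral is `∫⁻ 1_U(u₀ + e^{-j} w) nd(Dg(u₀ + e^{-j} w)) (e^{-j} β_j(…))^m dw`.
3. pointwise limit: `1_U(…) → 1` (`U` open), `nd(Dg(…)) → nd(Dg u₀)` (`continuous_nd`, `Dg` continuous at `u₀`: `hg.continuousOn_fderiv_of_isOpen`), `adb_blow_pt`.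
4. Fatou `lintegral_liminf_le'` (a.e.-measurability: continuity on the open set `{w | u₀ + e^{-j} w ∈ U}`, indicator), `Tendsto.liminf_eq`;  5. `adb_lin`. -/
theorem adb_blow (g : EuclideanSpace ℝ (Fin m) → EuclideanSpace ℝ (Fin n)) (U : Set (EuclideanSpace ℝ (Fin m))) (hU : IsOpen U)
    (u₀ : EuclideanSpace ℝ (Fin m)) (hu₀ : u₀ ∈ U) (hg : ContDiffOn ℝ 1 g U) (hinj : InjOn g U)
    (hL : Function.Injective (fderiv ℝ g u₀)) (hs : ∀ u ∈ U, ‖g u‖ = 1) :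
    adbI m ≤ liminf (fun j : ℕ => ∫⁻ y in g '' U, ENNReal.ofReal (adbB j ⟪g u₀, y⟫ ^ m) ∂μH[(m : ℝ)]) atTop := by
  classical
  have hdiff : ∀ u ∈ U, DifferentiableAt ℝ g u := fun u hu =>
    (hg.differentiableOn one_ne_zero).differentiableAt (hU.mem_nhds hu)
  obtain ⟨Hj, hHj⟩ : ∃ Hj : ℕ → EuclideanSpace ℝ (Fin m) → ℝ≥0∞,
      Hj = fun j : ℕ => U.indicator fun u => ENNReal.ofReal (nd (fderiv ℝ g u) * adbB j ⟪g u₀, g u⟫ ^ m) := ⟨_, rfl⟩
  have hHmeas : ∀ j, Measurable (Hj j) := by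
    intro j
    rw [hHj]
    simp only
    rw [← Set.piecewise_eq_indicator]
    exact (adb_blow_cont g U hU u₀ hu₀ hg hs j).measurable_piecewise continuousOn_const hU.measurableSet
  -- step 1 + 2
  have hstep : ∀ j : ℕ, ∫⁻ y in g '' U, ENNReal.ofReal (adbB j ⟪g u₀, y⟫ ^ m) ∂μH[(m : ℝ)] =
      ∫⁻ w, ENNReal.ofReal (Real.exp (-(j : ℝ)) ^ m) * Hj j (u₀ + Real.exp (-(j : ℝ)) • w) ∂μH[(m : ℝ)] := by
    intro j
    rw [Claimed.Agent.R322.Base.Area.lintegral_image_eq_lintegral_nd_mul (f' := fderiv ℝ g) hU.measurableSet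
      (fun u hu => (hdiff u hu).hasFDerivAt.hasFDerivWithinAt) hinj, ← adb_subst u₀ (Real.exp_pos _),
      ← lintegral_indicator hU.measurableSet, hHj]
    apply lintegral_congr
    intro u
    simp only
    congr 1
    funext u
    rw [ENNReal.ofReal_mul (Claimed.Agent.R322.Base.Area.nd_nonneg _)]
  simp_rw [hstep]
  -- pointwise limit
  have hr : Tendsto (fun j : ℕ => Real.exp (-(j : ℝ))) atTop (𝓝 0) :=
    Real.tendsto_exp_neg_atTop_nhds_zero.comp tendsto_natCast_atTop_atTop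
  have hlim : ∀ w : EuclideanSpace ℝ (Fin m),
      Tendsto (fun j : ℕ => ENNReal.ofReal (Real.exp (-(j : ℝ)) ^ m) * Hj j (u₀ + Real.exp (-(j : ℝ)) • w)) atTop
        (𝓝 (ENNReal.ofReal (nd (fderiv ℝ g u₀)) * ENNReal.ofReal (((1 + ‖fderiv ℝ g u₀ w‖ ^ 2 / 4) ^ m)⁻¹))) := by
    intro w
    have hu : Tendsto (fun j : ℕ => u₀ + Real.exp (-(j : ℝ)) • w) atTop (𝓝 u₀) := by
      have := (hr.smul_const w).const_add u₀
      simpa using this
    have hev : ∀ᶠ j : ℕ in atTop, u₀ + Real.exp (-(j : ℝ)) • w ∈ U := hu.eventually (hU.mem_nhds hu₀)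
    have hnd : Tendsto (fun j : ℕ => nd (fderiv ℝ g (u₀ + Real.exp (-(j : ℝ)) • w))) atTop (𝓝 (nd (fderiv ℝ g u₀))) := by
      have hc : ContinuousAt (fun u => nd (fderiv ℝ g u)) u₀ :=
        (Claimed.Agent.R322.Base.Area.continuous_nd.comp_continuousOn
          (hg.continuousOn_fderiv_of_isOpen hU le_rfl)).continuousAt (hU.mem_nhds hu₀)
      exact hc.tendsto.comp hu
    have hpt := (adb_blow_pt g U hU u₀ hu₀ (hdiff u₀ hu₀) hs w).pow m
    have hreal := ENNReal.tendsto_ofReal (hnd.mul hpt)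
    rw [← ENNReal.ofReal_mul (Claimed.Agent.R322.Base.Area.nd_nonneg _), ← inv_pow]
    refine hreal.congr' ?_
    filter_upwards [hev] with j hj
    rw [hHj]
    simp only
    rw [Set.indicator_of_mem hj, ← ENNReal.ofReal_mul (by positivity)]
    congr 1
    rw [mul_pow]
    ring
  calc adbI m = ∫⁻ w : EuclideanSpace ℝ (Fin m),
        ENNReal.ofReal (nd (fderiv ℝ g u₀)) * ENNReal.ofReal (((1 + ‖fderiv ℝ g u₀ w‖ ^ 2 / 4) ^ m)⁻¹) ∂μH[(m : ℝ)] :=
        (adb_lin _ hL).symm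
    _ = ∫⁻ w : EuclideanSpace ℝ (Fin m), liminf (fun j : ℕ =>
          ENNReal.ofReal (Real.exp (-(j : ℝ)) ^ m) * Hj j (u₀ + Real.exp (-(j : ℝ)) • w)) atTop ∂μH[(m : ℝ)] := by
        apply lintegral_congr
        intro w
        exact (hlim w).liminf_eq.symm
    _ ≤ _ := by
        apply lintegral_liminf_le
        intro j
        exact ((hHmeas j).comp (by fun_prop)).const_mul _


end Claimed.Agent.R323
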