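import Claimed.Agent.R323.Ad.DblDefs
import Claimed.Prelude.Def_0508

/-!
# Row 323, A3 (χ): multiplicity, liminf, the derivative of `β^m`.   Architect helper258; `adb_mult`, `adb_theta_deriv`, `adb_theta` proved by helper187.
-/

set_option autoImplicit false
open scoped ContDiff ENNReal NNReal RealInnerProductSpace Topology Manifold
open MeasureTheory Metric Set Filter

namespace Claimed.Agent.R323

/-- two disjoint sets of sheets: the multiplicity is at least the sum of the indicators. -/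
theorem adb_mult {M Y : Type*} (F : M → Y) (O₁ O₂ : Set M) (hd : Disjoint O₁ O₂) (S₁ S₂ : Set Y)
    (h₁ : ∀ y ∈ S₁, ∃ x ∈ O₁, F x = y) (h₂ : ∀ y ∈ S₂, ∃ x ∈ O₂, F x = y) (y : Y) :
    S₁.indicator (fun _ => (1 : ℝ≥0∞)) y + S₂.indicator (fun _ => (1 : ℝ≥0∞)) y ≤ ((F ⁻¹' {y}).encard : ℝ≥0∞) := by
  have hone : ∀ x, F x = y → (1 : ℝ≥0∞) ≤ ((F ⁻¹' {y}).encard : ℝ≥0∞) := by
    intro x hx
    have : (1 : ℕ∞) ≤ (F ⁻¹' {y}).encard := Set.one_le_encard_iff_nonempty.2 ⟨x, hx⟩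
    exact_mod_cast this
  by_cases a₁ : y ∈ S₁ <;> by_cases a₂ : y ∈ S₂
  · obtain ⟨x₁, hx₁, e₁⟩ := h₁ y a₁
    obtain ⟨x₂, hx₂, e₂⟩ := h₂ y a₂
    have hne : x₁ ≠ x₂ := fun h => Set.disjoint_left.1 hd hx₁ (h ▸ hx₂)
    have h2 : (2 : ℕ∞) ≤ (F ⁻¹' {y}).encard := by
      rw [← Set.encard_pair hne]
      apply Set.encard_le_encard
      intro x hx
      rcases hx with rfl | rfl
      · exact e₁
      · exact e₂
    rw [Set.indicator_of_mem a₁, Set.indicator_of_mem a₂, one_add_one_eq_two]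
    exact_mod_cast h2
  · obtain ⟨x₁, -, e₁⟩ := h₁ y a₁
    rw [Set.indicator_of_mem a₁, Set.indicator_of_notMem a₂, add_zero]
    exact hone x₁ e₁
  · obtain ⟨x₂, -, e₂⟩ := h₂ y a₂
    rw [Set.indicator_of_notMem a₁, Set.indicator_of_mem a₂, zero_add]
    exact hone x₂ e₂
  · rw [Set.indicator_of_notMem a₁, Set.indicator_of_notMem a₂, add_zero]
    exact zero_le

theorem adb_theta_deriv (m : ℕ) (τ s : ℝ) (h : Real.cosh τ - Real.sinh τ * s ≠ 0) :
    HasDerivAt (fun x => adbB τ x ^ m) (m * (Real.sinh τ * adbB τ s ^ (m + 1))) s := by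
  have h1 : HasDerivAt (fun x : ℝ => Real.cosh τ - Real.sinh τ * x) (-(Real.sinh τ * 1)) s :=
    ((hasDerivAt_id s).const_mul (Real.sinh τ)).const_sub (Real.cosh τ)
  have h2 : HasDerivAt (fun x => adbB τ x) (Real.sinh τ * adbB τ s ^ 2) s := by
    have := h1.inv h
    have e : -(-(Real.sinh τ * 1)) / (Real.cosh τ - Real.sinh τ * s) ^ 2 = Real.sinh τ * adbB τ s ^ 2 := by
      unfold adbB
      field_simp
    rw [e] at this
    exact this
  have h3 := h2.pow m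
  cases m with
  | zero => simpa using hasDerivAt_const s (1 : ℝ)
  | succ k =>
    have e : ((k + 1 : ℕ) : ℝ) * adbB τ s ^ (k + 1 - 1) * (Real.sinh τ * adbB τ s ^ 2)
        = ((k + 1 : ℕ) : ℝ) * (Real.sinh τ * adbB τ s ^ (k + 1 + 1)) := by
      rw [Nat.add_sub_cancel]
      ring
    rw [e] at h3
    exact h3

/-- **a globally smooth function which is `β_τ^m` near `[-1,1]`.**   PLAN: `τ = 0`: `θ = 1`.   `τ > 0`: `δ := (cosh τ / sinh τ - 1)/3 > 0`, `ρ s := Real.smoothTransition ((s - 1 - δ)/δ)` (`= 0` for `s ≤ 1 + δ`, `= 1` for `s ≥ 1 + 2δ`, values in `[0,1]`),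
`κ s := s * (1 - ρ s) ≤ 1 + 2δ`, `θ s := ((cosh τ - sinh τ * κ s)^m)⁻¹`: the denominator is `≥ cosh τ - sinh τ (1 + 2δ) > 0`, so `θ` is smooth (`ContDiff.inv`);   `θ = adbB τ · ^ m` on the open set `s < 1 + δ`: derivative by `EventuallyEq.deriv_eq`. -/
theorem adb_theta (m : ℕ) (τ : ℝ) (hτ : 0 ≤ τ) :
    ∃ θ : ℝ → ℝ, ContDiff ℝ ∞ θ ∧ ∀ s ∈ Icc (-1 : ℝ) 1, θ s = adbB τ s ^ m ∧
      deriv θ s = m * (Real.sinh τ * adbB τ s ^ (m + 1)) := by
  obtain ⟨δ, hδ⟩ : ∃ δ : ℝ, δ = Real.exp (-(2 * τ)) / 2 := ⟨_, rfl⟩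
  have hδ0 : 0 < δ := by rw [hδ]; positivity
  have hsh0 : 0 ≤ Real.sinh τ := Real.sinh_nonneg_iff.2 hτ
  -- `2 δ sinh τ ≤ e^{-τ}/2`
  have hsm : Real.sinh τ * (2 * δ) ≤ Real.exp (-τ) / 2 := by
    have h1 : Real.sinh τ ≤ Real.exp τ / 2 := by
      rw [Real.sinh_eq]
      have := Real.exp_pos (-τ)
      linarith
    have h2 : Real.exp τ * Real.exp (-(2 * τ)) = Real.exp (-τ) := by
      rw [← Real.exp_add]
      congr 1
      ring
    have h3 : 0 < Real.exp (-(2 * τ)) := Real.exp_pos _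
    rw [hδ]
    nlinarith
  set ρ : ℝ → ℝ := fun s => Real.smoothTransition ((s - 1 - δ) / δ) with hρ
  set κ : ℝ → ℝ := fun s => s * (1 - ρ s) with hκ
  have hρs : ContDiff ℝ ∞ ρ := Real.smoothTransition.contDiff.comp (by fun_prop)
  have hκs : ContDiff ℝ ∞ κ := contDiff_id.mul (contDiff_const.sub hρs)
  have hκle : ∀ s, κ s ≤ 1 + 2 * δ := by
    intro s
    have h0 : 0 ≤ ρ s := Real.smoothTransition.nonneg _
    have h1 : ρ s ≤ 1 := Real.smoothTransition.le_one _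
    by_cases hs : s ≤ 1 + 2 * δ
    · by_cases hs0 : 0 ≤ s
      · have : κ s ≤ s := by
          simp only [hκ]
          nlinarith
        linarith
      · have : κ s ≤ 0 := by
          simp only [hκ]
          nlinarith
        linarith
    · have h2 : ρ s = 1 := by
        apply Real.smoothTransition.one_of_one_le
        rw [le_div_iff₀ hδ0]
        linarith
      simp only [hκ, h2]
      linarith
  have hκeq : ∀ s, s < 1 + δ → κ s = s := by
    intro s hs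
    have h2 : ρ s = 0 := by
      apply Real.smoothTransition.zero_of_nonpos
      apply div_nonpos_of_nonpos_of_nonneg _ hδ0.le
      linarith
    simp only [hκ, h2]
    ring
  have hden : ∀ s, 0 < Real.cosh τ - Real.sinh τ * κ s := by
    intro s
    have h1 : Real.cosh τ - Real.sinh τ = Real.exp (-τ) := Real.cosh_sub_sinh τ
    have h2 : Real.sinh τ * κ s ≤ Real.sinh τ * (1 + 2 * δ) := mul_le_mul_of_nonneg_left (hκle s) hsh0
    have h3 := Real.exp_pos (-τ)
    nlinarith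
  refine ⟨fun s => ((Real.cosh τ - Real.sinh τ * κ s) ^ m)⁻¹, ?_, ?_⟩
  · exact ((contDiff_const.sub (contDiff_const.mul hκs)).pow m).inv fun s => (pow_pos (hden s) m).ne'
  · intro s hs
    have hev : (fun s => ((Real.cosh τ - Real.sinh τ * κ s) ^ m)⁻¹) =ᶠ[𝓝 s] fun x => adbB τ x ^ m := by
      filter_upwards [Iio_mem_nhds (show s < 1 + δ by linarith [hs.2])] with x hx
      rw [hκeq x hx]
      unfold adbB
      rw [inv_pow]
    refine ⟨hev.eq_of_nhds, ?_⟩
    rw [hev.deriv_eq]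
    exact (adb_theta_deriv m τ s (adbB_den_pos hs.2 hτ).ne').deriv

theorem adb_liminf_add {a b : ℕ → ℝ≥0∞} {c V : ℝ≥0∞} (ha : c ≤ liminf a atTop) (hb : c ≤ liminf b atTop)
    (hV : ∀ j, a j + b j ≤ V) : 2 * c ≤ V := by
  by_contra h
  have h1 : V / 2 < c := ENNReal.div_lt_of_lt_mul' (not_le.1 h)
  obtain ⟨j, hj1, hj2⟩ := ((eventually_lt_of_lt_liminf (h1.trans_le ha)).and
    (eventually_lt_of_lt_liminf (h1.trans_le hb))).exists
  have h2 := (ENNReal.add_lt_add hj1 hj2).trans_le (hV j)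
  rw [ENNReal.add_halves] at h2
  exact lt_irrefl _ h2

end Claimed.Agent.R323
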