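import Claimed.Agent.R323.Nu.Gamma
import Claimed.Agent.R322.Base.Area.Jac

/-!
# Row 323, block A (adapter), sub-block A3 (architect helper258): a double point costs `2 σ_m`.   DEFINITIONS + PLAN

GOAL (`Ad/Mult.lean`, `ad_mult`, contract of helper195): `F : M → S^{m+1}` a minimal immersion which is NOT injective ⟹ `2 * adbI m ≤ volWithMult m F`, where
`adbI m = ∫⁻_{E m} (1 + |z|²/4)^{-m} dμH[m] = c_m σ_m` (`c_m` = the Haar ratio `μH[m] / volume` on `E m`, never computed).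

ROUTE = LI-YAU (conformal volume); NO varifolds, NO monotonicity formula, NO cones.   `a = F p = F q`, `p ≠ q`;   `β_τ(y) = (cosh τ - sinh τ ⟨a,y⟩)⁻¹` (the conformal factor of the Moebius
dilation of the sphere with repelling point `a`... only the function `β` is used, never the map).
(β) `DblMono.lean`, `adb_mono`: `V(τ) = ∫_M β_τ(F)^m dvol` is nonincreasing.   `V'(τ) = m ∫ β^{m+1} (C f - S)`, `f = ⟨a,F⟩`;  first variation with the ambient field `Y = β^m a`: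
    `∫ (S β^{m+1} |P a|² - β^m f) = 0`, `|P a|² ≤ 1 - f²`, `β^m f = β^{m+1} f (C - S f)`  ⟹  `∫ β^{m+1} (C f - S) ≤ 0`.   ABSTRACT measure space statement.
(γ) `DblBlow.lean`, `adb_blow`: for ONE embedded sheet `g : U → S^{m+1}` through `a`:  `liminf_j ∫_{g(U)} β_j^m dμH[m] ≥ adbI m`.   Area formula (`R322/Base/Area/Jac`), substitution `u = u₀ + e^{-j} w`, Fatou.
(χ) `DblChart.lean`: two disjoint sheets (`ad_chart`, `Ad/Var.lean`) ⟹ `encard (F⁻¹{y}) ≥ 1_{sheet 1}(y) + 1_{sheet 2}(y)`.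
(ν) `DblNum.lean`: `∫_{E m} (1 + |z|²/4)^{-m} dz = nuSig m` (`r = 2 tan(θ/2)`: `∫_0^∞ r^{m-1} (1 + r²/4)^{-m} dr = ∫_0^π sin^{m-1} = nuW (m-1)`).
Inputs from A1/A2 (helper229): `AdVar m F 𝒱` (`Ad/Defs.lean`), `ad_chart`.
-/

set_option autoImplicit false
open scoped ContDiff ENNReal NNReal RealInnerProductSpace Topology
open MeasureTheory Metric Set Filter

namespace Claimed.Agent.R323

/-- `β_τ` as a function of `s = ⟨a, y⟩`. -/
noncomputable def adbB (τ s : ℝ) : ℝ := (Real.cosh τ - Real.sinh τ * s)⁻¹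

/-- `c_m σ_m`: the `μH[m]`-area of the round `m`-sphere, read in the stereographic chart. -/
noncomputable def adbI (m : ℕ) : ℝ≥0∞ :=
  ∫⁻ z : EuclideanSpace ℝ (Fin m), ENNReal.ofReal (((1 + ‖z‖ ^ 2 / 4) ^ m)⁻¹) ∂μH[(m : ℝ)]

theorem adbB_zero (s : ℝ) : adbB 0 s = 1 := by simp [adbB]

theorem adbB_den_pos {τ s : ℝ} (hs : s ≤ 1) (hτ : 0 ≤ τ) : 0 < Real.cosh τ - Real.sinh τ * s := by
  have h1 : 0 ≤ Real.sinh τ := Real.sinh_nonneg_iff.2 hτ
  have h2 : Real.sinh τ < Real.cosh τ := Real.sinh_lt_cosh τ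
  nlinarith

theorem adbB_pos {τ s : ℝ} (hs : s ≤ 1) (hτ : 0 ≤ τ) : 0 < adbB τ s := inv_pos.2 (adbB_den_pos hs hτ)

theorem adbB_le {τ s : ℝ} (hs : s ≤ 1) (hτ : 0 ≤ τ) : adbB τ s ≤ Real.exp τ := by
  have h1 : 0 ≤ Real.sinh τ := Real.sinh_nonneg_iff.2 hτ
  have h2 : Real.exp (-τ) ≤ Real.cosh τ - Real.sinh τ * s := by
    have : Real.cosh τ - Real.sinh τ = Real.exp (-τ) := Real.cosh_sub_sinh τ
    nlinarith
  unfold adbB
  rw [← inv_inv (Real.exp τ), ← Real.exp_neg]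
  exact inv_anti₀ (Real.exp_pos _) h2

theorem adb_integrable_ae {Ω : Type*} [MeasurableSpace Ω] (μ : Measure Ω) [IsFiniteMeasure μ] (m : ℕ) (f : Ω → ℝ)
    (hf : Measurable f) (hf1 : ∀ᵐ x ∂μ, |f x| ≤ 1) (τ : ℝ) (hτ : 0 ≤ τ) : Integrable (fun x => adbB τ (f x) ^ m) μ := by
  have hm : Measurable fun x => adbB τ (f x) ^ m := by
    unfold adbB
    exact ((hf.const_mul _).const_sub _).inv.pow_const m
  refine Integrable.of_bound hm.aestronglyMeasurable (Real.exp τ ^ m) ?_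
  filter_upwards [hf1] with x hx
  have h0 := (adbB_pos (abs_le.1 hx).2 hτ).le
  rw [Real.norm_of_nonneg (pow_nonneg h0 m)]
  exact pow_le_pow_left₀ h0 (adbB_le (abs_le.1 hx).2 hτ) m

end Claimed.Agent.R323
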