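import Claimed.Agent.R323.Ad.DblDefs

/-!
# Row 323, A3 (β): the conformal areas `∫ β_τ^m` do not exceed the area.   ABSTRACT (a finite measure space, two real functions).   Architect helper258.

LEAF `L-ADB-MONO` = `adb_mono`.   PLAN.  `C = cosh τ`, `S = sinh τ`, `β = adbB τ (f x) ∈ [e^{-τ}, e^{τ}]` (as `|f| ≤ 1`).  `G τ := ∫ β^m`.
1. `∂_τ β = - β² (S - C f)`;  `HasDerivAt G (∫ m β^{m+1} (C f - S)) τ` for `τ > 0` (`hasDerivAt_integral_of_dominated_loc_of_deriv_le`, on `τ ∈ (τ₀ - 1, τ₀ + 1)` everything is bounded by constants, `μ` finite);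
   continuity of `G` on `[0,∞)` (same lemma at `τ ≥ 0`: the formula for `β` makes sense for all `τ ≥ -1`... simplest: prove `HasDerivAt` at every `τ` with `|f| ≤ 1`: `C - S f ≥ C - |S| > 0` for ALL real `τ`).
2. pointwise: `β^{m+1} (C f - S) = (β^m f - S β^{m+1} q) - S β^{m+1} (1 - f² - q)` (use `β (C - S f) = 1`), so by `hFV` the derivative is `- m S ∫ β^{m+1} (1 - f² - q) ≤ 0` for `τ ≥ 0`.
3. `antitoneOn_of_deriv_nonpos` on `Ici 0`;  `G 0 = μ univ`.
-/

set_option autoImplicit false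
open scoped ContDiff ENNReal NNReal RealInnerProductSpace Topology
open MeasureTheory Metric Set Filter

namespace Claimed.Agent.R323

/-- the denominator is bounded below, for every real `τ`. -/
theorem adbm_den_ge {τ s : ℝ} (hs : |s| ≤ 1) : Real.exp (-|τ|) ≤ Real.cosh τ - Real.sinh τ * s := by
  have h1 : Real.sinh τ * s ≤ Real.sinh |τ| := by
    rw [← Real.abs_sinh]
    calc Real.sinh τ * s ≤ |Real.sinh τ * s| := le_abs_self _
      _ = |Real.sinh τ| * |s| := abs_mul _ _
      _ ≤ |Real.sinh τ| * 1 := mul_le_mul_of_nonneg_left hs (abs_nonneg _)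
      _ = |Real.sinh τ| := mul_one _
  have h2 : Real.cosh |τ| - Real.sinh |τ| = Real.exp (-|τ|) := Real.cosh_sub_sinh _
  rw [Real.cosh_abs] at h2
  linarith

theorem adbm_den_pos {τ s : ℝ} (hs : |s| ≤ 1) : 0 < Real.cosh τ - Real.sinh τ * s :=
  lt_of_lt_of_le (Real.exp_pos _) (adbm_den_ge hs)

theorem adbm_B_pos {τ s : ℝ} (hs : |s| ≤ 1) : 0 < adbB τ s := inv_pos.2 (adbm_den_pos hs)

theorem adbm_B_le {τ s : ℝ} (hs : |s| ≤ 1) : adbB τ s ≤ Real.exp |τ| := by
  unfold adbB
  rw [← neg_neg |τ|, Real.exp_neg (-|τ|)]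
  exact inv_anti₀ (Real.exp_pos _) (adbm_den_ge hs)

theorem adbm_num_le {τ s : ℝ} (hs : |s| ≤ 1) : |Real.cosh τ * s - Real.sinh τ| ≤ Real.exp |τ| := by
  have h2 : Real.cosh |τ| + Real.sinh |τ| = Real.exp |τ| := Real.cosh_add_sinh _
  rw [Real.cosh_abs, ← Real.abs_sinh] at h2
  calc |Real.cosh τ * s - Real.sinh τ| ≤ |Real.cosh τ * s| + |Real.sinh τ| := abs_sub _ _
    _ = Real.cosh τ * |s| + |Real.sinh τ| := by rw [abs_mul, abs_of_pos (Real.cosh_pos τ)]
    _ ≤ Real.cosh τ * 1 + |Real.sinh τ| := by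
        gcongr
    _ = Real.exp |τ| := by rw [mul_one, h2]

theorem adbm_hasDerivAt (m : ℕ) {τ s : ℝ} (hs : |s| ≤ 1) :
    HasDerivAt (fun t => adbB t s ^ m)
      (m * adbB τ s ^ (m + 1) * (Real.cosh τ * s - Real.sinh τ)) τ := by
  have hD : HasDerivAt (fun t => Real.cosh t - Real.sinh t * s)
      (Real.sinh τ - Real.cosh τ * s) τ := (Real.hasDerivAt_cosh τ).sub ((Real.hasDerivAt_sinh τ).mul_const s)
  have h0 := (adbm_den_pos (τ := τ) hs).ne'
  have h1 : HasDerivAt (fun t => adbB t s ^ m) (m * adbB τ s ^ (m - 1)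
      * (-(Real.sinh τ - Real.cosh τ * s) / (Real.cosh τ - Real.sinh τ * s) ^ 2)) τ :=
    (hD.inv h0).pow m
  refine h1.congr_deriv ?_
  unfold adbB
  cases m with
  | zero => simp
  | succ k =>
    simp only [Nat.add_sub_cancel]
    rw [div_eq_mul_inv, ← inv_pow]
    ring

theorem adbm_meas {Ω : Type*} [MeasurableSpace Ω] {f : Ω → ℝ} (hf : Measurable f) (τ : ℝ) :
    Measurable fun x => adbB τ (f x) :=
  (measurable_const.sub (measurable_const.mul hf)).inv

theorem adb_mono {Ω : Type*} [MeasurableSpace Ω] (μ : Measure Ω) [IsFiniteMeasure μ] (m : ℕ) (f q : Ω → ℝ)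
    (hf : Measurable f) (hq : Measurable q) (hf1 : ∀ x, |f x| ≤ 1) (hq0 : ∀ x, 0 ≤ q x) (hq1 : ∀ x, q x ≤ 1 - f x ^ 2)
    (hFV : ∀ τ : ℝ, 0 ≤ τ →
      ∫ x, (Real.sinh τ * adbB τ (f x) ^ (m + 1) * q x - adbB τ (f x) ^ m * f x) ∂μ = 0)
    (τ : ℝ) (hτ : 0 ≤ τ) : ∫ x, adbB τ (f x) ^ m ∂μ ≤ (μ univ).toReal := by
  have hBk : ∀ (t : ℝ) (k : ℕ) (x : Ω), |adbB t (f x) ^ k| ≤ Real.exp |t| ^ k := fun t k x => by
    rw [abs_pow, abs_of_pos (adbm_B_pos (hf1 x))]
    exact pow_le_pow_left₀ (adbm_B_pos (hf1 x)).le (adbm_B_le (hf1 x)) k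
  -- the derivative
  have key : ∀ t₀ : ℝ, Integrable (fun x => (m : ℝ) * adbB t₀ (f x) ^ (m + 1)
        * (Real.cosh t₀ * f x - Real.sinh t₀)) μ ∧
      HasDerivAt (fun t => ∫ x, adbB t (f x) ^ m ∂μ)
        (∫ x, (m : ℝ) * adbB t₀ (f x) ^ (m + 1) * (Real.cosh t₀ * f x - Real.sinh t₀) ∂μ) t₀ := by
    intro t₀
    set K : ℝ := Real.exp (|t₀| + 1) with hK
    have hKt : ∀ t ∈ ball t₀ 1, Real.exp |t| ≤ K := fun t ht => by
      refine Real.exp_le_exp.2 ?_
      have h1 : |t - t₀| < 1 := by simpa [Real.dist_eq] using ht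
      have h2 : |t| ≤ |t - t₀| + |t₀| := by
        calc |t| = |(t - t₀) + t₀| := by rw [sub_add_cancel]
          _ ≤ _ := abs_add_le _ _
      linarith
    refine hasDerivAt_integral_of_dominated_loc_of_deriv_le (μ := μ)
      (F := fun t x => adbB t (f x) ^ m)
      (F' := fun t x => (m : ℝ) * adbB t (f x) ^ (m + 1) * (Real.cosh t * f x - Real.sinh t))
      (bound := fun _ => (m : ℝ) * K ^ (m + 1) * K) (ball_mem_nhds t₀ one_pos)
      (Eventually.of_forall fun t => ((adbm_meas hf t).pow_const m).aestronglyMeasurable)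
      (Integrable.of_bound ((adbm_meas hf t₀).pow_const m).aestronglyMeasurable (Real.exp |t₀| ^ m)
        (Eventually.of_forall fun x => hBk t₀ m x))
      (((measurable_const.mul ((adbm_meas hf t₀).pow_const (m + 1))).mul
        ((measurable_const.mul hf).sub measurable_const)).aestronglyMeasurable)
      (Eventually.of_forall fun x t ht => ?_) (integrable_const _)
      (Eventually.of_forall fun x t _ => adbm_hasDerivAt m (hf1 x))
    rw [Real.norm_eq_abs, abs_mul, abs_mul, abs_of_nonneg (Nat.cast_nonneg m)]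
    have hK0 : 0 ≤ K := (Real.exp_pos _).le
    have e1 : |adbB t (f x) ^ (m + 1)| ≤ K ^ (m + 1) :=
      (hBk t (m + 1) x).trans (pow_le_pow_left₀ (Real.exp_pos _).le (hKt t ht) _)
    have e2 : |Real.cosh t * f x - Real.sinh t| ≤ K := (adbm_num_le (hf1 x)).trans (hKt t ht)
    gcongr
  -- its sign
  have hneg : ∀ t : ℝ, 0 ≤ t →
      ∫ x, (m : ℝ) * adbB t (f x) ^ (m + 1) * (Real.cosh t * f x - Real.sinh t) ∂μ ≤ 0 := by
    intro t ht
    have hS : 0 ≤ Real.sinh t := Real.sinh_nonneg_iff.2 ht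
    have hq1' : ∀ x, |q x| ≤ 1 := fun x => by
      rw [abs_of_nonneg (hq0 x)]
      nlinarith [hq1 x, sq_nonneg (f x)]
    have hB : Integrable (fun x => (m : ℝ) * (Real.sinh t * adbB t (f x) ^ (m + 1) * q x
        - adbB t (f x) ^ m * f x)) μ := by
      refine Integrable.of_bound (measurable_const.mul
        (((measurable_const.mul ((adbm_meas hf t).pow_const (m + 1))).mul hq).sub
          (((adbm_meas hf t).pow_const m).mul hf))).aestronglyMeasurable
        ((m : ℝ) * (Real.sinh t * Real.exp |t| ^ (m + 1) * 1 + Real.exp |t| ^ m * 1))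
        (Eventually.of_forall fun x => ?_)
      rw [Real.norm_eq_abs, abs_mul, abs_of_nonneg (Nat.cast_nonneg m)]
      refine mul_le_mul_of_nonneg_left ((abs_sub _ _).trans ?_) (Nat.cast_nonneg m)
      rw [abs_mul, abs_mul, abs_mul, abs_of_nonneg hS]
      have e1 := hBk t (m + 1) x
      have e2 := hBk t m x
      have e3 := hq1' x
      have e4 := hf1 x
      gcongr
    have h0 : ∫ x, (m : ℝ) * (Real.sinh t * adbB t (f x) ^ (m + 1) * q x
        - adbB t (f x) ^ m * f x) ∂μ = 0 := by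
      rw [integral_const_mul, hFV t ht, mul_zero]
    have h1 : ∫ x, ((m : ℝ) * adbB t (f x) ^ (m + 1) * (Real.cosh t * f x - Real.sinh t)
        + (m : ℝ) * (Real.sinh t * adbB t (f x) ^ (m + 1) * q x - adbB t (f x) ^ m * f x)) ∂μ ≤ 0 := by
      refine integral_nonpos fun x => ?_
      have hb : adbB t (f x) * (Real.cosh t - Real.sinh t * f x) = 1 :=
        inv_mul_cancel₀ (adbm_den_pos (hf1 x)).ne'
      have e : (m : ℝ) * adbB t (f x) ^ (m + 1) * (Real.cosh t * f x - Real.sinh t)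
          + (m : ℝ) * (Real.sinh t * adbB t (f x) ^ (m + 1) * q x - adbB t (f x) ^ m * f x)
          = -((m : ℝ) * (Real.sinh t * (adbB t (f x) ^ (m + 1) * (1 - f x ^ 2 - q x)))) := by
        have : adbB t (f x) ^ m * f x
            = adbB t (f x) ^ (m + 1) * (Real.cosh t - Real.sinh t * f x) * f x := by
          rw [pow_succ, mul_assoc (adbB t (f x) ^ m), hb, mul_one]
        rw [this]
        ring
      show _ ≤ (0 : ℝ)
      rw [e, neg_nonpos]
      have := hq1 x
      have := (adbm_B_pos (τ := t) (hf1 x)).le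
      exact mul_nonneg (Nat.cast_nonneg m) (mul_nonneg hS (mul_nonneg (pow_nonneg this _) (by linarith)))
    rw [integral_add (key t).1 hB, h0, add_zero] at h1
    exact h1
  have hanti : AntitoneOn (fun t => ∫ x, adbB t (f x) ^ m ∂μ) (Ici 0) := by
    refine antitoneOn_of_deriv_nonpos (convex_Ici 0)
      (fun t _ => (key t).2.continuousAt.continuousWithinAt)
      (fun t _ => (key t).2.differentiableAt.differentiableWithinAt) fun t ht => ?_
    rw [interior_Ici] at ht
    rw [(key t).2.deriv]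
    exact hneg t (le_of_lt ht)
  have h := hanti (mem_Ici.2 le_rfl) (mem_Ici.2 hτ) hτ
  simpa [adbB_zero, measureReal_def] using h

/-- the same with almost everywhere hypotheses. -/
theorem adb_mono_ae {Ω : Type*} [MeasurableSpace Ω] (μ : Measure Ω) [IsFiniteMeasure μ] (m : ℕ) (f q : Ω → ℝ)
    (hf : Measurable f) (hq : Measurable q) (hf1 : ∀ᵐ x ∂μ, |f x| ≤ 1) (hq0 : ∀ᵐ x ∂μ, 0 ≤ q x)
    (hq1 : ∀ᵐ x ∂μ, q x ≤ 1 - f x ^ 2)
    (hFV : ∀ τ : ℝ, 0 ≤ τ →
      ∫ x, (Real.sinh τ * adbB τ (f x) ^ (m + 1) * q x - adbB τ (f x) ^ m * f x) ∂μ = 0)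
    (τ : ℝ) (hτ : 0 ≤ τ) : ∫ x, adbB τ (f x) ^ m ∂μ ≤ (μ univ).toReal := by
  classical
  set G : Set Ω := {x | |f x| ≤ 1 ∧ 0 ≤ q x ∧ q x ≤ 1 - f x ^ 2} with hG
  have hGm : MeasurableSet G :=
    (measurableSet_le hf.abs measurable_const).inter
      ((measurableSet_le measurable_const hq).inter (measurableSet_le hq (measurable_const.sub (hf.pow_const 2))))
  have hGae : ∀ᵐ x ∂μ, x ∈ G := by
    filter_upwards [hf1, hq0, hq1] with x h1 h2 h3 using ⟨h1, h2, h3⟩
  have ef : G.indicator f =ᵐ[μ] f := by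
    filter_upwards [hGae] with x hx using indicator_of_mem hx f
  have eq : G.indicator q =ᵐ[μ] q := by
    filter_upwards [hGae] with x hx using indicator_of_mem hx q
  have key := adb_mono μ m (G.indicator f) (G.indicator q) (hf.indicator hGm) (hq.indicator hGm)
    (fun x => by
      by_cases hx : x ∈ G
      · rw [indicator_of_mem hx]; exact hx.1
      · rw [indicator_of_notMem hx]; simp)
    (fun x => by
      by_cases hx : x ∈ G
      · rw [indicator_of_mem hx]; exact hx.2.1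
      · rw [indicator_of_notMem hx])
    (fun x => by
      by_cases hx : x ∈ G
      · rw [indicator_of_mem hx, indicator_of_mem hx]; exact hx.2.2
      · rw [indicator_of_notMem hx, indicator_of_notMem hx]; norm_num)
    (fun σ hσ => by
      rw [← hFV σ hσ]
      refine integral_congr_ae ?_
      filter_upwards [ef, eq] with x h1 h2
      rw [h1, h2]) τ hτ
  rw [← integral_congr_ae (f := fun x => adbB τ (G.indicator f x) ^ m)]
  · exact key
  · filter_upwards [ef] with x h1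
    rw [h1]

end Claimed.Agent.R323
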