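import Claimed.Agent.R323.Ad.DblDefs

/-!
# Row 323, A3 (ν): `∫_{E m} (1 + |z|²/4)^{-m} dz = σ_m`.   Architect helper258.

LEAVES: `L-ADB-NUM1` = `adb_num_rad`;  `L-ADB-NUM2` = `adb_num_vol`, `adb_num`.
-/

set_option autoImplicit false
open scoped ContDiff ENNReal NNReal RealInnerProductSpace Topology
open MeasureTheory Metric Set Filter

namespace Claimed.Agent.R323

theorem adb_num_aux_cos {θ : ℝ} (h : θ ∈ Ioo (0 : ℝ) Real.pi) : 0 < Real.cos (θ / 2) :=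
  Real.cos_pos_of_mem_Ioo ⟨by linarith [h.1, Real.pi_pos], by linarith [h.2]⟩

theorem adb_num_aux_deriv {θ : ℝ} (h : θ ∈ Ioo (0 : ℝ) Real.pi) :
    HasDerivWithinAt (fun x : ℝ => 2 * Real.tan (x / 2)) ((Real.cos (θ / 2) ^ 2)⁻¹) (Ioo 0 Real.pi) θ := by
  have hc := (adb_num_aux_cos h).ne'
  have h1 : HasDerivAt (fun x : ℝ => x / 2) (1 / 2) θ := (hasDerivAt_id θ).div_const 2
  have h2 := ((Real.hasDerivAt_tan hc).comp θ h1).const_mul 2
  refine (h2.congr_deriv ?_).hasDerivWithinAt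
  field_simp

theorem adb_num_aux_inj : InjOn (fun x : ℝ => 2 * Real.tan (x / 2)) (Ioo 0 Real.pi) := by
  intro x hx y hy hxy
  have h : Real.tan (x / 2) = Real.tan (y / 2) := by
    have : 2 * Real.tan (x / 2) = 2 * Real.tan (y / 2) := hxy
    linarith
  have := Real.injOn_tan ⟨by linarith [hx.1, Real.pi_pos], by linarith [hx.2]⟩
    ⟨by linarith [hy.1, Real.pi_pos], by linarith [hy.2]⟩ h
  linarith

theorem adb_num_aux_image : (fun x : ℝ => 2 * Real.tan (x / 2)) '' Ioo 0 Real.pi = Ioi 0 := by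
  ext r
  constructor
  · rintro ⟨θ, hθ, rfl⟩
    have : 0 < Real.tan (θ / 2) := Real.tan_pos_of_pos_of_lt_pi_div_two (by linarith [hθ.1]) (by linarith [hθ.2])
    exact mem_Ioi.2 (by linarith)
  · intro hr
    have hr' : (0 : ℝ) < r := hr
    refine ⟨2 * Real.arctan (r / 2), ⟨?_, ?_⟩, ?_⟩
    · have : 0 < Real.arctan (r / 2) := Real.arctan_pos.2 (by linarith)
      linarith
    · have := Real.arctan_lt_pi_div_two (r / 2)
      linarith
    · show 2 * Real.tan (2 * Real.arctan (r / 2) / 2) = r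
      rw [mul_div_cancel_left₀ _ (two_ne_zero), Real.tan_arctan]
      ring

theorem adb_num_aux_val (k : ℕ) {θ : ℝ} (h : θ ∈ Ioo (0 : ℝ) Real.pi) :
    |(Real.cos (θ / 2) ^ 2)⁻¹| • ((2 * Real.tan (θ / 2)) ^ k * ((1 + (2 * Real.tan (θ / 2)) ^ 2 / 4) ^ (k + 1))⁻¹)
      = Real.sin θ ^ k := by
  have hc := adb_num_aux_cos h
  have hs : Real.sin θ = 2 * Real.sin (θ / 2) * Real.cos (θ / 2) := by
    rw [← Real.sin_two_mul]
    congr 1
    ring
  have h1 : 1 + (2 * Real.tan (θ / 2)) ^ 2 / 4 = (Real.cos (θ / 2) ^ 2)⁻¹ := by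
    rw [Real.tan_eq_sin_div_cos]
    have := Real.sin_sq_add_cos_sq (θ / 2)
    field_simp
    linarith
  rw [abs_of_pos (by positivity), h1, hs, Real.tan_eq_sin_div_cos, smul_eq_mul]
  obtain ⟨c, hcd⟩ : ∃ c, c = Real.cos (θ / 2) := ⟨_, rfl⟩
  obtain ⟨s, hsd⟩ : ∃ s, s = Real.sin (θ / 2) := ⟨_, rfl⟩
  rw [← hcd, ← hsd]
  rw [← hcd] at hc
  have hc0 : c ≠ 0 := hc.ne'
  rw [inv_pow, inv_inv, mul_pow 2 (s / c), div_pow, mul_pow (2 * s) c, mul_pow 2 s, pow_succ (c ^ 2) k, ← pow_mul,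
    mul_comm 2 k, pow_mul]
  have hck : c ^ k ≠ 0 := pow_ne_zero _ hc0
  field_simp

/-- `r = 2 tan(θ/2)`, `θ ∈ (0,π)`: `1 + r²/4 = cos⁻²(θ/2)`, `dr = cos⁻²(θ/2) dθ`, `r^k (1 + r²/4)^{-(k+1)} dr = (2 sin(θ/2) cos(θ/2))^k dθ = sin^k θ dθ`.
(`MeasureTheory.integral_image_eq_integral_abs_deriv_smul` on `Ioo 0 π`, image `= Ioi 0`; or `integral_comp_mul_deriv_Ioi`-type after `θ = 2 arctan(r/2)`; integrability comes with it.) -/
theorem adb_num_rad (k : ℕ) :
    IntegrableOn (fun r : ℝ => r ^ k * ((1 + r ^ 2 / 4) ^ (k + 1))⁻¹) (Ioi 0) ∧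
      ∫ r in Ioi (0 : ℝ), r ^ k * ((1 + r ^ 2 / 4) ^ (k + 1))⁻¹ = nuW k := by
  have hm : MeasurableSet (Ioo (0 : ℝ) Real.pi) := measurableSet_Ioo
  constructor
  · rw [← adb_num_aux_image,
      integrableOn_image_iff_integrableOn_abs_deriv_smul hm (fun θ hθ => adb_num_aux_deriv hθ) adb_num_aux_inj]
    refine IntegrableOn.congr_fun (f := fun θ => Real.sin θ ^ k) ?_ (fun θ hθ => (adb_num_aux_val k hθ).symm) hm
    exact ((Real.continuous_sin.pow k).integrableOn_Icc (a := 0) (b := Real.pi)).mono_set Ioo_subset_Icc_self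
  · rw [← adb_num_aux_image,
      integral_image_eq_integral_abs_deriv_smul hm (fun θ hθ => adb_num_aux_deriv hθ) adb_num_aux_inj,
      setIntegral_congr_fun hm (fun θ hθ => adb_num_aux_val k hθ), nuW,
      intervalIntegral.integral_of_le Real.pi_pos.le, integral_Ioc_eq_integral_Ioo]

/-- polar coordinates `MeasureTheory.integral_fun_norm_addHaar` (`∫ f ‖x‖ = dim • μ(ball 0 1) • ∫_{Ioi 0} y^(dim-1) f y`), `nuSig_eq_om`-type: `(k+1) vol(B^{k+1}) = nuSig k` (`nug_sig_eq_volume`), `nuSig_succ`.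
`ofReal`/`lintegral`: `ofReal_integral_eq_lintegral_ofReal` (integrability: `integrable_fun_norm_addHaar`). -/
theorem adb_num_vol (k : ℕ) :
    ∫⁻ z : EuclideanSpace ℝ (Fin (k + 1)), ENNReal.ofReal (((1 + ‖z‖ ^ 2 / 4) ^ (k + 1))⁻¹) = ENNReal.ofReal (nuSig (k + 1)) := by
  obtain ⟨h1, h2⟩ := adb_num_rad k
  have hdim : Module.finrank ℝ (EuclideanSpace ℝ (Fin (k + 1))) = k + 1 := finrank_euclideanSpace_fin
  have hint : Integrable (fun z : EuclideanSpace ℝ (Fin (k + 1)) => ((1 + ‖z‖ ^ 2 / 4) ^ (k + 1))⁻¹) volume := by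
    have := (integrable_fun_norm_addHaar (μ := (volume : Measure (EuclideanSpace ℝ (Fin (k + 1)))))
      (f := fun r : ℝ => ((1 + r ^ 2 / 4) ^ (k + 1))⁻¹)).2
    apply this
    rw [hdim, Nat.add_sub_cancel]
    simpa [smul_eq_mul] using h1
  rw [← ofReal_integral_eq_lintegral_ofReal hint (Filter.Eventually.of_forall fun z => by positivity)]
  congr 1
  have h3 := integral_fun_norm_addHaar (volume : Measure (EuclideanSpace ℝ (Fin (k + 1))))
    (fun r : ℝ => ((1 + r ^ 2 / 4) ^ (k + 1))⁻¹)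
  rw [h3, hdim, Nat.add_sub_cancel]
  simp only [smul_eq_mul, nsmul_eq_mul]
  rw [h2, nuSig_succ]
  have h4 := congrArg ENNReal.toReal (nug_sig_eq_volume k)
  rw [ENNReal.toReal_ofReal (nuSig_pos k).le, ENNReal.toReal_mul, ENNReal.toReal_natCast] at h4
  rw [h4, measureReal_def]
  ring

/-- for whatever constant `c` relates `μH[m]` to the Lebesgue measure of `E m`. -/
theorem adb_num (k : ℕ) (c : ℝ≥0∞)
    (hc : (μH[((k + 1 : ℕ) : ℝ)] : Measure (EuclideanSpace ℝ (Fin (k + 1)))) = c • volume) :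
    adbI (k + 1) = c * ENNReal.ofReal (nuSig (k + 1)) := by
  unfold adbI
  rw [hc, lintegral_smul_measure, adb_num_vol, smul_eq_mul]

end Claimed.Agent.R323
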