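import Claimed.Agent.R323.Defs
import Claimed.Agent.R322.Pack011
import Claimed.Prelude.Def_0508

/-!
# Row 323, block A (ADAPTER `Def_0508` -> `TT m`): DEFINITIONS and PLAN.      Architect: helper195.

`N = m + 2`, `F : M → E N` the minimal immersion, `V = volWithMult m F`, `c_m = adC m` (`μH[m] = c_m • volume` on `E m`; never computed).

## LEVEL 1 (one file = one package; every exit statement is in the file named; `Ad/Main.lean` is proved from them)
* `Ad/Var.lean`   [A1+A2]  `ad_var_exists : ∃ 𝒱, AdVar m F 𝒱`.   `𝒱` = the varifold of the immersion, a FINITE MEASURE on `E N × (E N →L E N)`: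
      push forward of `dvol_F` under `x ↦ (F x, projection onto the tangent plane)`.  All charts of `M` are hidden in this package.
      `AdVar.stat` = first variation for AMBIENT fields `W`:  `∫ (tr(P DW(y)) - m ⟪W y, y⟫) d𝒱(y,P) = 0`   (take `X = W ∘ F` in `IsMinimalInSphere`).
* `Ad/Mult.lean`  [A3]  `ad_mult` : a double point gives `2 c_m adSig m ≤ V`.  NO CONE, NO MONOTONICITY FORMULA: conformal flow.
      `ρ_τ(t) = (cosh τ - t sinh τ)^{-m}`, `p = F x₁`, `t = ⟪y,p⟫`.  `stat` with `W(y) = ρ_τ(⟪y,p⟫) p` and `⟪Pp,p⟫ ≤ 1 - t²`, `ρ_τ' ≥ 0` give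
      `0 ≤ ∫ ((1-t²) ρ_τ'(t) - m t ρ_τ(t)) d𝒱 = - d/dτ ∫ ρ_τ(t) d𝒱`   (identity `∂_τ ρ = -((1-t²) ∂_t ρ - m t ρ)`), hence `V ≥ ∫ ρ_τ d𝒱` for all `τ ≥ 0`;
      as `τ → ∞` every sheet through `p` contributes `c_m ∫_{E m} (2/(1+|v|²))^m dv = c_m adSig m`  (`ρ_τ ≥ ε^{-m} (1 + |y-p|²/(4ε²))^{-m}`, `ε = e^{-τ}`; `u = 2 ε v`).
* `Ad/Loc.lean`   [A2']  `ad_hyp` : `F` injective ⟹ `AdHyp N (adZ F)` (local defining functions of the cone over `F(M)`; inverse function theorem).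
* `Ad/Sep*.lean`  [A4]  `ad_sep` : `AdHyp k Z`, `3 ≤ k` ⟹ `Z ∪ {0} = gmtBd S` for an open regular cone `S` (Jordan-Brouwer; line field + lifting).
* `Ad/Gen*.lean`  [A-gen]  regular cones (NO minimality): `ad_gen_lf`, `ad_gen_polar` (`c_m μ_S = r^m dr ⊗ μH[m]⌞link`), `ad_gen_area`.
* `Ad/Stat.lean`  [A5]  `ad_stat` : `AdVar` + `F` injective + `gmtBd S = adZ F ∪ {0}` ⟹ `gmtDelta S X = 0` for all test fields (polar computation).
* `Ad/Clif.lean`  [A6]  `ad_cliff_reg`, `ad_cliff_link` (`cliffCone m j` is a regular cone with link `cliffordProduct m j`), `ad_not_half`.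
* `Nu`            `adSig m = sig m` (`ad_sig_eq`, file `Ad/Sig.lean`): `r = tan(θ/2)` turns `∫_0^∞ (2/(1+r²))^m r^{m-1} dr` into the Wallis integral `∫_0^π sin^{m-1}`.
-/

set_option autoImplicit false
open scoped Manifold ContDiff ENNReal NNReal RealInnerProductSpace Topology
open MeasureTheory Metric Set Filter
open Claims.C0508

namespace Claimed.Agent.R323

open Claimed.Agent.Gmt
open Claimed.Agent.R322 (IsProj tdiv)
open Claimed.Agent.R322.Base.Area (nd projR fibSum)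

/-- the Haar ratio: `μH[m] = adC m • volume` on `E m`. -/
noncomputable def adC (m : ℕ) : ℝ≥0∞ :=
  (μH[(m : ℝ)] : Measure (E m)) (ball 0 1) / volume (ball (0 : E m) 1)

/-- `|S^j|` as the integral of the conformal factor of the stereographic projection. -/
noncomputable def adSig (j : ℕ) : ℝ := ∫ v : E j, (2 / (1 + ‖v‖ ^ 2)) ^ j

/-- **the varifold of the immersion `F`** (a measure on points × tangent projections). -/
structure AdVar (m : ℕ) {M : Type*} [TopologicalSpace M] [ChartedSpace (E m) M]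
    (F : M → E (m + 2)) (𝒱 : Measure (E (m + 2) × (E (m + 2) →L[ℝ] E (m + 2)))) : Prop where
  fin : IsFiniteMeasure 𝒱
  /-- the weight measure is `#F⁻¹{y} μH[m]`. -/
  fst : 𝒱.map Prod.fst = (μH[(m : ℝ)]).withDensity (fun y => ((F ⁻¹' {y}).encard : ℝ≥0∞))
  /-- the second component is the projection onto a tangent plane at a preimage. -/
  tan : ∀ᵐ q ∂𝒱, ∃ x, F x = q.1 ∧
    q.2 = projR (mfderiv (𝓡 m) 𝓘(ℝ, E (m + 2)) F x : E m →L[ℝ] E (m + 2))
  /-- first variation in the sphere, for ambient fields (smooth near the unit sphere). -/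
  stat : ∀ (U : Set (E (m + 2))) (W : E (m + 2) → E (m + 2)), IsOpen U → sphere 0 1 ⊆ U →
    ContDiffOn ℝ ∞ W U → ∫ q, (tdiv q.2 (fderiv ℝ W q.1) - m * ⟪W q.1, q.1⟫) ∂𝒱 = 0

/-- the open cone over the image of `F` (vertex excluded). -/
def adZ {M : Type*} {k : ℕ} (F : M → E k) : Set (E k) := {y | ∃ t : ℝ, 0 < t ∧ ∃ x, y = t • F x}

/-- `Z` is a smooth conical hypersurface, closed in `E k \ {0}`. -/
structure AdHyp (k : ℕ) (Z : Set (E k)) : Prop where
  zero : (0 : E k) ∉ Z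
  closed : IsClosed (insert (0 : E k) Z)
  cone : ∀ t : ℝ, 0 < t → ∀ x ∈ Z, t • x ∈ Z
  loc : ∀ p ∈ Z, ∃ r > 0, ∃ φ : E k → ℝ, ContDiffOn ℝ ∞ φ (ball p r) ∧
    (∀ y ∈ ball p r, fderiv ℝ φ y ≠ 0) ∧ ∀ y ∈ ball p r, (φ y = 0 ↔ y ∈ Z)

/-- a cone which is regular away from the vertex (no minimality). -/
structure AdReg (k : ℕ) (S : Set (E k)) : Prop where
  meas : MeasurableSet S
  cone : GmtCone S
  reg : ∀ x ∈ gmtBd S, x ≠ 0 → GmtReg S x

/-- the link of a cone. -/
def adLink {k : ℕ} (S : Set (E k)) : Set (E k) := gmtBd S ∩ sphere 0 1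

end Claimed.Agent.R323
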