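import Claimed.Agent.R323.Ad.Mult
import Claimed.Agent.Lib.Gmt.HrSub

/-!
# Row 323, block A, package A-gen, leaf G1b: the perimeter measure of a `C¹` subgraph is the Hausdorff measure of the graph.   (helper111)
-/

set_option autoImplicit false
open scoped ContDiff ENNReal NNReal RealInnerProductSpace Topology
open MeasureTheory Metric Set Filter

namespace Claimed.Agent.R323

open Claimed.Agent.Gmt
open Claimed.Agent.R322.Base.Area (nd)

variable {n : ℕ}

/-- the derivative of the graph map `z ↦ (z, w z)` when `∇w = g`. -/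
noncomputable def adgL (n : ℕ) (g : E n) : E n →L[ℝ] E (n + 1) :=
  flInc n + (innerSL ℝ g).smulRight (gmtEn n)

theorem adgL_apply (g v : E n) : adgL n g v = gmtJoin v ⟪g, v⟫ := by
  rw [fl_join_eq]
  simp [adgL]

theorem adgL_inner (g u v : E n) : ⟪adgL n g u, adgL n g v⟫ = ⟪u, v⟫ + ⟪g, u⟫ * ⟪g, v⟫ := by
  rw [adgL_apply, adgL_apply, fl_inner, fl_hor_join, fl_hor_join, fl_ver_join, fl_ver_join]

theorem adg_nd_sq (g : E n) : nd (adgL n g) ^ 2 = 1 + ‖g‖ ^ 2 := by
  have h := LinearMap.normDet_sq_eq_det_gram ((adgL n g : E n →L[ℝ] E (n + 1)) : E n →ₗ[ℝ] E (n + 1))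
    (EuclideanSpace.basisFun (Fin n) ℝ)
  have hM : Matrix.gram ℝ (fun i => ((adgL n g : E n →L[ℝ] E (n + 1)) : E n →ₗ[ℝ] E (n + 1))
      (EuclideanSpace.basisFun (Fin n) ℝ i)) =
      1 + Matrix.replicateCol Unit (fun i => g i) * Matrix.replicateRow Unit (fun i => g i) := by
    ext i j
    rw [Matrix.gram_apply]
    simp only [ContinuousLinearMap.coe_coe, adgL_inner, EuclideanSpace.basisFun_apply]
    simp [Matrix.one_apply, Matrix.mul_apply, EuclideanSpace.inner_single_right, eq_comm]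
  rw [hM, Matrix.det_one_add_replicateCol_mul_replicateRow] at h
  have h2 : (fun i => g i) ⬝ᵥ (fun i => g i) = ‖g‖ ^ 2 := by
    rw [EuclideanSpace.norm_sq_eq]
    simp [dotProduct, sq]
  rw [h2] at h
  simpa [nd] using h

theorem adg_nd (g : E n) : nd (adgL n g) = Real.sqrt (1 + ‖g‖ ^ 2) := by
  rw [← adg_nd_sq, Real.sqrt_sq (Claimed.Agent.R322.Base.Area.nd_nonneg _)]

theorem adg_norm_N (w : E n → ℝ) (z : E n) : ‖hrN w z‖ = Real.sqrt (1 + ‖gradient w z‖ ^ 2) := by
  rw [← hr_norm_N, Real.sqrt_sq (norm_nonneg _)]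

theorem adg_hasFDerivAt_G {w : E n → ℝ} {z : E n} (h : DifferentiableAt ℝ w z) :
    HasFDerivAt (hrG w) (adgL n (gradient w z)) z := by
  have e : hrG w = fun z => flInc n z + w z • gmtEn n := by
    funext z
    exact fl_join_eq _ _
  rw [e]
  have h1 : HasFDerivAt w (innerSL ℝ (gradient w z)) z := by
    have := h.hasGradientAt
    rw [hasGradientAt_iff_hasFDerivAt] at this
    exact this
  exact (flInc n).hasFDerivAt.add (h1.smul_const (gmtEn n))

theorem adg_injective_G (w : E n → ℝ) : Function.Injective (hrG w) := by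
  intro a b hab
  have := congrArg gmtHor hab
  simpa [hrG, fl_hor_join] using this

/-! ### the boundary of a subgraph -/

section bd

variable {S : Set (E (n + 1))} {w : E n → ℝ} {ρ : ℝ}

theorem adg_cont_who (h : HrSub S w ρ) : ContinuousOn (fun y : E (n + 1) => w (gmtHor y)) (hrCyl ρ) := by
  refine h.c1.continuousOn.comp (gmtHorL n).continuous.continuousOn ?_
  intro y hy
  simpa using hy.1

theorem adg_isOpen_lo (h : HrSub S w ρ) : IsOpen {y : E (n + 1) | y ∈ hrCyl ρ ∧ gmtVer y < w (gmtHor y)} := by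
  have h1 : ContinuousOn (fun y : E (n + 1) => w (gmtHor y) - gmtVer y) (hrCyl ρ) :=
    (adg_cont_who h).sub (gmtVerL n).continuous.continuousOn
  have := h1.isOpen_inter_preimage (hr_isOpen_cyl ρ) (isOpen_Ioi (a := (0 : ℝ)))
  convert this using 1
  ext y
  simp [sub_pos]

theorem adg_isOpen_hi (h : HrSub S w ρ) : IsOpen {y : E (n + 1) | y ∈ hrCyl ρ ∧ w (gmtHor y) < gmtVer y} := by
  have h1 : ContinuousOn (fun y : E (n + 1) => gmtVer y - w (gmtHor y)) (hrCyl ρ) :=
    (gmtVerL n).continuous.continuousOn.sub (adg_cont_who h)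
  have := h1.isOpen_inter_preimage (hr_isOpen_cyl ρ) (isOpen_Ioi (a := (0 : ℝ)))
  convert this using 1
  ext y
  simp [sub_pos]

theorem adg_null_lo (h : HrSub S w ρ) :
    volume ({y : E (n + 1) | y ∈ hrCyl ρ ∧ gmtVer y < w (gmtHor y)} \ S) = 0 := by
  have := h.sub
  rw [ae_iff] at this
  refine measure_mono_null ?_ this
  rintro y ⟨⟨hy1, hy2⟩, hyS⟩
  intro hcon
  exact hyS ((hcon hy1).2 hy2)

theorem adg_null_hi (h : HrSub S w ρ) :
    volume (S ∩ {y : E (n + 1) | y ∈ hrCyl ρ ∧ w (gmtHor y) < gmtVer y}) = 0 := by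
  have := h.sub
  rw [ae_iff] at this
  refine measure_mono_null ?_ this
  rintro y ⟨hyS, hy1, hy2⟩
  intro hcon
  exact absurd ((hcon hy1).1 hyS) (not_lt.2 hy2.le)

theorem adg_shift_mem {y : E (n + 1)} (hy : y ∈ hrCyl ρ) {r : ℝ} (hr : 0 < r) :
    ∃ s : ℝ, 0 < s ∧ y - s • gmtEn n ∈ hrCyl ρ ∩ ball y r ∧ y + s • gmtEn n ∈ hrCyl ρ ∩ ball y r := by
  have ho : IsOpen (hrCyl ρ ∩ ball y r : Set (E (n + 1))) := (hr_isOpen_cyl ρ).inter isOpen_ball
  have hmem : y ∈ (hrCyl ρ ∩ ball y r : Set (E (n + 1))) := ⟨hy, mem_ball_self hr⟩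
  obtain ⟨δ, hδ, hsub⟩ := Metric.isOpen_iff.1 ho y hmem
  have hen : ‖gmtEn n‖ = 1 := by
    have := fl_norm_sq (gmtEn n)
    rw [fl_hor_en, fl_ver_en] at this
    have h2 : ‖gmtEn n‖ ^ 2 = 1 := by rw [this]; simp
    nlinarith [norm_nonneg (gmtEn n)]
  refine ⟨δ / 2, half_pos hδ, hsub ?_, hsub ?_⟩
  · rw [mem_ball, dist_eq_norm]
    have : y - (δ / 2) • gmtEn n - y = -((δ / 2) • gmtEn n) := by abel
    rw [this, norm_neg, norm_smul, hen, Real.norm_eq_abs, abs_of_pos (half_pos hδ)]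
    linarith
  · rw [mem_ball, dist_eq_norm]
    have : y + (δ / 2) • gmtEn n - y = (δ / 2) • gmtEn n := by abel
    rw [this, norm_smul, hen, Real.norm_eq_abs, abs_of_pos (half_pos hδ)]
    linarith

theorem adg_hor_add_smul (y : E (n + 1)) (s : ℝ) : gmtHor (y + s • gmtEn n) = gmtHor y := by
  show gmtHorL n (y + s • gmtEn n) = gmtHorL n y
  rw [map_add, map_smul]
  have : gmtHorL n (gmtEn n) = 0 := fl_hor_en
  rw [this]; simp

theorem adg_ver_add_smul (y : E (n + 1)) (s : ℝ) : gmtVer (y + s • gmtEn n) = gmtVer y + s := by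
  show gmtVerL n (y + s • gmtEn n) = gmtVerL n y + s
  rw [map_add, map_smul]
  have : gmtVerL n (gmtEn n) = 1 := fl_ver_en
  rw [this]; simp

/-- inside the cylinder the measure theoretic boundary of a subgraph is the graph. -/
theorem adg_bd_iff (h : HrSub S w ρ) {y : E (n + 1)} (hy : y ∈ hrCyl ρ) :
    y ∈ gmtBd S ↔ gmtVer y = w (gmtHor y) := by
  constructor
  · intro hb
    by_contra hne
    rcases lt_or_gt_of_ne hne with hlt | hgt
    · obtain ⟨r, hr, hsub⟩ := Metric.isOpen_iff.1 (adg_isOpen_lo h) y ⟨hy, hlt⟩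
      have := (hb r hr).2
      exact absurd (measure_mono_null (sdiff_subset_sdiff_left hsub) (adg_null_lo h)) this.ne'
    · obtain ⟨r, hr, hsub⟩ := Metric.isOpen_iff.1 (adg_isOpen_hi h) y ⟨hy, hgt⟩
      have := (hb r hr).1
      exact absurd (measure_mono_null (inter_subset_inter_right S hsub) (adg_null_hi h)) this.ne'
  · intro he r hr
    obtain ⟨s, hs, h1, h2⟩ := adg_shift_mem hy hr
    constructor
    · -- below the graph
      have ho : IsOpen ({y : E (n + 1) | y ∈ hrCyl ρ ∧ gmtVer y < w (gmtHor y)} ∩ ball y r) :=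
        (adg_isOpen_lo h).inter isOpen_ball
      have hne : ({y : E (n + 1) | y ∈ hrCyl ρ ∧ gmtVer y < w (gmtHor y)} ∩ ball y r).Nonempty := by
        refine ⟨y - s • gmtEn n, ⟨h1.1, ?_⟩, h1.2⟩
        have e : y - s • gmtEn n = y + (-s) • gmtEn n := by rw [neg_smul, sub_eq_add_neg]
        rw [e, adg_hor_add_smul, adg_ver_add_smul, he]
        linarith
      have hpos := ho.measure_pos volume hne
      refine lt_of_lt_of_le hpos ?_
      calc volume ({y : E (n + 1) | y ∈ hrCyl ρ ∧ gmtVer y < w (gmtHor y)} ∩ ball y r)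
          ≤ volume ((S ∩ ball y r) ∪ ({y : E (n + 1) | y ∈ hrCyl ρ ∧ gmtVer y < w (gmtHor y)} \ S)) := by
            refine measure_mono ?_
            rintro x ⟨hx1, hx2⟩
            by_cases hxS : x ∈ S
            · exact Or.inl ⟨hxS, hx2⟩
            · exact Or.inr ⟨hx1, hxS⟩
        _ ≤ volume (S ∩ ball y r) + volume ({y : E (n + 1) | y ∈ hrCyl ρ ∧ gmtVer y < w (gmtHor y)} \ S) :=
            measure_union_le _ _
        _ = volume (S ∩ ball y r) := by rw [adg_null_lo h, add_zero]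
    · have ho : IsOpen ({y : E (n + 1) | y ∈ hrCyl ρ ∧ w (gmtHor y) < gmtVer y} ∩ ball y r) :=
        (adg_isOpen_hi h).inter isOpen_ball
      have hne : ({y : E (n + 1) | y ∈ hrCyl ρ ∧ w (gmtHor y) < gmtVer y} ∩ ball y r).Nonempty := by
        refine ⟨y + s • gmtEn n, ⟨h2.1, ?_⟩, h2.2⟩
        rw [adg_hor_add_smul, adg_ver_add_smul, he]
        linarith
      have hpos := ho.measure_pos volume hne
      refine lt_of_lt_of_le hpos ?_
      calc volume ({y : E (n + 1) | y ∈ hrCyl ρ ∧ w (gmtHor y) < gmtVer y} ∩ ball y r)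
          ≤ volume ((ball y r \ S) ∪ (S ∩ {y : E (n + 1) | y ∈ hrCyl ρ ∧ w (gmtHor y) < gmtVer y})) := by
            refine measure_mono ?_
            rintro x ⟨hx1, hx2⟩
            by_cases hxS : x ∈ S
            · exact Or.inr ⟨hxS, hx1⟩
            · exact Or.inl ⟨hx2, hxS⟩
        _ ≤ volume (ball y r \ S) + volume (S ∩ {y : E (n + 1) | y ∈ hrCyl ρ ∧ w (gmtHor y) < gmtVer y}) :=
            measure_union_le _ _
        _ = volume (ball y r \ S) := by rw [adg_null_hi h, add_zero]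

theorem adg_image_eq (h : HrSub S w ρ) : hrG w '' ball 0 ρ = gmtBd S ∩ hrCyl ρ := by
  ext y
  constructor
  · rintro ⟨z, hz, rfl⟩
    have hc := hr_mu_G_mem h hz
    refine ⟨(adg_bd_iff h hc).2 ?_, hc⟩
    rw [hrG, fl_ver_join, fl_hor_join]
  · rintro ⟨hb, hc⟩
    refine ⟨gmtHor y, by simpa using hc.1, ?_⟩
    rw [hrG, ← (adg_bd_iff h hc).1 hb, fl_join_hor_ver]

/-- **G1b**: the perimeter measure of a `C¹` subgraph is (a multiple of) the Hausdorff measure of the graph. -/
theorem adg_graph_mu (h : HrSub S w ρ) :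
    adC n • (gmtMu S).restrict (hrCyl ρ) = (μH[(n : ℝ)]).restrict (gmtBd S ∩ hrCyl ρ) := by
  have hd : ∀ z ∈ ball (0 : E n) ρ, HasFDerivWithinAt (hrG w) (adgL n (gradient w z)) (ball 0 ρ) z := by
    intro z hz
    have : DifferentiableAt ℝ w z :=
      (h.c1.differentiableOn (by norm_num) z hz).differentiableAt (isOpen_ball.mem_nhds hz)
    exact (adg_hasFDerivAt_G this).hasFDerivWithinAt
  have key := Claimed.Agent.R322.Base.Area.map_withDensity_nd_eq (m := n) (F := E (n + 1))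
    (s := ball (0 : E n) ρ) (f := hrG w) (f' := fun z => adgL n (gradient w z))
    measurableSet_ball.nullMeasurableSet hd (adg_injective_G w).injOn
  rw [(hr_sub_mu h).2.1, ← adg_image_eq h, ← key, hrMu, adC_spec n, Measure.restrict_smul,
    withDensity_smul_measure, Measure.map_smul]
  congr 3
  funext z
  rw [adg_nd, adg_norm_N]

end bd

end Claimed.Agent.R323
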