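import Claimed.Agent.R323.Ad.Mult
import Claimed.Agent.R323.Nu.Cone
import Claimed.Agent.Lib.Gmt.HrSub
import Claimed.Agent.Lib.Gmt.FrD
import Claimed.Agent.R323.Ad.GenGraph

/-!
# Row 323, block A, package A-gen: perimeter measure of a regular cone = polar product of `r^m dr` and `μH[m]` on the link.      Contract + plan by helper195.

NO MINIMALITY.   `c_n = adC n` (`adC_spec`, `adC_ne_zero`, `adC_ne_top` in `Ad/Mult.lean`).   EXITS: `ad_gen_lf`, `ad_gen_polar`, `ad_gen_fin`, `ad_gen_area`.   Consumers: `Ad/Main`, `Ad/Stat`, Kit (link integral).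

## G1 `ad_gen_loc` : near a regular point `c_n μ_S = μH[n]⌞gmtBd S`   (`S ⊆ E (n+1)`)
 (a) `ad_gen_graph`: `φ` the defining function at `x`, `e = ∇φ(x)/|∇φ(x)|`, `O e = gmtEn n` (`fl_exists_rot`), `S̄ = gmtBlow O x 1 S = {y | x + O⁻¹ y ∈ S}`, `φ̄ y = φ(x + O⁻¹ y)`, `∂_t φ̄ > 0` near `0`:
     implicit function theorem (inverse function theorem for `(z,t) ↦ (z, φ̄(z,t))`) + monotonicity in `t`: `HrSub S̄ w ρ` with `w` smooth.
 (b) `ad_gen_graph_mu`: `hr_sub_mu`: `(gmtMu S̄).restrict (hrCyl ρ) = hrMu w ρ = (hrG w)_# (‖hrN w‖ dz)`; area formula `R322.Base.Area.map_withDensity_nd_eq`/`lintegral_image_eq_lintegral_nd_mul` for the injective `hrG w`;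
     `nd (fderiv (hrG w) z) = ‖hrN w z‖ = √(1+|∇w|²)` (`nd_sq`: `det (1 + ∇w ⊗ ∇w) = 1 + |∇w|²`); `gmtBd S̄ ∩ hrCyl ρ =` graph (`gmtSim_bd_local` with `φ = t - w z`).
 (c) transport by the isometry `y ↦ x + O⁻¹ y` (proof of `integral_gmtMu_gmtBlow`: `gmtMu S = map .. (gmtMu S̄)` for `r = 1`; `IsometryEquiv.map_hausdorffMeasure`).
## G2 `ad_gen_glob` : globalisation on an open set (Lindelöf; `Measure.ext_iff_of_iUnion_eq_univ` / `restrict_iUnion_congr`); off `gmtBd S` both sides vanish (`gmtP S (ball) = 0` when `S` is null or conull in the ball).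
## G3 `ad_gen_lf`, `ad_gen_zero` : the vertex.   `nu_remove_point` (`Nu/Cone.lean`): `gmtP S W ≤ gmtP S (W \ {0})`; `gmtP S (ball 0 R \ {0}) < ∞` by G2 + G4 (or: by scaling, `gmtP S (B_{2^{-j}} \ \bar B_{2^{-j-1}}) = 2^{-j(k-1)} gmtP S (B_1 \ \bar B_{1/2})`, compact annulus).
     `gmtMu S {0} ≤ gmtMu S (ball 0 r) = gmtP S (ball 0 r) ≤ gmtP S (ball 0 r \ {0}) → 0`.
## G4 `ad_gen_hpolar` : `c_m μH[m+1]⌞(gmtBd S \ 0) = c_{m+1} (r^m dr ⊗ μH[m]⌞link)` pushed by `(r,y) ↦ r y`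
 (a) `ad_gen_link_chart`: at `y₀` in the link, `φ` defining function; `⟪∇φ(y₀), y₀⟫ = 0` (the ray lies in `gmtBd S`: `gmtSim_bd_smul`).   Inverse function theorem for `y ↦ (L(y - y₀), φ y, |y|² - 1)`, `L` = an isometry of `{∇φ(y₀), y₀}^⊥` onto `E m` composed with the projection.
 (b) `ad_gen_cone_piece`: `G(u,r) = r • f u` on `{gmtJoin u r | u ∈ s, r > 0}`; injective; `nd (DG) = r^m nd (Df)` (`f ⊥ range Df`, `|f| = 1`); area formula twice; `volume` on `E (m+1)` = product (`fl_*` Fubini of `FlCoord`).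
 (c) finitely many charts cover the compact link; disjointify.
-/

set_option autoImplicit false
open scoped ContDiff ENNReal NNReal RealInnerProductSpace Topology
open MeasureTheory Metric Set Filter

namespace Claimed.Agent.R323

open Claimed.Agent.Gmt
open Claimed.Agent.R322.Base.Area (nd projR fibSum)

/-- the polar product measure `r^m dr ⊗ μH[m]⌞A`, pushed forward by `(r,y) ↦ r y`. -/
noncomputable def adPol (m : ℕ) {k : ℕ} (A : Set (E k)) : Measure (E k) :=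
  Measure.map (fun p : ℝ × E k => p.1 • p.2)
    ((((volume : Measure ℝ).restrict (Ioi 0)).withDensity fun r => ENNReal.ofReal (r ^ m)).prod
      ((μH[(m : ℝ)] : Measure (E k)).restrict A))

/-! ### G1 -/

/-- the vertical line through `(z, ·)`. -/
theorem ad_g1a_line {n : ℕ} (z : E n) (t : ℝ) : HasDerivAt (fun s : ℝ => gmtJoin z s) (gmtEn n) t := by
  have h : (fun s : ℝ => gmtJoin z s) = fun s => flInc n z + s • gmtEn n := by
    funext s; exact fl_join_eq z s
  rw [h]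
  simpa using ((hasDerivAt_id t).smul_const (gmtEn n)).const_add (flInc n z)

theorem ad_g1a_mem {n : ℕ} {ρ : ℝ} {z : E n} (hz : z ∈ ball (0 : E n) ρ) {t : ℝ} (ht : t ∈ Icc (-ρ) ρ) :
    gmtJoin z t ∈ ball (0 : E (n + 1)) (2 * ρ) := by
  rw [mem_ball_zero_iff] at hz ⊢
  have h := fl_norm_le_add (gmtJoin z t)
  rw [fl_hor_join, fl_ver_join] at h
  have h2 : |t| ≤ ρ := abs_le.2 ht
  linarith

/-- **the graph lemma** (implicit function theorem + monotonicity in the vertical variable). -/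
theorem ad_g1a_graph {n : ℕ} {r c : ℝ} (hr : 0 < r) (hc : 0 < c) {G : E (n + 1) → ℝ}
    (hG : ContDiffOn ℝ ∞ G (ball 0 r)) (hG0 : G 0 = 0) (hG' : ∀ v, fderiv ℝ G 0 v = c * gmtVer v) :
    ∃ (w : E n → ℝ) (ρ : ℝ), 0 < ρ ∧ 2 * ρ ≤ r ∧ ContDiffOn ℝ ∞ w (ball 0 ρ) ∧
      (∀ z ∈ ball (0 : E n) ρ, |w z| < ρ) ∧
      ∀ y ∈ (hrCyl ρ : Set (E (n + 1))), (G y < 0 ↔ gmtVer y < w (gmtHor y)) := by
  have hU : IsOpen (ball (0 : E (n + 1)) r) := isOpen_ball
  have h0U : (0 : E (n + 1)) ∈ ball (0 : E (n + 1)) r := mem_ball_self hr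
  have hdiff : ∀ y ∈ ball (0 : E (n + 1)) r, HasFDerivAt G (fderiv ℝ G y) y := fun y hy =>
    ((hG.contDiffAt (hU.mem_nhds hy)).differentiableAt (by simp)).hasFDerivAt
  -- Step A: the radius
  have hA1 : ∀ᶠ y in 𝓝 (0 : E (n + 1)), |G y - c * gmtVer y| ≤ c / 4 * ‖y‖ := by
    have h1 := (hdiff 0 h0U).isLittleO.def (show (0 : ℝ) < c / 4 by positivity)
    filter_upwards [h1] with y hy
    rw [hG0, sub_zero, sub_zero, hG', Real.norm_eq_abs] at hy
    exact hy
  have hA2 : ∀ᶠ y in 𝓝 (0 : E (n + 1)), 0 < fderiv ℝ G y (gmtEn n) := by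
    have h1 : ContinuousOn (fderiv ℝ G) (ball 0 r) := hG.continuousOn_fderiv_of_isOpen hU (by simp)
    have h2 : ContinuousAt (fun y => fderiv ℝ G y (gmtEn n)) 0 :=
      (h1.continuousAt (hU.mem_nhds h0U)).clm_apply continuousAt_const
    refine h2.eventually (lt_mem_nhds ?_)
    show 0 < fderiv ℝ G 0 (gmtEn n)
    rw [hG', fl_ver_en, mul_one]
    exact hc
  obtain ⟨ε, hε, hε'⟩ := Metric.eventually_nhds_iff_ball.1 (hA1.and hA2)
  set ρ := min ε r / 2 with hρ
  have hρ0 : 0 < ρ := by have := lt_min hε hr; positivity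
  have hρε : 2 * ρ ≤ ε := by rw [hρ]; linarith [min_le_left ε r]
  have hρr : 2 * ρ ≤ r := by rw [hρ]; linarith [min_le_right ε r]
  have hmemε : ∀ z ∈ ball (0 : E n) ρ, ∀ t ∈ Icc (-ρ) ρ, gmtJoin z t ∈ ball (0 : E (n + 1)) ε :=
    fun z hz t ht => ball_subset_ball hρε (ad_g1a_mem hz ht)
  have hmemr : ∀ z ∈ ball (0 : E n) ρ, ∀ t ∈ Icc (-ρ) ρ, gmtJoin z t ∈ ball (0 : E (n + 1)) r :=
    fun z hz t ht => ball_subset_ball hρr (ad_g1a_mem hz ht)
  -- Step C: monotonicity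
  have hder : ∀ z ∈ ball (0 : E n) ρ, ∀ t ∈ Icc (-ρ) ρ,
      HasDerivAt (fun s => G (gmtJoin z s)) (fderiv ℝ G (gmtJoin z t) (gmtEn n)) t := fun z hz t ht =>
    (hdiff _ (hmemr z hz t ht)).comp_hasDerivAt t (ad_g1a_line z t)
  have hmono : ∀ z ∈ ball (0 : E n) ρ, StrictMonoOn (fun s => G (gmtJoin z s)) (Icc (-ρ) ρ) := by
    intro z hz
    refine strictMonoOn_of_deriv_pos (convex_Icc _ _)
      (fun t ht => (hder z hz t ht).continuousAt.continuousWithinAt) fun t ht => ?_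
    rw [interior_Icc] at ht
    have ht' : t ∈ Icc (-ρ) ρ := Ioo_subset_Icc_self ht
    rw [(hder z hz t ht').deriv]
    exact (hε' _ (hmemε z hz t ht')).2
  -- Step D: the signs at the top and at the bottom
  have hnorm : ∀ z ∈ ball (0 : E n) ρ, ∀ t ∈ Icc (-ρ) ρ, ‖gmtJoin z t‖ < 2 * ρ := fun z hz t ht =>
    mem_ball_zero_iff.1 (ad_g1a_mem hz ht)
  have htop : ∀ z ∈ ball (0 : E n) ρ, 0 < G (gmtJoin z ρ) := by
    intro z hz
    have ht : ρ ∈ Icc (-ρ) ρ := ⟨by linarith, le_rfl⟩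
    have h1 := (hε' _ (hmemε z hz ρ ht)).1
    rw [fl_ver_join] at h1
    have h2 := (abs_le.1 h1).1
    have h3 := hnorm z hz ρ ht
    nlinarith
  have hbot : ∀ z ∈ ball (0 : E n) ρ, G (gmtJoin z (-ρ)) < 0 := by
    intro z hz
    have ht : -ρ ∈ Icc (-ρ) ρ := ⟨le_rfl, by linarith⟩
    have h1 := (hε' _ (hmemε z hz (-ρ) ht)).1
    rw [fl_ver_join] at h1
    have h2 := (abs_le.1 h1).2
    have h3 := hnorm z hz (-ρ) ht
    nlinarith
  -- Step E: the root
  have key : ∀ z ∈ ball (0 : E n) ρ, ∃ t, t ∈ Ioo (-ρ) ρ ∧ G (gmtJoin z t) = 0 := by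
    intro z hz
    have hcont : ContinuousOn (fun s => G (gmtJoin z s)) (Icc (-ρ) ρ) :=
      fun t ht => (hder z hz t ht).continuousAt.continuousWithinAt
    obtain ⟨t, ht, ht'⟩ := intermediate_value_Ioo (by linarith : -ρ ≤ ρ) hcont ⟨hbot z hz, htop z hz⟩
    exact ⟨t, ht, ht'⟩
  choose! w hw using key
  refine ⟨w, ρ, hρ0, hρr, ?_, fun z hz => abs_lt.2 (hw z hz).1, ?_⟩
  · -- Step G: smoothness
    intro z₀ hz₀
    have hw₀ := hw z₀ hz₀
    have hw₀' : w z₀ ∈ Icc (-ρ) ρ := Ioo_subset_Icc_self hw₀.1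
    set f : E n × ℝ → ℝ := fun p => G (gmtJoin p.1 p.2) with hf
    have hjoin : ContDiff ℝ ∞ (fun p : E n × ℝ => gmtJoin p.1 p.2) := by
      have : (fun p : E n × ℝ => gmtJoin p.1 p.2) = fun p => flInc n p.1 + p.2 • gmtEn n := by
        funext p; exact fl_join_eq _ _
      rw [this]
      exact ((flInc n).contDiff.comp contDiff_fst).add (contDiff_snd.smul contDiff_const)
    have cdf : ContDiffAt ℝ ∞ f (z₀, w z₀) :=
      ContDiffAt.comp (g := G) (f := fun p : E n × ℝ => gmtJoin p.1 p.2) (z₀, w z₀)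
        (hG.contDiffAt (hU.mem_nhds (hmemr z₀ hz₀ _ hw₀'))) hjoin.contDiffAt
    set d := fderiv ℝ G (gmtJoin z₀ (w z₀)) (gmtEn n) with hd
    have hd0 : 0 < d := (hε' _ (hmemε z₀ hz₀ _ hw₀')).2
    have hinr : ∀ s : ℝ, (fderiv ℝ f (z₀, w z₀) ∘L ContinuousLinearMap.inr ℝ (E n) ℝ) s = s * d := by
      intro s
      have h1 : HasFDerivAt f (fderiv ℝ f (z₀, w z₀)) (z₀, w z₀) := (cdf.differentiableAt (by simp)).hasFDerivAt
      have h2 : HasDerivAt (fun s : ℝ => ((z₀, s) : E n × ℝ)) ((0 : E n), (1 : ℝ)) (w z₀) :=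
        (hasDerivAt_const (w z₀) z₀).prodMk (hasDerivAt_id (w z₀))
      have h3 := h1.comp_hasDerivAt (w z₀) h2
      have h4 := (hder z₀ hz₀ _ hw₀').unique h3
      have h5 : (fderiv ℝ f (z₀, w z₀) ∘L ContinuousLinearMap.inr ℝ (E n) ℝ) s
          = fderiv ℝ f (z₀, w z₀) (s • ((0 : E n), (1 : ℝ))) := by
        simp
      rw [h5, map_smul, ← h4, smul_eq_mul]
    have if₂ : (fderiv ℝ f (z₀, w z₀) ∘L ContinuousLinearMap.inr ℝ (E n) ℝ).IsInvertible := by
      refine ⟨ContinuousLinearEquiv.equivOfInverse (fderiv ℝ f (z₀, w z₀) ∘L ContinuousLinearMap.inr ℝ (E n) ℝ)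
        (d⁻¹ • ContinuousLinearMap.id ℝ ℝ) (fun s => ?_) (fun s => ?_), rfl⟩
      · rw [hinr]
        simp only [smul_apply, ContinuousLinearMap.id_apply, smul_eq_mul]
        field_simp
      · rw [hinr]
        simp only [smul_apply, ContinuousLinearMap.id_apply, smul_eq_mul]
        field_simp
    have pn : (∞ : WithTop ℕ∞) ≠ 0 := by simp
    set ψ := cdf.implicitFunction pn if₂ with hψ
    have hψ0 : ψ z₀ = w z₀ := cdf.implicitFunction_apply_self pn if₂
    have hψe : ∀ᶠ z in 𝓝 z₀, f (z, ψ z) = f (z₀, w z₀) := cdf.eventually_apply_implicitFunction pn if₂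
    have hψc : ContDiffAt ℝ ∞ ψ z₀ := cdf.contDiffAt_implicitFunction pn if₂
    have hψI : ∀ᶠ z in 𝓝 z₀, ψ z ∈ Ioo (-ρ) ρ :=
      hψc.continuousAt.eventually (isOpen_Ioo.mem_nhds (by rw [hψ0]; exact hw₀.1))
    have heq : w =ᶠ[𝓝 z₀] ψ := by
      filter_upwards [hψe, hψI, isOpen_ball.mem_nhds hz₀] with z h1 h2 h3
      have h4 : G (gmtJoin z (ψ z)) = 0 := h1.trans hw₀.2
      exact (hmono z h3).injOn (Ioo_subset_Icc_self (hw z h3).1) (Ioo_subset_Icc_self h2)
        ((hw z h3).2.trans h4.symm)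
    exact (hψc.congr_of_eventuallyEq heq).contDiffWithinAt
  · -- Step F
    intro y hy
    have hz : gmtHor y ∈ ball (0 : E n) ρ := mem_ball_zero_iff.2 hy.1
    have ht : gmtVer y ∈ Icc (-ρ) ρ := Ioo_subset_Icc_self (abs_lt.1 hy.2)
    have h1 := (hmono _ hz).lt_iff_lt ht (Ioo_subset_Icc_self (hw _ hz).1)
    simp only [(hw _ hz).2, fl_join_hor_ver] at h1
    exact h1

/-- **G1a** -/
theorem ad_gen_graph {n : ℕ} {S : Set (E (n + 1))} (hS : MeasurableSet S) {x : E (n + 1)}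
    (hx : GmtReg S x) :
    ∃ (O : E (n + 1) ≃ₗᵢ[ℝ] E (n + 1)) (w : E n → ℝ) (ρ : ℝ),
      HrSub (gmtBlow O.toContinuousLinearEquiv x 1 S) w ρ ∧ ContDiffOn ℝ ∞ w (ball 0 ρ) := by
  obtain ⟨r, hr, φ, hφ, hφx, hφ', hSφ⟩ := hx
  have hxU : x ∈ ball x r := mem_ball_self hr
  set a := gradient φ x with ha
  have hin : ∀ v, ⟪a, v⟫ = fderiv ℝ φ x v := fun v => by simp [ha, gradient]
  have ha0 : a ≠ 0 := by
    intro h0
    refine hφ' x hxU ?_
    ext v
    rw [← hin, h0]; simp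
  have hna : 0 < ‖a‖ := norm_pos_iff.2 ha0
  obtain ⟨O, hO⟩ := fl_exists_rot (e := ‖a‖⁻¹ • a)
    (by rw [norm_smul, norm_inv, norm_norm, inv_mul_cancel₀ hna.ne'])
  have hOa : O a = ‖a‖ • gmtEn n := by
    rw [← hO, map_smul, smul_smul, mul_inv_cancel₀ hna.ne', one_smul]
  set A : E (n + 1) → E (n + 1) := gmtAff O.toContinuousLinearEquiv x 1 with hA
  have hAy : ∀ y, A y = x + O.symm y := fun y => by
    show x + (1 : ℝ) • O.toContinuousLinearEquiv.symm y = _
    rw [one_smul]; rfl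
  have hAf : A = fun y => x + (O.symm.toContinuousLinearEquiv : E (n + 1) →L[ℝ] E (n + 1)) y := by
    funext y; exact hAy y
  have hAfd : ∀ y, HasFDerivAt A (O.symm.toContinuousLinearEquiv : E (n + 1) →L[ℝ] E (n + 1)) y := by
    intro y
    rw [hAf]
    exact ((O.symm.toContinuousLinearEquiv : E (n + 1) →L[ℝ] E (n + 1)).hasFDerivAt).const_add x
  have hAs : ContDiff ℝ ∞ A := by
    rw [hAf]
    exact contDiff_const.add (O.symm.toContinuousLinearEquiv : E (n + 1) →L[ℝ] E (n + 1)).contDiff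
  have hAball : ∀ y ∈ ball (0 : E (n + 1)) r, A y ∈ ball x r := by
    intro y hy
    rw [hAy, mem_ball, dist_eq_norm, add_sub_cancel_left, O.symm.norm_map]
    exact mem_ball_zero_iff.1 hy
  set G : E (n + 1) → ℝ := fun y => φ (A y) with hGdef
  have hG : ContDiffOn ℝ ∞ G (ball 0 r) := hφ.comp hAs.contDiffOn hAball
  have hA0 : A 0 = x := by rw [hAy, map_zero, add_zero]
  have hG0 : G 0 = 0 := by show φ (A 0) = 0; rw [hA0]; exact hφx
  have hG' : ∀ v, fderiv ℝ G 0 v = ‖a‖ * gmtVer v := by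
    intro v
    have h1 : HasFDerivAt φ (fderiv ℝ φ x) (A 0) := by
      rw [hA0]
      exact ((hφ.contDiffAt (isOpen_ball.mem_nhds hxU)).differentiableAt (by simp)).hasFDerivAt
    have h2 : HasFDerivAt G _ 0 := h1.comp 0 (hAfd 0)
    rw [h2.fderiv]
    show fderiv ℝ φ x (O.symm v) = _
    rw [← hin, ← O.inner_map_map, O.apply_symm_apply, hOa, inner_smul_left, fl_ver_eq_inner,
      real_inner_comm]
    simp
  obtain ⟨w, ρ, hρ0, hρr, hw, hwlt, hsign⟩ := ad_g1a_graph hr hna hG hG0 hG'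
  refine ⟨O, w, ρ, ⟨hρ0, hS.preimage hAs.continuous.measurable, hw.of_le (by simp), hwlt, ?_⟩, hw⟩
  have hmp : MeasurePreserving A volume volume := by
    rw [hAf]
    exact (measurePreserving_add_left volume x).comp O.symm.measurePreserving
  have h1 := hmp.quasiMeasurePreserving.ae hSφ
  filter_upwards [h1] with y hy hyc
  have hyb : y ∈ ball (0 : E (n + 1)) r := ball_subset_ball hρr (hr_cyl_subset_ball ρ hyc)
  have hAb := hAball y hyb
  have h2 : (A y ∈ S ∩ ball x r) ↔ (A y ∈ {y | y ∈ ball x r ∧ φ y < 0}) := iff_of_eq hy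
  rw [← hsign y hyc]
  exact ⟨fun h => (h2.1 ⟨h, hAb⟩).2, fun h => (h2.2 ⟨hAb, h⟩).1⟩

/-- **G1b** -/
theorem ad_gen_graph_mu {n : ℕ} {S : Set (E (n + 1))} {w : E n → ℝ} {ρ : ℝ} (h : HrSub S w ρ) :
    adC n • (gmtMu S).restrict (hrCyl ρ) = (μH[(n : ℝ)]).restrict (gmtBd S ∩ hrCyl ρ) :=
  adg_graph_mu h

/-- the perimeter measure under a rigid motion. -/
theorem ad_gmtMu_rigid {k : ℕ} (O : E k ≃ₗᵢ[ℝ] E k) (z : E k) {S : Set (E k)} (hS : MeasurableSet S) :
    gmtMu S = Measure.map (gmtFrBH O.toContinuousLinearEquiv z one_pos)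
      (gmtMu (gmtBlow O.toContinuousLinearEquiv z 1 S)) := by
  have hspec : GmtPerMSpec (fun _ => gmtEu k) S
      (Measure.map (gmtFrBH O.toContinuousLinearEquiv z one_pos)
        (gmtMu (gmtBlow O.toContinuousLinearEquiv z 1 S))) := by
    have : (gmtMu (gmtBlow O.toContinuousLinearEquiv z 1 S)).OuterRegular := (gmtPerM_spec _ _).1
    refine ⟨Measure.OuterRegular.map (gmtFrBH O.toContinuousLinearEquiv z one_pos)
      (gmtMu (gmtBlow O.toContinuousLinearEquiv z 1 S)), ?_⟩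
    intro U hU
    rw [Measure.map_apply (gmtFrBH O.toContinuousLinearEquiv z one_pos).continuous.measurable
        hU.measurableSet,
      gmtPer_gmtBlow O.toContinuousLinearEquiv z one_pos _ hS U, gmtBlowA_eu,
      ← gmtFrB_blow_eq, gmtMu_open _ (isOpen_gmtBlow _ z 1 hU), one_pow, ENNReal.ofReal_one, one_mul]
    rfl
  exact (gmtPerM_unique hspec).symm

/-- the rigid motion as an isometry. -/
theorem ad_rigid_isometry {k : ℕ} (O : E k ≃ₗᵢ[ℝ] E k) (z : E k) :
    Isometry (gmtFrBH O.toContinuousLinearEquiv z one_pos) := by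
  refine Isometry.of_dist_eq fun a b => ?_
  show dist (gmtAff O.toContinuousLinearEquiv z 1 a) (gmtAff O.toContinuousLinearEquiv z 1 b) = _
  unfold gmtAff
  rw [one_smul, one_smul, dist_add_left]
  exact O.symm.dist_map a b

/-- **G1** -/
theorem ad_gen_loc {n : ℕ} {S : Set (E (n + 1))} (hS : MeasurableSet S) {x : E (n + 1)}
    (hx : GmtReg S x) :
    ∃ ρ > 0, adC n • (gmtMu S).restrict (ball x ρ) = (μH[(n : ℝ)]).restrict (gmtBd S ∩ ball x ρ) := by
  obtain ⟨O, w, ρ, hsub, -⟩ := ad_gen_graph hS hx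
  have hb := ad_gen_graph_mu hsub
  refine ⟨ρ, hsub.pos, ?_⟩
  set Φ := gmtFrBH O.toContinuousLinearEquiv x one_pos with hΦ
  set S' := gmtBlow O.toContinuousLinearEquiv x 1 S with hS'
  have hiso : Isometry Φ := ad_rigid_isometry O x
  have hemb : MeasurableEmbedding Φ := Φ.measurableEmbedding
  -- preimages
  have hpb : Φ ⁻¹' ball x ρ = ball 0 ρ := by
    have h0 : Φ 0 = x := by
      show gmtAff O.toContinuousLinearEquiv x 1 0 = x
      simp [gmtAff]
    rw [← h0, hiso.preimage_ball]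
  have hpd : Φ ⁻¹' gmtBd S = gmtBd S' := by
    rw [hS', gmtBd_gmtBlow _ x one_pos S]
    rfl
  have hH : Measure.map Φ (μH[(n : ℝ)] : Measure (E (n + 1))) = μH[(n : ℝ)] := by
    have := (IsometryEquiv.mk' Φ Φ.symm (fun y => Φ.apply_symm_apply y) hiso).map_hausdorffMeasure
      (d := (n : ℝ))
    exact this
  have hbm : MeasurableSet (ball (0 : E (n + 1)) ρ) := measurableSet_ball
  -- restrict the cylinder identity to the ball
  have hb' : adC n • (gmtMu S').restrict (ball 0 ρ) = (μH[(n : ℝ)]).restrict (gmtBd S' ∩ ball 0 ρ) := by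
    have h := congrArg (fun μ => μ.restrict (ball (0 : E (n + 1)) ρ)) hb
    simp only [Measure.restrict_smul, Measure.restrict_restrict hbm] at h
    rw [inter_eq_left.2 (hr_ball_subset_cyl ρ)] at h
    rw [h]
    congr 1
    rw [inter_comm, inter_assoc, inter_eq_right.2 (hr_ball_subset_cyl ρ)]
  calc adC n • (gmtMu S).restrict (ball x ρ)
      = adC n • (Measure.map Φ (gmtMu S')).restrict (ball x ρ) := by rw [← ad_gmtMu_rigid O x hS]
    _ = Measure.map Φ (adC n • (gmtMu S').restrict (ball 0 ρ)) := by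
        rw [hemb.restrict_map, hpb, Measure.map_smul]
    _ = Measure.map Φ ((μH[(n : ℝ)]).restrict (gmtBd S' ∩ ball 0 ρ)) := by rw [hb']
    _ = (Measure.map Φ (μH[(n : ℝ)])).restrict (gmtBd S ∩ ball x ρ) := by
        rw [hemb.restrict_map, preimage_inter, hpb, hpd]
    _ = _ := by rw [hH]

/-! ### G2 -/

/-- **G2** -/
theorem ad_gen_glob {n : ℕ} {S : Set (E (n + 1))} (hS : MeasurableSet S) {U : Set (E (n + 1))}
    (hU : IsOpen U) (hreg : ∀ x ∈ gmtBd S, x ∈ U → GmtReg S x) :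
    adC n • (gmtMu S).restrict U = (μH[(n : ℝ)]).restrict (gmtBd S ∩ U) := by
  classical
  set B : Set (E (n + 1)) := gmtBd S ∩ U with hB
  have hBm : MeasurableSet B := (isClosed_gmtBd S).measurableSet.inter hU.measurableSet
  have hloc : ∀ x : E (n + 1), ∃ ρ : ℝ, 0 < ρ ∧ (x ∈ B →
      adC n • (gmtMu S).restrict (ball x ρ) = (μH[(n : ℝ)]).restrict (gmtBd S ∩ ball x ρ)) := by
    intro x
    by_cases hx : x ∈ B
    · obtain ⟨ρ, hρ, h⟩ := ad_gen_loc hS (hreg x hx.1 hx.2)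
      exact ⟨ρ, hρ, fun _ => h⟩
    · exact ⟨1, one_pos, fun h => absurd h hx⟩
  choose ρ hρ hρB using hloc
  obtain ⟨t, htB, htc, hcov⟩ := TopologicalSpace.countable_cover_nhdsWithin
    (s := B) (f := fun x => ball x (ρ x))
    (fun x _ => mem_nhdsWithin_of_mem_nhds (ball_mem_nhds x (hρ x)))
  set 𝒮 : Set (Set (E (n + 1))) := insert Bᶜ ((fun x => ball x (ρ x)) '' t) with h𝒮
  have h𝒮c : 𝒮.Countable := (htc.image _).insert _
  have h𝒮u : ⋃₀ 𝒮 = univ := by
    refine eq_univ_of_forall fun y => ?_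
    by_cases hy : y ∈ B
    · obtain ⟨x, hx, hyx⟩ := mem_iUnion₂.1 (hcov hy)
      exact ⟨ball x (ρ x), Or.inr ⟨x, hx, rfl⟩, hyx⟩
    · exact ⟨Bᶜ, Or.inl rfl, hy⟩
  refine (Measure.ext_iff_of_sUnion_eq_univ h𝒮c h𝒮u).2 ?_
  rintro s (rfl | ⟨x, hx, rfl⟩)
  · -- off `B` both vanish
    have h1 : (adC n • (gmtMu S).restrict U).restrict Bᶜ = 0 := by
      rw [Measure.restrict_eq_zero, Measure.smul_apply, Measure.restrict_apply hBm.compl]
      have : gmtMu S (Bᶜ ∩ U) = 0 := by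
        refine measure_mono_null ?_ (gmtMu_compl_gmtBd hS)
        rintro y ⟨hy1, hy2⟩ hy3
        exact hy1 ⟨hy3, hy2⟩
      rw [this, smul_zero]
    have h2 : ((μH[(n : ℝ)] : Measure (E (n + 1))).restrict B).restrict Bᶜ = 0 := by
      rw [Measure.restrict_restrict hBm.compl, compl_inter_self, Measure.restrict_empty]
    rw [h1, h2]
  · have h := hρB x (htB hx)
    have hb : MeasurableSet (ball x (ρ x)) := measurableSet_ball
    calc (adC n • (gmtMu S).restrict U).restrict (ball x (ρ x))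
        = (adC n • (gmtMu S).restrict (ball x (ρ x))).restrict U := by
          rw [Measure.restrict_smul, Measure.restrict_smul, Measure.restrict_restrict hb,
            Measure.restrict_restrict hU.measurableSet, inter_comm]
      _ = ((μH[(n : ℝ)]).restrict (gmtBd S ∩ ball x (ρ x))).restrict U := by rw [h]
      _ = ((μH[(n : ℝ)]).restrict B).restrict (ball x (ρ x)) := by
          rw [Measure.restrict_restrict hU.measurableSet, Measure.restrict_restrict hb]
          congr 1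
          ext y
          simp only [hB, mem_inter_iff]
          tauto

/-! ### G4 -/

/-- **smooth inverse function theorem on neighbourhoods**: a local homeomorphism with smooth inverse ON the target. -/
theorem ad_g_ift {X Y : Type*} [NormedAddCommGroup X] [NormedSpace ℝ X] [CompleteSpace X]
    [NormedAddCommGroup Y] [NormedSpace ℝ Y] [CompleteSpace Y] {Ψ : X → Y} {U : Set X} (hU : IsOpen U)
    (hΨ : ContDiffOn ℝ ∞ Ψ U) {p : X} (hp : p ∈ U) (L : X ≃L[ℝ] Y)
    (hL : HasFDerivAt Ψ (L : X →L[ℝ] Y) p) :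
    ∃ e : OpenPartialHomeomorph X Y, (e : X → Y) = Ψ ∧ p ∈ e.source ∧ e.source ⊆ U ∧
      ContDiffOn ℝ ∞ e.symm e.target := by
  have hn1 : (∞ : WithTop ℕ∞) ≠ 0 := by simp
  have hΨp : ContDiffAt ℝ ∞ Ψ p := hΨ.contDiffAt (hU.mem_nhds hp)
  set e0 := hΨp.toOpenPartialHomeomorph Ψ hL hn1 with he0
  have he0c : (e0 : X → Y) = Ψ := hΨp.toOpenPartialHomeomorph_coe hL hn1
  have hsrc : p ∈ e0.source := hΨp.mem_toOpenPartialHomeomorph_source hL hn1
  -- the set of good points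
  set W : Set X := U ∩ fderiv ℝ Ψ ⁻¹' range ((↑) : (X ≃L[ℝ] Y) → (X →L[ℝ] Y)) with hW
  have hcont : ContinuousOn (fderiv ℝ Ψ) U := hΨ.continuousOn_fderiv_of_isOpen hU (by simp)
  have hWo : IsOpen W := hcont.isOpen_inter_preimage hU (ContinuousLinearEquiv.isOpen)
  have hpW : p ∈ W := ⟨hp, L, hL.fderiv.symm⟩
  refine ⟨e0.restrOpen W hWo, he0c, ⟨hsrc, hpW⟩, fun x hx => hx.2.1, ?_⟩
  intro y hy
  have hy' : y ∈ (e0.restrOpen W hWo).target := hy
  have hs : (e0.restrOpen W hWo).symm y ∈ (e0.restrOpen W hWo).source := (e0.restrOpen W hWo).map_target hy'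
  obtain ⟨hs1, hs2, L', hL'⟩ := hs
  have hc : ContDiffAt ℝ ∞ Ψ ((e0.restrOpen W hWo).symm y) := hΨ.contDiffAt (hU.mem_nhds hs2)
  refine ((e0.restrOpen W hWo).contDiffAt_symm hy' (f₀' := L') ?_ ?_).contDiffWithinAt
  · rw [hL']
    exact (hc.differentiableAt (by simp)).hasFDerivAt
  · exact hc

/-- two orthogonal non-zero functionals are completed to a linear isomorphism. -/
theorem ad_g4a_lin {m : ℕ} {a b : E (m + 2)} (ha : a ≠ 0) (hb : b ≠ 0) (hab : ⟪a, b⟫ = 0) :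
    ∃ (L : E (m + 2) →L[ℝ] E m) (T : E (m + 2) ≃L[ℝ] E m × ℝ × ℝ),
      ∀ v, T v = (L v, ⟪a, v⟫, ⟪b, v⟫) := by
  set B : E (m + 2) →L[ℝ] ℝ × ℝ := (innerSL ℝ a).prod (innerSL ℝ b) with hB
  have hBv : ∀ v, B v = (⟪a, v⟫, ⟪b, v⟫) := fun v => rfl
  have ha2 : ⟪a, a⟫ ≠ 0 := inner_self_ne_zero.2 ha
  have hb2 : ⟪b, b⟫ ≠ 0 := inner_self_ne_zero.2 hb
  have hba : ⟪b, a⟫ = 0 := by rw [real_inner_comm]; exact hab
  have hsurj : Function.Surjective (B : E (m + 2) →ₗ[ℝ] ℝ × ℝ) := by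
    rintro ⟨s, t⟩
    refine ⟨(s / ⟪a, a⟫) • a + (t / ⟪b, b⟫) • b, ?_⟩
    show B _ = _
    rw [hBv, inner_add_right, inner_add_right, inner_smul_right, inner_smul_right, inner_smul_right,
      inner_smul_right, hab, hba, mul_zero, mul_zero, add_zero, zero_add, div_mul_cancel₀ _ ha2,
      div_mul_cancel₀ _ hb2]
  set K : Submodule ℝ (E (m + 2)) := LinearMap.ker (B : E (m + 2) →ₗ[ℝ] ℝ × ℝ) with hK
  have hfr : Module.finrank ℝ K = m := by
    have h1 := LinearMap.finrank_range_add_finrank_ker (B : E (m + 2) →ₗ[ℝ] ℝ × ℝ)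
    rw [LinearMap.range_eq_top.2 hsurj, finrank_top, Module.finrank_prod, Module.finrank_self,
      finrank_euclideanSpace_fin] at h1
    have h2 : Module.finrank ℝ K = Module.finrank ℝ (LinearMap.ker (B : E (m + 2) →ₗ[ℝ] ℝ × ℝ)) := rfl
    omega
  have ι : K ≃ₗ[ℝ] E m := LinearEquiv.ofFinrankEq K (E m) (by rw [hfr, finrank_euclideanSpace_fin])
  set L : E (m + 2) →L[ℝ] E m := (ι.toContinuousLinearEquiv : K →L[ℝ] E m).comp K.orthogonalProjectionOnto with hL
  set T0 : E (m + 2) →L[ℝ] E m × ℝ × ℝ := L.prod B with hT0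
  have hinj : Function.Injective (T0 : E (m + 2) →ₗ[ℝ] E m × ℝ × ℝ) := by
    rw [← LinearMap.ker_eq_bot, LinearMap.ker_eq_bot']
    intro v hv
    have hv' : (L v, B v) = 0 := hv
    rw [Prod.mk_eq_zero] at hv'
    obtain ⟨h1, h2⟩ := hv'
    have h3 : K.orthogonalProjectionOnto v = 0 := by
      have : ι (K.orthogonalProjectionOnto v) = 0 := h1
      exact (LinearEquiv.map_eq_zero_iff ι).1 this
    have h4 : v ∈ K := h2
    have h5 := Submodule.orthogonalProjectionOnto_mem_subspace_eq_self (K := K) ⟨v, h4⟩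
    rw [h3] at h5
    exact (congrArg Subtype.val h5).symm
  have hdim : Module.finrank ℝ (E (m + 2)) = Module.finrank ℝ (E m × ℝ × ℝ) := by
    rw [Module.finrank_prod, Module.finrank_prod, Module.finrank_self, finrank_euclideanSpace_fin,
      finrank_euclideanSpace_fin]
  refine ⟨L, (LinearMap.linearEquivOfInjective (T0 : E (m + 2) →ₗ[ℝ] E m × ℝ × ℝ) hinj hdim).toContinuousLinearEquiv, fun v => ?_⟩
  rfl

/-- **G4a** charts of the link. -/
theorem ad_gen_link_chart {m : ℕ} {S : Set (E (m + 2))} (hS : AdReg (m + 2) S) {y₀ : E (m + 2)}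
    (hy₀ : y₀ ∈ adLink S) :
    ∃ (V : Set (E (m + 2))) (r : ℝ) (f : E m → E (m + 2)), IsOpen V ∧ y₀ ∈ V ∧ 0 < r ∧
      ContDiffOn ℝ ∞ f (ball 0 r) ∧ (∀ u ∈ ball (0 : E m) r, Function.Injective (fderiv ℝ f u)) ∧
      InjOn f (ball 0 r) ∧ f '' ball 0 r = adLink S ∩ V ∧ ∃ K : ℝ≥0, LipschitzOnWith K f (ball 0 r) := by
  obtain ⟨hbd, hsph⟩ := hy₀
  have hn : ‖y₀‖ = 1 := mem_sphere_zero_iff_norm.1 hsph
  have hne : y₀ ≠ 0 := fun h => by rw [h, norm_zero] at hn; exact zero_ne_one hn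
  obtain ⟨r₀, hr₀, φ, hφ, hφ0, hφ', hSφ⟩ := hS.reg y₀ hbd hne
  have hU : IsOpen (ball y₀ r₀) := isOpen_ball
  have hyU : y₀ ∈ ball y₀ r₀ := mem_ball_self hr₀
  have hloc : ∀ x ∈ ball y₀ r₀, (x ∈ gmtBd S ↔ φ x = 0) := fun x hx =>
    (gmtSim_bd_local hφ hφ' hSφ hx).1
  set a := gradient φ y₀ with ha
  have hin : ∀ v, ⟪a, v⟫ = fderiv ℝ φ y₀ v := fun v => by simp [ha, gradient]
  have ha0 : a ≠ 0 := by
    intro h0
    refine hφ' y₀ hyU ?_
    ext v
    rw [← hin, h0]; simp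
  have hφd : HasFDerivAt φ (fderiv ℝ φ y₀) y₀ :=
    ((hφ.contDiffAt (hU.mem_nhds hyU)).differentiableAt (by simp)).hasFDerivAt
  -- the gradient is tangent to the sphere
  have hay : ⟪a, y₀⟫ = 0 := by
    rw [hin]
    have hc : HasDerivAt (fun s : ℝ => s • y₀) y₀ 1 := by
      simpa using (hasDerivAt_id (1 : ℝ)).smul_const y₀
    have h1 : HasDerivAt (fun s : ℝ => φ (s • y₀)) (fderiv ℝ φ y₀ y₀) 1 :=
      (show HasFDerivAt φ (fderiv ℝ φ y₀) ((1 : ℝ) • y₀) by rw [one_smul]; exact hφd).comp_hasDerivAt 1 hc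
    have h2 : (fun s : ℝ => φ (s • y₀)) =ᶠ[𝓝 1] fun _ => (0 : ℝ) := by
      have h3 : ∀ᶠ s in 𝓝 (1 : ℝ), s • y₀ ∈ ball y₀ r₀ :=
        hc.continuousAt.eventually (hU.mem_nhds (by show (1 : ℝ) • y₀ ∈ _; rw [one_smul]; exact hyU))
      filter_upwards [h3, lt_mem_nhds (zero_lt_one' ℝ)] with s hs1 hs2
      exact (hloc _ hs1).1 ((gmtSim_bd_smul hS.cone hs2 y₀).2 hbd)
    exact (h1.congr_of_eventuallyEq h2.symm).unique (hasDerivAt_const (1 : ℝ) (0 : ℝ))
  obtain ⟨L, T, hT⟩ := ad_g4a_lin ha0 (b := (2 : ℝ) • y₀) (smul_ne_zero two_ne_zero hne)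
    (by rw [inner_smul_right, hay, mul_zero])
  set Ψ : E (m + 2) → E m × ℝ × ℝ := fun y => (L (y - y₀), φ y, ⟪y, y⟫ - 1) with hΨ
  have hΨs : ContDiffOn ℝ ∞ Ψ (ball y₀ r₀) :=
    ((L.contDiff.comp (contDiff_id.sub contDiff_const)).contDiffOn).prodMk
      (hφ.prodMk ((contDiff_id.inner ℝ contDiff_id).sub contDiff_const).contDiffOn)
  have hΨd : HasFDerivAt Ψ (T : E (m + 2) →L[ℝ] E m × ℝ × ℝ) y₀ := by
    have h1 : HasFDerivAt (fun y => L (y - y₀)) L y₀ :=
      L.hasFDerivAt.comp y₀ ((hasFDerivAt_id y₀).sub_const y₀)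
    have h3 := ((hasFDerivAt_id y₀).inner ℝ (hasFDerivAt_id y₀)).sub_const 1
    refine (h1.prodMk (hφd.prodMk h3)).congr_fderiv ?_
    refine ContinuousLinearMap.ext fun v => ?_
    show _ = T v
    rw [hT, hin, inner_smul_left]
    simp [fderivInnerCLM_apply, real_inner_comm, two_mul]
  obtain ⟨e, hec, hsrc, hsub, hsm⟩ := ad_g_ift hU hΨs hyU T hΨd
  have hΨ0 : Ψ y₀ = (0, 0, 0) := by
    simp [hΨ, hφ0, hn]
  have htgt : ((0 : E m), (0 : ℝ), (0 : ℝ)) ∈ e.target := by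
    have := e.map_source hsrc
    rwa [hec, hΨ0] at this
  have hι : ContDiff ℝ ∞ (fun u : E m => (u, (0 : ℝ), (0 : ℝ))) := contDiff_id.prodMk contDiff_const
  obtain ⟨r₁, hr₁, hrt₁⟩ := Metric.isOpen_iff.1 (e.open_target.preimage hι.continuous) 0 htgt
  have hfs₁ : ContDiffOn ℝ ∞ (fun u : E m => e.symm (u, (0 : ℝ), (0 : ℝ))) (ball 0 r₁) :=
    hsm.comp hι.contDiffOn fun u hu => hrt₁ hu
  obtain ⟨K, t, ht, hK⟩ := ((hfs₁.contDiffAt (isOpen_ball.mem_nhds (mem_ball_self hr₁))).of_le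
    (m := 1) (by simp)).exists_lipschitzOnWith
  obtain ⟨r₂, hr₂, hr₂t⟩ := Metric.mem_nhds_iff.1 ht
  set r := min r₁ r₂ with hrdef
  have hr : 0 < r := lt_min hr₁ hr₂
  have hrt' : ∀ u ∈ ball (0 : E m) r, (u, (0 : ℝ), (0 : ℝ)) ∈ e.target := fun u hu =>
    hrt₁ (ball_subset_ball (min_le_left _ _) hu)
  have hLc : Continuous (fun y => L (y - y₀)) := L.continuous.comp (continuous_id.sub continuous_const)
  have hfs : ContDiffOn ℝ ∞ (fun u : E m => e.symm (u, (0 : ℝ), (0 : ℝ))) (ball 0 r) :=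
    hfs₁.mono (ball_subset_ball (min_le_left _ _))
  have hΨf : ∀ u ∈ ball (0 : E m) r, Ψ (e.symm (u, (0 : ℝ), (0 : ℝ))) = (u, 0, 0) := fun u hu => by
    have := e.right_inv (hrt' u hu)
    rwa [hec] at this
  refine ⟨e.source ∩ (fun y => L (y - y₀)) ⁻¹' ball 0 r, r, fun u => e.symm (u, 0, 0),
    e.open_source.inter (isOpen_ball.preimage hLc), ⟨hsrc, ?_⟩, hr, hfs, ?_, ?_, ?_,
    K, hK.mono ((ball_subset_ball (min_le_right _ _)).trans hr₂t)⟩
  · show L (y₀ - y₀) ∈ ball (0 : E m) r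
    rw [sub_self, map_zero]
    exact mem_ball_self hr
  · -- the differential is injective
    intro u hu
    have hfu : e.symm (u, (0 : ℝ), (0 : ℝ)) ∈ ball y₀ r₀ := hsub (e.map_target (hrt' u hu))
    have h1 : HasFDerivAt (fun u : E m => e.symm (u, (0 : ℝ), (0 : ℝ)))
        (fderiv ℝ (fun u : E m => e.symm (u, (0 : ℝ), (0 : ℝ))) u) u :=
      ((hfs.contDiffAt (isOpen_ball.mem_nhds hu)).differentiableAt (by simp)).hasFDerivAt
    have h2 : HasFDerivAt Ψ (fderiv ℝ Ψ (e.symm (u, (0 : ℝ), (0 : ℝ)))) (e.symm (u, (0 : ℝ), (0 : ℝ))) :=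
      ((hΨs.contDiffAt (hU.mem_nhds hfu)).differentiableAt (by simp)).hasFDerivAt
    have h3 := h2.comp u h1
    have h4 : (Ψ ∘ fun u : E m => e.symm (u, (0 : ℝ), (0 : ℝ))) =ᶠ[𝓝 u] fun u => (u, (0 : ℝ), (0 : ℝ)) := by
      filter_upwards [isOpen_ball.mem_nhds hu] with u' hu'
      exact hΨf u' hu'
    have h5 : HasFDerivAt (fun u : E m => (u, (0 : ℝ), (0 : ℝ)))
        ((ContinuousLinearMap.id ℝ (E m)).prod (0 : E m →L[ℝ] ℝ × ℝ)) u :=
      (hasFDerivAt_id u).prodMk (hasFDerivAt_const _ u)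
    have h6 := (h3.congr_of_eventuallyEq h4.symm).unique h5
    intro v v' hvv
    have h7 := congrArg (fun A : E m →L[ℝ] E m × ℝ × ℝ => (A v).1) h6
    have h8 := congrArg (fun A : E m →L[ℝ] E m × ℝ × ℝ => (A v').1) h6
    simp only [ContinuousLinearMap.comp_apply, ContinuousLinearMap.prod_apply,
      ContinuousLinearMap.id_apply] at h7 h8
    rw [← h7, ← h8, hvv]
  · intro u hu u' hu' huu
    have h1 := e.symm.injOn (hrt' u hu) (hrt' u' hu') huu
    exact (Prod.mk.inj h1).1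
  · ext y
    constructor
    · rintro ⟨u, hu, rfl⟩
      have hs : e.symm (u, (0 : ℝ), (0 : ℝ)) ∈ e.source := e.map_target (hrt' u hu)
      have h1 := hΨf u hu
      have h2 : L (e.symm (u, (0 : ℝ), (0 : ℝ)) - y₀) = u := congrArg Prod.fst h1
      have h3 : φ (e.symm (u, (0 : ℝ), (0 : ℝ))) = 0 := congrArg (fun q => q.2.1) h1
      have h4 : ⟪e.symm (u, (0 : ℝ), (0 : ℝ)), e.symm (u, (0 : ℝ), (0 : ℝ))⟫ - 1 = 0 :=
        congrArg (fun q => q.2.2) h1
      refine ⟨⟨(hloc _ (hsub hs)).2 h3, ?_⟩, hs, ?_⟩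
      · rw [mem_sphere_zero_iff_norm]
        rw [real_inner_self_eq_norm_sq] at h4
        have h5 : ‖e.symm (u, (0 : ℝ), (0 : ℝ))‖ ^ 2 = 1 ^ 2 := by linarith
        exact (sq_eq_sq₀ (norm_nonneg _) zero_le_one).1 h5
      · show L _ ∈ ball (0 : E m) r
        rw [h2]; exact hu
    · rintro ⟨⟨hy1, hy2⟩, hy3, hy4⟩
      refine ⟨L (y - y₀), hy4, ?_⟩
      have h1 : Ψ y = (L (y - y₀), 0, 0) := by
        have h2 : φ y = 0 := (hloc y (hsub hy3)).1 hy1
        have h3 : ‖y‖ = 1 := mem_sphere_zero_iff_norm.1 hy2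
        show (L (y - y₀), φ y, ⟪y, y⟫ - 1) = _
        rw [h2, real_inner_self_eq_norm_sq, h3]; norm_num
      show e.symm (L (y - y₀), 0, 0) = y
      rw [← h1, ← hec]
      exact e.left_inv hy3

/-! #### G4b (helper270): the cone map `(u,t) ↦ t • f u`, its Jacobian `t^m nd (Df)`, area formula twice, Fubini -/

/-- determinant of a matrix with last row and column `(0,…,0,1)` -/
theorem ad_cp_det {m : ℕ} (M : Matrix (Fin (m + 1)) (Fin (m + 1)) ℝ) (h1 : ∀ j : Fin m, M (Fin.last m) (Fin.castSucc j) = 0)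
    (h2 : M (Fin.last m) (Fin.last m) = 1) : M.det = (M.submatrix Fin.castSucc Fin.castSucc).det := by
  rw [Matrix.det_succ_row M (Fin.last m), Finset.sum_eq_single (Fin.last m)]
  · rw [h2, Fin.succAbove_last]
    simp [← two_mul]
  · intro j _ hj
    obtain ⟨i, rfl⟩ := Fin.exists_castSucc_eq.2 hj
    rw [h1]
    simp
  · intro h
    exact absurd (Finset.mem_univ _) h

theorem ad_cp_nd_sq {m k : ℕ} (L : E m →L[ℝ] E k) : nd L ^ 2 = (Matrix.gram ℝ fun i : Fin m => L (eb i)).det := by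
  have h := LinearMap.normDet_sq_eq_det_gram (L : E m →ₗ[ℝ] E k) (EuclideanSpace.basisFun (Fin m) ℝ)
  simpa [nd] using h

/-- the Jacobian of the cone map -/
theorem ad_cp_nd {m : ℕ} (A : E m →L[ℝ] E (m + 2)) (e : E (m + 2)) (he : ‖e‖ = 1) (hperp : ∀ v, ⟪A v, e⟫ = 0) {t : ℝ} (ht : 0 ≤ t) :
    nd (t • (A ∘L gmtHorL m) + (gmtVerL m).smulRight e) = t ^ m * nd A := by
  have hsq : nd (t • (A ∘L gmtHorL m) + (gmtVerL m).smulRight e) ^ 2 = (t ^ m * nd A) ^ 2 := by
    rw [ad_cp_nd_sq, mul_pow, ad_cp_nd_sq A]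
    have v1 : ∀ i : Fin m, (t • (A ∘L gmtHorL m) + (gmtVerL m).smulRight e) (eb (Fin.castSucc i)) = t • A (eb i) := by
      intro i
      have a1 : gmtHorL m (eb (Fin.castSucc i)) = eb i := flh_hor_eb i
      have a2 : gmtVerL m (eb (Fin.castSucc i)) = 0 := by
        show gmtVer (eb (Fin.castSucc i) : E (m + 1)) = 0
        rw [fl_ver_apply]
        simp [eb]
      simp [a1, a2]
    have v2 : (t • (A ∘L gmtHorL m) + (gmtVerL m).smulRight e) (eb (Fin.last m)) = e := by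
      have a1 : gmtHorL m (eb (Fin.last m)) = 0 := fl_hor_en
      have a2 : gmtVerL m (eb (Fin.last m)) = 1 := fl_ver_en
      simp [a1, a2]
    rw [ad_cp_det]
    · have : (Matrix.gram ℝ fun i : Fin (m + 1) => (t • (A ∘L gmtHorL m) + (gmtVerL m).smulRight e) (eb i)).submatrix
          Fin.castSucc Fin.castSucc = (t ^ 2) • Matrix.gram ℝ fun i : Fin m => A (eb i) := by
        ext i j
        simp only [Matrix.submatrix_apply, Matrix.gram_apply, Matrix.smul_apply, smul_eq_mul]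
        rw [v1, v1, inner_smul_left, inner_smul_right]
        simp
        ring
      rw [this, Matrix.det_smul, Fintype.card_fin]
      ring
    · intro j
      simp only [Matrix.gram_apply]
      rw [v1, v2, inner_smul_right, real_inner_comm, hperp, mul_zero]
    · simp only [Matrix.gram_apply]
      rw [v2, real_inner_self_eq_norm_sq, he, one_pow]
  have h1 := Claimed.Agent.R322.Base.Area.nd_nonneg (t • (A ∘L gmtHorL m) + (gmtVerL m).smulRight e)
  have h2 : 0 ≤ t ^ m * nd A := mul_nonneg (pow_nonneg ht m) (Claimed.Agent.R322.Base.Area.nd_nonneg A)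
  exact (pow_left_inj₀ h1 h2 two_ne_zero).1 hsq

/-- indicator of a function continuous on a measurable set -/
theorem ad_cp_meas_ind {X Y : Type*} [TopologicalSpace X] [MeasurableSpace X] [OpensMeasurableSpace X] [TopologicalSpace Y]
    [MeasurableSpace Y] [BorelSpace Y] [TopologicalSpace.PseudoMetrizableSpace Y] [Zero Y] {g : X → Y} {s : Set X}
    (hc : ContinuousOn g s) (hs : MeasurableSet s) : Measurable (s.indicator g) := by
  classical
  rw [← Set.piecewise_eq_indicator]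
  exact hc.measurable_piecewise continuousOn_const hs

/-- the common integrand -/
noncomputable def adCpPsi {m : ℕ} (f : E m → E (m + 2)) (s : Set (E m)) (A : Set (E (m + 2))) (u : E m) (t : ℝ) : ℝ≥0∞ :=
  s.indicator (fun u => ENNReal.ofReal (nd (fderiv ℝ f u))) u * (Ioi (0 : ℝ)).indicator (fun t => ENNReal.ofReal (t ^ m)) t *
    A.indicator 1 (t • s.indicator f u)

/-- the cone map -/
noncomputable def adCpG {m : ℕ} (f : E m → E (m + 2)) (x : E (m + 1)) : E (m + 2) := gmtVer x • f (gmtHor x)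

/-- its derivative -/
noncomputable def adCpG' {m : ℕ} (f : E m → E (m + 2)) (x : E (m + 1)) : E (m + 1) →L[ℝ] E (m + 2) :=
  gmtVer x • (fderiv ℝ f (gmtHor x) ∘L gmtHorL m) + (gmtVerL m).smulRight (f (gmtHor x))

section adCpPiece

variable {m : ℕ} {r : ℝ} {f : E m → E (m + 2)}

theorem ad_cp_diff (hf : ContDiffOn ℝ ∞ f (ball 0 r)) {u : E m} (hu : u ∈ ball (0 : E m) r) : DifferentiableAt ℝ f u :=
  (hf.differentiableOn (by simp)).differentiableAt (isOpen_ball.mem_nhds hu)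

theorem ad_cp_perp (hf : ContDiffOn ℝ ∞ f (ball 0 r)) (hsph : ∀ u ∈ ball (0 : E m) r, ‖f u‖ = 1) {u : E m}
    (hu : u ∈ ball (0 : E m) r) (v : E m) : ⟪fderiv ℝ f u v, f u⟫ = 0 := by
  have h1 : HasFDerivAt f (fderiv ℝ f u) u := (ad_cp_diff hf hu).hasFDerivAt
  have h2 := h1.inner ℝ h1
  have h3 : (fun x => ⟪f x, f x⟫) =ᶠ[𝓝 u] fun _ => (1 : ℝ) := by
    filter_upwards [isOpen_ball.mem_nhds hu] with x hx
    rw [real_inner_self_eq_norm_sq, hsph x hx, one_pow]
  have h4 : HasFDerivAt (fun x => ⟪f x, f x⟫) (0 : E m →L[ℝ] ℝ) u := (hasFDerivAt_const (1 : ℝ) u).congr_of_eventuallyEq h3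
  have h5 := congrArg (fun L : E m →L[ℝ] ℝ => L v) (h2.unique h4)
  simp only [zero_apply] at h5
  have h6 : ⟪f u, fderiv ℝ f u v⟫ + ⟪fderiv ℝ f u v, f u⟫ = 0 := by simpa using h5
  rw [real_inner_comm] at h6
  linarith

theorem ad_cp_hasFDeriv (hf : ContDiffOn ℝ ∞ f (ball 0 r)) {x : E (m + 1)} (hx : gmtHor x ∈ ball (0 : E m) r) :
    HasFDerivAt (adCpG f) (adCpG' f x) x := by
  have h1 : HasFDerivAt (fun y : E (m + 1) => gmtVer y) (gmtVerL m) x := (gmtVerL m).hasFDerivAt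
  have h2 : HasFDerivAt (fun y : E (m + 1) => f (gmtHor y)) (fderiv ℝ f (gmtHor x) ∘L gmtHorL m) x :=
    (ad_cp_diff hf hx).hasFDerivAt.comp x (gmtHorL m).hasFDerivAt
  exact h1.smul h2

theorem ad_cp_nd_G (hf : ContDiffOn ℝ ∞ f (ball 0 r)) (hsph : ∀ u ∈ ball (0 : E m) r, ‖f u‖ = 1) {x : E (m + 1)}
    (hx : gmtHor x ∈ ball (0 : E m) r) (ht : 0 < gmtVer x) : nd (adCpG' f x) = gmtVer x ^ m * nd (fderiv ℝ f (gmtHor x)) :=
  ad_cp_nd _ _ (hsph _ hx) (ad_cp_perp hf hsph hx) ht.le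

theorem ad_cp_injOn (hi : InjOn f (ball 0 r)) (hsph : ∀ u ∈ ball (0 : E m) r, ‖f u‖ = 1) {s : Set (E m)} (hsr : s ⊆ ball 0 r) :
    InjOn (adCpG f) {x : E (m + 1) | gmtHor x ∈ s ∧ 0 < gmtVer x} := by
  intro x hx y hy hxy
  unfold adCpG at hxy
  have h1 : gmtVer x = gmtVer y := by
    have := congrArg norm hxy
    rwa [norm_smul, norm_smul, hsph _ (hsr hx.1), hsph _ (hsr hy.1), mul_one, mul_one, Real.norm_of_nonneg hx.2.le,
      Real.norm_of_nonneg hy.2.le] at this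
  rw [h1] at hxy
  have h2 : f (gmtHor x) = f (gmtHor y) := smul_right_injective _ hy.2.ne' hxy
  have h3 : gmtHor x = gmtHor y := hi (hsr hx.1) (hsr hy.1) h2
  rw [← fl_join_hor_ver x, ← fl_join_hor_ver y, h1, h3]

theorem ad_cp_image (s : Set (E m)) :
    {y | ∃ t : ℝ, 0 < t ∧ ∃ u ∈ s, y = t • f u} = adCpG f '' {x : E (m + 1) | gmtHor x ∈ s ∧ 0 < gmtVer x} := by
  ext y
  constructor
  · rintro ⟨t, ht, u, hu, rfl⟩
    refine ⟨gmtJoin u t, ⟨by rw [fl_hor_join]; exact hu, by rw [fl_ver_join]; exact ht⟩, ?_⟩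
    unfold adCpG
    rw [fl_hor_join, fl_ver_join]
  · rintro ⟨x, ⟨h1, h2⟩, rfl⟩
    exact ⟨gmtVer x, h2, gmtHor x, h1, rfl⟩

theorem ad_cp_meas_a (hf : ContDiffOn ℝ ∞ f (ball 0 r)) {s : Set (E m)} (hs : MeasurableSet s) (hsr : s ⊆ ball 0 r) :
    Measurable (s.indicator fun u => ENNReal.ofReal (nd (fderiv ℝ f u))) := by
  apply ad_cp_meas_ind _ hs
  exact ENNReal.continuous_ofReal.comp_continuousOn (Claimed.Agent.R322.Base.Area.continuous_nd.comp_continuousOn
    ((hf.continuousOn_fderiv_of_isOpen isOpen_ball (by simp)).mono hsr))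

theorem ad_cp_meas_b : Measurable ((Ioi (0 : ℝ)).indicator fun t => ENNReal.ofReal (t ^ m)) :=
  (ENNReal.measurable_ofReal.comp (measurable_id.pow_const m)).indicator measurableSet_Ioi

theorem ad_cp_meas_f (hf : ContDiffOn ℝ ∞ f (ball 0 r)) {s : Set (E m)} (hs : MeasurableSet s) (hsr : s ⊆ ball 0 r) :
    Measurable (s.indicator f) := ad_cp_meas_ind (hf.continuousOn.mono hsr) hs

theorem ad_cp_meas_Psi (hf : ContDiffOn ℝ ∞ f (ball 0 r)) {s : Set (E m)} (hs : MeasurableSet s) (hsr : s ⊆ ball 0 r)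
    {A : Set (E (m + 2))} (hA : MeasurableSet A) : Measurable fun p : E m × ℝ => adCpPsi f s A p.1 p.2 := by
  unfold adCpPsi
  exact (((ad_cp_meas_a hf hs hsr).comp measurable_fst).mul (ad_cp_meas_b.comp measurable_snd)).mul
    ((measurable_one.indicator hA).comp (measurable_snd.smul ((ad_cp_meas_f hf hs hsr).comp measurable_fst)))

theorem ad_cp_left (hf : ContDiffOn ℝ ∞ f (ball 0 r)) (hi : InjOn f (ball 0 r))
    (hsph : ∀ u ∈ ball (0 : E m) r, ‖f u‖ = 1) {s : Set (E m)} (hs : MeasurableSet s) (hsr : s ⊆ ball 0 r)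
    {A : Set (E (m + 2))} (hA : MeasurableSet A) :
    (μH[((m + 1 : ℕ) : ℝ)]).restrict {y | ∃ t : ℝ, 0 < t ∧ ∃ u ∈ s, y = t • f u} A =
      adC (m + 1) * ∫⁻ u, ∫⁻ t, adCpPsi f s A u t := by
  have hD : MeasurableSet {x : E (m + 1) | gmtHor x ∈ s ∧ 0 < gmtVer x} :=
    (fl_continuous_hor.measurable hs).inter (fl_continuous_ver.measurable measurableSet_Ioi)
  rw [← lintegral_indicator_one hA, ad_cp_image,
    Claimed.Agent.R322.Base.Area.lintegral_image_eq_lintegral_nd_mul (f' := adCpG' f) hD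
      (fun x hx => (ad_cp_hasFDeriv hf (hsr hx.1)).hasFDerivWithinAt) (ad_cp_injOn hi hsph hsr),
    adC_spec (m + 1), Measure.restrict_smul, lintegral_smul_measure, smul_eq_mul, ← lintegral_indicator hD]
  congr 1
  have hpt : ∀ x : E (m + 1), {x : E (m + 1) | gmtHor x ∈ s ∧ 0 < gmtVer x}.indicator
      (fun x => ENNReal.ofReal (nd (adCpG' f x)) * A.indicator 1 (adCpG f x)) x = adCpPsi f s A (gmtHor x) (gmtVer x) := by
    intro x
    unfold adCpPsi
    by_cases h1 : gmtHor x ∈ s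
    · by_cases h2 : 0 < gmtVer x
      · rw [Set.indicator_of_mem (show x ∈ {x : E (m + 1) | gmtHor x ∈ s ∧ 0 < gmtVer x} from ⟨h1, h2⟩),
          Set.indicator_of_mem h1, Set.indicator_of_mem (show gmtVer x ∈ Ioi (0 : ℝ) from h2), Set.indicator_of_mem h1,
          ad_cp_nd_G hf hsph (hsr h1) h2, ENNReal.ofReal_mul (pow_nonneg h2.le m), mul_comm (ENNReal.ofReal (gmtVer x ^ m))]
        rfl
      · rw [Set.indicator_of_notMem (fun h => h2 h.2), Set.indicator_of_notMem (show gmtVer x ∉ Ioi (0 : ℝ) from h2)]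
        simp
    · rw [Set.indicator_of_notMem (fun h => h1 h.1), Set.indicator_of_notMem h1]
      simp
  have hj := fl_lintegral_join (F := fun x : E (m + 1) => adCpPsi f s A (gmtHor x) (gmtVer x))
    ((ad_cp_meas_Psi hf hs hsr hA).comp (fl_continuous_hor.measurable.prodMk fl_continuous_ver.measurable))
  rw [lintegral_congr hpt, hj]
  simp only [fl_hor_join, fl_ver_join]

theorem ad_cp_sfin (hf : ContDiffOn ℝ ∞ f (ball 0 r)) (hi : InjOn f (ball 0 r)) {s : Set (E m)} (hs : MeasurableSet s)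
    (hsr : s ⊆ ball 0 r) : SFinite ((μH[(m : ℝ)] : Measure (E (m + 2))).restrict (f '' s)) := by
  rw [← Claimed.Agent.R322.Base.Area.map_withDensity_nd_eq (f' := fderiv ℝ f) hs.nullMeasurableSet
    (fun x hx => (ad_cp_diff hf (hsr hx)).hasFDerivAt.hasFDerivWithinAt) (hi.mono hsr), adC_spec m]
  infer_instance

theorem ad_cp_right (hf : ContDiffOn ℝ ∞ f (ball 0 r)) (hi : InjOn f (ball 0 r)) {s : Set (E m)} (hs : MeasurableSet s)
    (hsr : s ⊆ ball 0 r) {A : Set (E (m + 2))} (hA : MeasurableSet A) :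
    adPol m (f '' s) A = adC m * ∫⁻ u, ∫⁻ t, adCpPsi f s A u t := by
  have := ad_cp_sfin hf hi hs hsr
  have hsm : Measurable fun p : ℝ × E (m + 2) => p.1 • p.2 := measurable_fst.smul measurable_snd
  unfold adPol
  rw [Measure.map_apply hsm hA, Measure.prod_apply (hsm hA)]
  have hin : ∀ t : ℝ, (μH[(m : ℝ)] : Measure (E (m + 2))).restrict (f '' s)
      (Prod.mk t ⁻¹' ((fun p : ℝ × E (m + 2) => p.1 • p.2) ⁻¹' A)) =
      adC m * ∫⁻ u, s.indicator (fun u => ENNReal.ofReal (nd (fderiv ℝ f u))) u * A.indicator 1 (t • s.indicator f u) := by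
    intro t
    have hAt : MeasurableSet (Prod.mk t ⁻¹' ((fun p : ℝ × E (m + 2) => p.1 • p.2) ⁻¹' A)) :=
      measurable_prodMk_left (hsm hA)
    rw [← lintegral_indicator_one hAt,
      Claimed.Agent.R322.Base.Area.lintegral_image_eq_lintegral_nd_mul (f' := fderiv ℝ f) hs
        (fun x hx => (ad_cp_diff hf (hsr hx)).hasFDerivAt.hasFDerivWithinAt) (hi.mono hsr),
      adC_spec m, Measure.restrict_smul, lintegral_smul_measure, smul_eq_mul, ← lintegral_indicator hs]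
    congr 1
    refine lintegral_congr fun u => ?_
    by_cases hu : u ∈ s
    · rw [Set.indicator_of_mem hu, Set.indicator_of_mem hu, Set.indicator_of_mem hu]
      rfl
    · rw [Set.indicator_of_notMem hu, Set.indicator_of_notMem hu, zero_mul]
  simp only [hin]
  have hm2 : Measurable fun p : ℝ × E m => s.indicator (fun u => ENNReal.ofReal (nd (fderiv ℝ f u))) p.2 *
      A.indicator 1 (p.1 • s.indicator f p.2) :=
    ((ad_cp_meas_a hf hs hsr).comp measurable_snd).mul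
      ((measurable_one.indicator hA).comp (measurable_fst.smul ((ad_cp_meas_f hf hs hsr).comp measurable_snd)))
  have hm1 : Measurable fun t : ℝ => ∫⁻ u, s.indicator (fun u => ENNReal.ofReal (nd (fderiv ℝ f u))) u *
      A.indicator 1 (t • s.indicator f u) := hm2.lintegral_prod_right'
  have hm0 : Measurable fun r : ℝ => ENNReal.ofReal (r ^ m) := ENNReal.measurable_ofReal.comp (measurable_id.pow_const m)
  rw [lintegral_const_mul _ hm1, lintegral_withDensity_eq_lintegral_mul _ hm0 hm1, ← lintegral_indicator measurableSet_Ioi,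
    lintegral_lintegral_swap (ad_cp_meas_Psi hf hs hsr hA).aemeasurable]
  congr 1
  refine lintegral_congr fun t => ?_
  unfold adCpPsi
  by_cases ht : t ∈ Ioi (0 : ℝ)
  · have hm3 : Measurable fun u : E m => s.indicator (fun u => ENNReal.ofReal (nd (fderiv ℝ f u))) u *
        A.indicator 1 (t • s.indicator f u) := hm2.comp measurable_prodMk_left
    rw [Set.indicator_of_mem ht, Pi.mul_apply, ← lintegral_const_mul _ hm3]
    refine lintegral_congr fun u => ?_
    rw [Set.indicator_of_mem ht]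
    ring
  · rw [Set.indicator_of_notMem ht]
    simp [Set.indicator_of_notMem ht]

end adCpPiece

/-- **G4b** one piece of the cone. -/
theorem ad_gen_cone_piece {m : ℕ} {r : ℝ} {f : E m → E (m + 2)}
    (hf : ContDiffOn ℝ ∞ f (ball 0 r)) (hi : InjOn f (ball 0 r))
    (hsph : ∀ u ∈ ball (0 : E m) r, ‖f u‖ = 1) {s : Set (E m)} (hs : MeasurableSet s)
    (hsr : s ⊆ ball 0 r) :
    adC m • (μH[((m + 1 : ℕ) : ℝ)]).restrict {y | ∃ t : ℝ, 0 < t ∧ ∃ u ∈ s, y = t • f u} =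
      adC (m + 1) • adPol m (f '' s) := by
  refine Measure.ext fun A hA => ?_
  rw [Measure.smul_apply, Measure.smul_apply, smul_eq_mul, smul_eq_mul, ad_cp_left hf hi hsph hs hsr hA,
    ad_cp_right hf hi hs hsr hA, mul_left_comm]

/-! #### G4c (helper177): finite cover of the compact link by charts, induction on the cover (split `A = A \ V ∪ A ∩ V`), additivity of both sides -/

section G4c

variable {k : ℕ}

/-- the open cone over `A` (vertex excluded). -/
def adgcCone {k : ℕ} (A : Set (E k)) : Set (E k) := {y | ∃ t : ℝ, 0 < t ∧ ∃ a ∈ A, y = t • a}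


theorem adgc_cone_eq {A : Set (E k)} (hA : A ⊆ sphere 0 1) :
    adgcCone A = {y | y ≠ 0 ∧ ‖y‖⁻¹ • y ∈ A} := by
  ext y
  constructor
  · rintro ⟨t, ht, a, ha, rfl⟩
    have h1 : ‖a‖ = 1 := by simpa using hA ha
    have h0 : a ≠ 0 := by
      intro h
      rw [h, norm_zero] at h1
      exact zero_ne_one h1
    refine ⟨smul_ne_zero ht.ne' h0, ?_⟩
    show ‖t • a‖⁻¹ • t • a ∈ A
    rw [norm_smul, h1, mul_one, Real.norm_of_nonneg ht.le, smul_smul, inv_mul_cancel₀ ht.ne', one_smul]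
    exact ha
  · rintro ⟨h0, h⟩
    refine ⟨‖y‖, norm_pos_iff.2 h0, _, h, ?_⟩
    rw [smul_smul, mul_inv_cancel₀ (norm_ne_zero_iff.2 h0), one_smul]

theorem adgc_cone_meas {A : Set (E k)} (hA : A ⊆ sphere 0 1) (hm : MeasurableSet A) :
    MeasurableSet (adgcCone A) := by
  rw [adgc_cone_eq hA]
  have h1 : Measurable (fun y : E k => ‖y‖⁻¹ • y) := (measurable_norm.inv).smul measurable_id
  exact (measurableSet_singleton (0 : E k)).compl.inter (h1 hm)

theorem adgc_cone_union (A B : Set (E k)) : adgcCone (A ∪ B) = adgcCone A ∪ adgcCone B := by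
  ext y
  constructor
  · rintro ⟨t, ht, a, ha | ha, rfl⟩
    · exact Or.inl ⟨t, ht, a, ha, rfl⟩
    · exact Or.inr ⟨t, ht, a, ha, rfl⟩
  · rintro (⟨t, ht, a, ha, rfl⟩ | ⟨t, ht, a, ha, rfl⟩)
    · exact ⟨t, ht, a, Or.inl ha, rfl⟩
    · exact ⟨t, ht, a, Or.inr ha, rfl⟩

theorem adgc_cone_empty : adgcCone (∅ : Set (E k)) = ∅ := by
  ext y
  simp [adgcCone]

theorem adgc_cone_disj {A B : Set (E k)} (hA : A ⊆ sphere 0 1) (hB : B ⊆ sphere 0 1) (h : Disjoint A B) :
    Disjoint (adgcCone A) (adgcCone B) := by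
  rw [adgc_cone_eq hA, adgc_cone_eq hB]
  exact Set.disjoint_left.2 fun y h1 h2 => Set.disjoint_left.1 h h1.2 h2.2

theorem adgc_pol_empty (m : ℕ) : adPol m (∅ : Set (E k)) = 0 := by
  simp [adPol]

theorem adgc_smul_meas : Measurable (fun p : ℝ × E k => p.1 • p.2) := measurable_fst.smul measurable_snd

theorem adgc_pol_union (m : ℕ) {A B : Set (E k)} (hB : MeasurableSet B) (h : Disjoint A B)
    (fA : μH[(m : ℝ)] A ≠ ⊤) (fB : μH[(m : ℝ)] B ≠ ⊤) : adPol m (A ∪ B) = adPol m A + adPol m B := by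
  have : IsFiniteMeasure ((μH[(m : ℝ)] : Measure (E k)).restrict A) := ⟨by simpa using fA.lt_top⟩
  have : IsFiniteMeasure ((μH[(m : ℝ)] : Measure (E k)).restrict B) := ⟨by simpa using fB.lt_top⟩
  unfold adPol
  rw [Measure.restrict_union h hB, Measure.prod_add, Measure.map_add _ _ adgc_smul_meas]

/-- additivity of the polar identity. -/
theorem adgc_glue2 (m : ℕ) (d : ℝ) (a b : ℝ≥0∞) {A B : Set (E k)} (hA : A ⊆ sphere 0 1) (hB : B ⊆ sphere 0 1)
    (mB : MeasurableSet B) (h : Disjoint A B) (fA : μH[(m : ℝ)] A ≠ ⊤) (fB : μH[(m : ℝ)] B ≠ ⊤)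
    (pA : a • (μH[d] : Measure (E k)).restrict (adgcCone A) = b • adPol m A)
    (pB : a • (μH[d] : Measure (E k)).restrict (adgcCone B) = b • adPol m B) :
    a • (μH[d] : Measure (E k)).restrict (adgcCone (A ∪ B)) = b • adPol m (A ∪ B) := by
  rw [adgc_cone_union, Measure.restrict_union (adgc_cone_disj hA hB h) (adgc_cone_meas hB mB),
    adgc_pol_union m mB h fA fB, smul_add, smul_add, pA, pB]
theorem adgc_cover (m : ℕ) (d : ℝ) (a b : ℝ≥0∞) {L : Set (E k)} (hL : L ⊆ sphere 0 1) (hc : IsCompact L)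
    (hloc : ∀ y ∈ L, ∃ V : Set (E k), IsOpen V ∧ y ∈ V ∧ ∀ A : Set (E k), MeasurableSet A → A ⊆ L ∩ V →
      μH[(m : ℝ)] A ≠ ⊤ ∧ a • (μH[d] : Measure (E k)).restrict (adgcCone A) = b • adPol m A) :
    μH[(m : ℝ)] L ≠ ⊤ ∧ a • (μH[d] : Measure (E k)).restrict (adgcCone L) = b • adPol m L := by
  classical
  choose! V hVo hyV hV using hloc
  obtain ⟨t, ht⟩ := hc.elim_nhds_subcover' (fun x _ => V x) (fun x hx => (hVo x hx).mem_nhds (hyV x hx))
  have key : ∀ t : Finset L, ∀ A : Set (E k), MeasurableSet A → A ⊆ L → A ⊆ ⋃ x ∈ t, V (x : L) →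
      μH[(m : ℝ)] A ≠ ⊤ ∧ a • (μH[d] : Measure (E k)).restrict (adgcCone A) = b • adPol m A := by
    intro t
    induction t using Finset.induction_on with
    | empty =>
      intro A _ _ hA
      have : A = ∅ := by
        rw [Set.eq_empty_iff_forall_notMem]
        intro x hx
        simpa using hA hx
      subst this
      simp [adgc_cone_empty, adgc_pol_empty]
    | insert y t _ ih =>
      intro A mA hAL hA
      have mB : MeasurableSet (A ∩ V y) := mA.inter (hVo y y.2).measurableSet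
      obtain ⟨f1, p1⟩ := ih (A \ V y) (mA.diff (hVo y y.2).measurableSet) (sdiff_subset.trans hAL) (by
        intro x hx
        have := hA hx.1
        simp only [Finset.mem_insert, iUnion_iUnion_eq_or_left, mem_union] at this
        rcases this with h | h
        · exact absurd h hx.2
        · exact h)
      obtain ⟨f2, p2⟩ := hV y y.2 (A ∩ V y) mB (fun x hx => ⟨hAL hx.1, hx.2⟩)
      have hd : Disjoint (A \ V y) (A ∩ V y) := Set.disjoint_left.2 fun x h1 h2 => h1.2 h2.2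
      have hu : A \ V y ∪ A ∩ V y = A := Set.sdiff_union_inter A (V y)
      have := adgc_glue2 m d a b ((sdiff_subset.trans hAL).trans hL) ((inter_subset_left.trans hAL).trans hL) mB hd f1 f2 p1 p2
      rw [hu] at this
      refine ⟨?_, this⟩
      rw [← hu]
      exact ((measure_union_le _ _).trans_lt (ENNReal.add_lt_top.2 ⟨f1.lt_top, f2.lt_top⟩)).ne
  exact key t L hc.measurableSet subset_rfl ht

theorem adgc_piece (m : ℕ) (d : ℝ) (a b : ℝ≥0∞) {r : ℝ} {f : E m → E k} {K : ℝ≥0}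
    (hK : LipschitzOnWith K f (ball 0 r)) (hfin : μH[(m : ℝ)] (ball (0 : E m) r) ≠ ⊤)
    (hP : ∀ s : Set (E m), MeasurableSet s → s ⊆ ball 0 r →
      a • (μH[d] : Measure (E k)).restrict {y | ∃ t : ℝ, 0 < t ∧ ∃ u ∈ s, y = t • f u} = b • adPol m (f '' s))
    {A : Set (E k)} (hA : MeasurableSet A) (hsub : A ⊆ f '' ball 0 r) :
    μH[(m : ℝ)] A ≠ ⊤ ∧ a • (μH[d] : Measure (E k)).restrict (adgcCone A) = b • adPol m A := by
  classical
  constructor
  · have h1 := hK.hausdorffMeasure_image_le (d := (m : ℝ)) (Nat.cast_nonneg m)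
    refine ((measure_mono hsub).trans_lt (h1.trans_lt ?_)).ne
    exact ENNReal.mul_lt_top (ENNReal.rpow_lt_top_of_nonneg (Nat.cast_nonneg m) ENNReal.coe_ne_top) hfin.lt_top
  · have hg : Measurable ((ball (0 : E m) r).piecewise f (fun _ => 0)) :=
      hK.continuousOn.measurable_piecewise continuousOn_const measurableSet_ball
    set s : Set (E m) := ball 0 r ∩ ((ball (0 : E m) r).piecewise f (fun _ => 0)) ⁻¹' A with hs
    have ms : MeasurableSet s := measurableSet_ball.inter (hg hA)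
    have hmem : ∀ u, u ∈ s ↔ u ∈ ball (0 : E m) r ∧ f u ∈ A := by
      intro u
      constructor
      · rintro ⟨h1, h2⟩
        refine ⟨h1, ?_⟩
        have : (ball (0 : E m) r).piecewise f (fun _ => 0) u ∈ A := h2
        rwa [Set.piecewise_eq_of_mem _ _ _ h1] at this
      · rintro ⟨h1, h2⟩
        refine ⟨h1, ?_⟩
        show (ball (0 : E m) r).piecewise f (fun _ => 0) u ∈ A
        rwa [Set.piecewise_eq_of_mem _ _ _ h1]
    have him : f '' s = A := by
      ext y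
      constructor
      · rintro ⟨u, hu, rfl⟩
        exact ((hmem u).1 hu).2
      · intro hy
        obtain ⟨u, hu, rfl⟩ := hsub hy
        exact ⟨u, (hmem u).2 ⟨hu, hy⟩, rfl⟩
    have hcone : {y | ∃ t : ℝ, 0 < t ∧ ∃ u ∈ s, y = t • f u} = adgcCone A := by
      rw [← him]
      ext y
      constructor
      · rintro ⟨t, ht, u, hu, rfl⟩
        exact ⟨t, ht, f u, ⟨u, hu, rfl⟩, rfl⟩
      · rintro ⟨t, ht, _, ⟨u, hu, rfl⟩, rfl⟩
        exact ⟨t, ht, u, hu, rfl⟩
    have := hP s ms inter_subset_left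
    rwa [hcone, him] at this

theorem adgc_cone_link {m : ℕ} {S : Set (E (m + 2))} (hS : AdReg (m + 2) S) :
    gmtBd S ∩ {0}ᶜ = adgcCone (adLink S) := by
  ext y
  constructor
  · rintro ⟨hy, h0⟩
    have h0' : y ≠ 0 := h0
    have hn : 0 < ‖y‖ := norm_pos_iff.2 h0'
    refine ⟨‖y‖, hn, ‖y‖⁻¹ • y, ⟨(gmtSim_bd_smul hS.cone (inv_pos.2 hn) y).2 hy, ?_⟩, ?_⟩
    · rw [mem_sphere_zero_iff_norm, norm_smul, norm_inv, norm_norm, inv_mul_cancel₀ hn.ne']
    · rw [smul_smul, mul_inv_cancel₀ hn.ne', one_smul]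
  · rintro ⟨t, ht, a, ⟨ha, ha1⟩, rfl⟩
    refine ⟨(gmtSim_bd_smul hS.cone ht a).2 ha, ?_⟩
    have h1 : ‖a‖ = 1 := by simpa using ha1
    have h0 : a ≠ 0 := by
      intro h
      rw [h, norm_zero] at h1
      exact zero_ne_one h1
    exact smul_ne_zero ht.ne' h0

theorem adgc_main {m : ℕ} {S : Set (E (m + 2))} (hS : AdReg (m + 2) S) :
    μH[(m : ℝ)] (adLink S) ≠ ⊤ ∧
      adC m • (μH[((m + 1 : ℕ) : ℝ)] : Measure (E (m + 2))).restrict (adgcCone (adLink S)) =
        adC (m + 1) • adPol m (adLink S) := by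
  have hL : adLink S ⊆ sphere 0 1 := inter_subset_right
  have hc : IsCompact (adLink S) := (isCompact_sphere 0 1).inter_left (isClosed_gmtBd S)
  refine adgc_cover m _ _ _ hL hc fun y hy => ?_
  obtain ⟨V, r, f, hVo, hyV, -, hf, -, hi, him, K, hK⟩ := ad_gen_link_chart hS hy
  refine ⟨V, hVo, hyV, fun A mA hA => ?_⟩
  have hsph : ∀ u ∈ ball (0 : E m) r, ‖f u‖ = 1 := fun u hu => by
    have h1 : f u ∈ adLink S ∩ V := him ▸ mem_image_of_mem f hu
    simpa using hL h1.1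
  have hfin : μH[(m : ℝ)] (ball (0 : E m) r) ≠ ⊤ := by
    rw [adC_spec, Measure.smul_apply, smul_eq_mul]
    exact ENNReal.mul_ne_top (adC_ne_top m) measure_ball_lt_top.ne
  exact adgc_piece m _ _ _ hK hfin (fun s ms hs => ad_gen_cone_piece hf hi hsph ms hs) mA (him ▸ hA)

end G4c

/-- **G4** -/
theorem ad_gen_hpolar {m : ℕ} {S : Set (E (m + 2))} (hS : AdReg (m + 2) S) :
    adC m • (μH[((m + 1 : ℕ) : ℝ)]).restrict (gmtBd S ∩ {0}ᶜ) = adC (m + 1) • adPol m (adLink S) := by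
  rw [adgc_cone_link hS]
  exact (adgc_main hS).2

/-- the link has finite measure. -/
theorem ad_gen_fin {m : ℕ} {S : Set (E (m + 2))} (hS : AdReg (m + 2) S) :
    μH[(m : ℝ)] (adLink S) ≠ ⊤ := (adgc_main hS).1

/-! ### G3 -/

/-- the polar measure of a ball. -/
theorem adPol_ball (m : ℕ) {k : ℕ} {A : Set (E k)} (hAm : MeasurableSet A)
    (hA : A ⊆ sphere 0 1) (hfin : μH[(m : ℝ)] A ≠ ⊤) {R : ℝ} (hR : 0 ≤ R) :
    adPol m A (ball 0 R) = ENNReal.ofReal (R ^ (m + 1) / (m + 1)) * μH[(m : ℝ)] A := by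
  set ν : Measure (E k) := (μH[(m : ℝ)] : Measure (E k)).restrict A with hν
  have : IsFiniteMeasure ν := ⟨by rw [hν, Measure.restrict_apply_univ]; exact hfin.lt_top⟩
  set μ' : Measure ℝ := (volume : Measure ℝ).withDensity fun r => ENNReal.ofReal (r ^ m) with hμ'
  have hcont : Continuous fun p : ℝ × E k => p.1 • p.2 := continuous_fst.smul continuous_snd
  have e1 : (((volume : Measure ℝ).restrict (Ioi 0)).withDensity fun r => ENNReal.ofReal (r ^ m))
      = μ'.restrict (Ioi 0) := (restrict_withDensity measurableSet_Ioi _).symm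
  have e2 : ν = ν.restrict A := by
    rw [hν, Measure.restrict_restrict hAm, inter_self]
  unfold adPol
  rw [Measure.map_apply hcont.measurable measurableSet_ball, e1, ← hν, e2, Measure.prod_restrict,
    Measure.restrict_apply (hcont.measurable measurableSet_ball)]
  have e3 : (fun p : ℝ × E k => p.1 • p.2) ⁻¹' ball 0 R ∩ Ioi 0 ×ˢ A = Ioo 0 R ×ˢ A := by
    ext ⟨r, y⟩
    simp only [mem_inter_iff, mem_preimage, mem_ball, dist_zero_right, mem_prod, mem_Ioi, mem_Ioo]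
    constructor
    · rintro ⟨h1, h2, h3⟩
      have hy : ‖y‖ = 1 := by simpa using hA h3
      rw [norm_smul, hy, mul_one, Real.norm_of_nonneg h2.le] at h1
      exact ⟨⟨h2, h1⟩, h3⟩
    · rintro ⟨⟨h1, h2⟩, h3⟩
      have hy : ‖y‖ = 1 := by simpa using hA h3
      refine ⟨?_, h1, h3⟩
      rw [norm_smul, hy, mul_one, Real.norm_of_nonneg h1.le]
      exact h2
  rw [e3, Measure.prod_prod]
  congr 1
  · rw [hμ', withDensity_apply _ measurableSet_Ioo,
      ← ofReal_integral_eq_lintegral_ofReal]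
    · congr 1
      rw [← integral_Ioc_eq_integral_Ioo, ← intervalIntegral.integral_of_le hR, integral_pow]
      simp
    · exact ((continuous_pow m).integrableOn_Icc (a := 0) (b := R)).mono_set Ioo_subset_Icc_self
    · refine (ae_restrict_mem measurableSet_Ioo).mono fun r hr => ?_
      exact pow_nonneg hr.1.le m
  · rw [hν, Measure.restrict_apply hAm, inter_self]

theorem ad_link_meas {k : ℕ} (S : Set (E k)) : MeasurableSet (adLink S) :=
  ((isClosed_gmtBd S).inter isClosed_sphere).measurableSet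

/-- polar decomposition away from the vertex. -/
theorem ad_gen_polar0 {m : ℕ} {S : Set (E (m + 2))} (hS : AdReg (m + 2) S) :
    adC m • (gmtMu S).restrict {0}ᶜ = adPol m (adLink S) := by
  have h2 := ad_gen_glob (n := m + 1) (S := S) hS.meas (U := {0}ᶜ) isOpen_compl_singleton
    (fun x hx hx0 => hS.reg x hx hx0)
  have h4 := ad_gen_hpolar hS
  have h5 : adC (m + 1) • (adC m • (gmtMu S).restrict {0}ᶜ) = adC (m + 1) • adPol m (adLink S) := by
    rw [← h4, ← h2, smul_comm]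
  have h6 := congrArg (fun μ => (adC (m + 1))⁻¹ • μ) h5
  simp only [smul_smul, ← mul_assoc,
    ENNReal.inv_mul_cancel (adC_ne_zero (m + 1)) (adC_ne_top (m + 1)), one_smul, one_mul] at h6
  exact h6

/-- perimeter of a regular cone in balls centred at the vertex. -/
theorem ad_gen_ball_le {m : ℕ} {S : Set (E (m + 2))} (hS : AdReg (m + 2) S) {R : ℝ} (hR : 0 ≤ R) :
    adC m * gmtMu S (ball 0 R) ≤
      ENNReal.ofReal (R ^ (m + 1) / (m + 1)) * μH[(m : ℝ)] (adLink S) := by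
  have h1 : gmtMu S (ball 0 R) ≤ gmtMu S (ball 0 R \ {0}) := by
    rw [gmtMu_open S isOpen_ball, gmtMu_open S (isOpen_ball.sdiff isClosed_singleton)]
    exact nu_remove_point (by omega) hS.meas isOpen_ball 0
  have h2 : adC m * gmtMu S (ball 0 R \ {0}) = adPol m (adLink S) (ball 0 R) := by
    rw [← ad_gen_polar0 hS, Measure.smul_apply, Measure.restrict_apply measurableSet_ball,
      smul_eq_mul]
    rfl
  calc adC m * gmtMu S (ball 0 R) ≤ adC m * gmtMu S (ball 0 R \ {0}) := by gcongr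
    _ = _ := by
      rw [h2, adPol_ball m (ad_link_meas S) inter_subset_right (ad_gen_fin hS) hR]

theorem ad_gen_ball_ne_top {m : ℕ} {S : Set (E (m + 2))} (hS : AdReg (m + 2) S) (R : ℝ) :
    gmtMu S (ball 0 R) ≠ ⊤ := by
  rcases le_or_gt R 0 with hR | hR
  · rw [ball_eq_empty.2 hR, measure_empty]; exact ENNReal.zero_ne_top
  intro htop
  have h := ad_gen_ball_le hS hR.le
  rw [htop, ENNReal.mul_top (adC_ne_zero m), top_le_iff] at h
  exact ENNReal.mul_ne_top ENNReal.ofReal_ne_top (ad_gen_fin hS) h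

theorem ad_gen_lf {m : ℕ} {S : Set (E (m + 2))} (hS : AdReg (m + 2) S) : GmtLF S univ := by
  refine ⟨hS.meas, fun W hW => ?_⟩
  obtain ⟨R, hR⟩ := hW.2.1.isBounded.subset_ball 0
  have h1 : gmtP S W ≤ gmtP S (ball 0 R) := gmtPer_mono _ S (subset_closure.trans hR)
  rw [← gmtMu_open S isOpen_ball] at h1
  exact ne_top_of_le_ne_top (ad_gen_ball_ne_top hS R) h1

theorem ad_gen_zero {m : ℕ} {S : Set (E (m + 2))} (hS : AdReg (m + 2) S) : gmtMu S {0} = 0 := by
  have hc0 := adC_ne_zero m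
  have key : ∀ R : ℝ, 0 < R → adC m * gmtMu S {0} ≤
      ENNReal.ofReal (R ^ (m + 1) / (m + 1)) * μH[(m : ℝ)] (adLink S) := fun R hR =>
    le_trans (by gcongr; exact singleton_subset_iff.2 (mem_ball_self hR)) (ad_gen_ball_le hS hR.le)
  have hlim : Tendsto (fun R : ℝ => ENNReal.ofReal (R ^ (m + 1) / (m + 1)) * μH[(m : ℝ)] (adLink S))
      (𝓝[>] 0) (𝓝 0) := by
    have h1 : Tendsto (fun R : ℝ => R ^ (m + 1) / ((m : ℝ) + 1)) (𝓝[>] 0) (𝓝 0) := by
      have : Continuous fun R : ℝ => R ^ (m + 1) / ((m : ℝ) + 1) := by fun_prop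
      have h := this.tendsto 0
      simp only [ne_eq, Nat.add_eq_zero_iff, one_ne_zero, and_false, not_false_eq_true, zero_pow,
        zero_div] at h
      exact h.mono_left nhdsWithin_le_nhds
    have h2 := ENNReal.tendsto_ofReal h1
    rw [ENNReal.ofReal_zero] at h2
    have h3 := ENNReal.Tendsto.mul_const h2 (Or.inr (ad_gen_fin hS))
    rwa [zero_mul] at h3
  have h0 : adC m * gmtMu S {0} ≤ 0 :=
    ge_of_tendsto hlim (by filter_upwards [self_mem_nhdsWithin] with R hR using key R hR)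
  rcases mul_eq_zero.1 (le_antisymm h0 zero_le) with h | h
  · exact absurd h hc0
  · exact h


/-! ### exits -/

/-- **EXIT: polar decomposition of the perimeter measure of a regular cone.** -/
theorem ad_gen_polar {m : ℕ} {S : Set (E (m + 2))} (hS : AdReg (m + 2) S) :
    adC m • gmtMu S = adPol m (adLink S) := by
  have h : (gmtMu S).restrict {0}ᶜ = gmtMu S :=
    Measure.restrict_eq_self_of_ae_mem (by
      rw [ae_iff]
      simpa using ad_gen_zero hS)
  rw [← ad_gen_polar0 hS, h]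

/-- **EXIT: the bridge between `μH[m]` and `linkArea`.** -/
theorem ad_gen_area {m : ℕ} {S : Set (E (m + 2))} (hS : AdReg (m + 2) S) :
    μH[(m : ℝ)] (adLink S) = adC m * ENNReal.ofReal (linkArea S) := by
  have h1 : adC m * gmtMu S (ball 0 1) =
      ENNReal.ofReal (1 ^ (m + 1) / ((m : ℝ) + 1)) * μH[(m : ℝ)] (adLink S) := by
    rw [← adPol_ball m (ad_link_meas S) inter_subset_right (ad_gen_fin hS) zero_le_one,
      ← ad_gen_polar hS, Measure.smul_apply, smul_eq_mul]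
  have hm : (0 : ℝ) < (m : ℝ) + 1 := by positivity
  have h2 : ENNReal.ofReal (linkArea S) = ENNReal.ofReal ((m : ℝ) + 1) * gmtMu S (ball 0 1) := by
    unfold linkArea
    rw [ENNReal.ofReal_mul (by push_cast; linarith), ENNReal.ofReal_toReal (ad_gen_ball_ne_top hS 1)]
    congr 2
    push_cast
    ring
  rw [h2, mul_left_comm, h1, ← mul_assoc, ← ENNReal.ofReal_mul hm.le, one_pow,
    mul_one_div_cancel hm.ne', ENNReal.ofReal_one, one_mul]

end Claimed.Agent.R323
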