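import Claimed.Agent.R323.Ad.Var

/-!
# Row 323, block A, package A2' : the cone over an embedded `F(M)` is a smooth conical hypersurface.      Contract + plan by helper195; proofs helper16.

EXITS `ad_hyp`, `ad_link_eq`, `ad_vol_inj`.   Helpers `adl_*` (`adl_mf_chain`, `adl_mf_tangent`, `adl_projR_zero`: chain rule along `F`, used by `Ad/Mult`, `Ad/Stat`).
PLAN of `ad_hyp`.   `zero`: `|t • F x| = t > 0`.   `closed`: `insert 0 (adZ F) = {0} ∪ Prod.fst '' {(y, x) | y = |y| • F x}`, projection along the compact `M` is closed.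
`loc` at `p = t₀ • F x₀`: `ad_chart` gives `O, r, f`.   `A = fderiv f 0`; `n₀ ≠ 0` orthogonal to `F x₀` and to `range A` (dimension `m + 1 < m + 2`).
`Ψ : E m × ℝ × ℝ → E N`, `Ψ(u,a,b) = (t₀ + b) • f u + a • n₀`; `DΨ(0)(v,α,β) = t₀ A v + α n₀ + β F x₀` is injective (`⟪A v, F x₀⟫ = 0`), hence bijective (dimensions).
`adl_ift`: `φ := (second component of the local inverse)`, smooth near `p`, `Dφ ≠ 0`; `δ` with `ball 0 δ ⊆ source`.
`φ y = 0 ⟹ y = Ψ(u,0,b) = (t₀+b) f u ∈ adZ F`.   Conversely `O_δ = O ∩ F⁻¹(f '' ball 0 δ)` is an open neighbourhood of `x₀` (last clause of `ad_chart`), `F '' (O_δ)ᶜ` is compact and misses `F x₀` (`F` injective):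
distance `η > 0`.   If `y = t • F x`, `|y - p| < r₁`: `|t - t₀| ≤ |y - p|`, `|F x - F x₀| ≤ 2|y - p|/t₀ < η`, so `x ∈ O_δ`, `F x = f u`, `y = Ψ(u, 0, t - t₀)`, `φ y = 0`.
-/

set_option autoImplicit false
open scoped Manifold ContDiff ENNReal NNReal RealInnerProductSpace Topology
open MeasureTheory Metric Set Filter
open Claims.C0508

namespace Claimed.Agent.R323

open Claimed.Agent.Gmt
open Claimed.Agent.R322.Base.Area (projR)

section lin

variable {m : ℕ}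

/-- a non-zero vector orthogonal to `w` and to the range of `A`. -/
theorem adl_normal (A : E m →L[ℝ] E (m + 2)) (w : E (m + 2)) :
    ∃ n : E (m + 2), n ≠ 0 ∧ ⟪w, n⟫ = 0 ∧ ∀ v, ⟪A v, n⟫ = 0 := by
  set W : Submodule ℝ (E (m + 2)) := Submodule.span ℝ {w} ⊔ LinearMap.range A.toLinearMap with hW
  have h1 : Module.finrank ℝ W ≤ 1 + m := by
    refine (Submodule.finrank_add_le_finrank_add_finrank _ _).trans (add_le_add ?_ ?_)
    · exact (finrank_span_le_card ({w} : Set (E (m + 2)))).trans (by simp)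
    · exact (LinearMap.finrank_range_le _).trans (by simp)
  have h2 := Submodule.finrank_add_finrank_orthogonal W
  have h3 : Module.finrank ℝ (E (m + 2)) = m + 2 := by simp
  have h4 : 0 < Module.finrank ℝ Wᗮ := by omega
  obtain ⟨⟨n, hn⟩, hne⟩ := Module.finrank_pos_iff_exists_ne_zero.1 h4
  refine ⟨n, fun h => hne (Subtype.ext h), ?_, fun v => ?_⟩
  · exact (Submodule.mem_orthogonal W n).1 hn w (Submodule.mem_sup_left (Submodule.mem_span_singleton_self w))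
  · exact (Submodule.mem_orthogonal W n).1 hn (A v) (Submodule.mem_sup_right ⟨v, rfl⟩)

/-- the linearisation of `Ψ`. -/
noncomputable def adlL (t₀ : ℝ) (A : E m →L[ℝ] E (m + 2)) (w n : E (m + 2)) : E m × ℝ × ℝ →L[ℝ] E (m + 2) :=
  t₀ • (A ∘L ContinuousLinearMap.fst ℝ (E m) (ℝ × ℝ))
    + ((ContinuousLinearMap.snd ℝ ℝ ℝ) ∘L (ContinuousLinearMap.snd ℝ (E m) (ℝ × ℝ))).smulRight w
    + ((ContinuousLinearMap.fst ℝ ℝ ℝ) ∘L (ContinuousLinearMap.snd ℝ (E m) (ℝ × ℝ))).smulRight n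

theorem adlL_apply (t₀ : ℝ) (A : E m →L[ℝ] E (m + 2)) (w n : E (m + 2)) (q : E m × ℝ × ℝ) :
    adlL t₀ A w n q = t₀ • A q.1 + q.2.2 • w + q.2.1 • n := by
  simp [adlL]

theorem adlL_inj {t₀ : ℝ} (ht : 0 < t₀) {A : E m →L[ℝ] E (m + 2)} (hA : Function.Injective A) {w n : E (m + 2)} (hw : w ≠ 0) (hn : n ≠ 0)
    (hwn : ⟪w, n⟫ = 0) (hAn : ∀ v, ⟪A v, n⟫ = 0) (hAw : ∀ v, ⟪A v, w⟫ = 0) : Function.Injective (adlL t₀ A w n) := by
  rw [injective_iff_map_eq_zero]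
  rintro ⟨v, α, β⟩ h
  rw [adlL_apply] at h
  simp only at h
  have hα : α = 0 := by
    have h1 := congrArg (fun y => ⟪y, n⟫) h
    simp only [inner_add_left, inner_smul_left, hAn, hwn, inner_zero_left, mul_zero, zero_add, RCLike.conj_to_real] at h1
    rcases mul_eq_zero.1 h1 with h2 | h2
    · exact h2
    · exact absurd (inner_self_eq_zero.1 h2) hn
  have hβ : β = 0 := by
    have h1 := congrArg (fun y => ⟪y, w⟫) h
    have hnw : ⟪n, w⟫ = 0 := by rw [real_inner_comm]; exact hwn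
    simp only [inner_add_left, inner_smul_left, hAw, hnw, inner_zero_left, mul_zero, zero_add, add_zero, RCLike.conj_to_real] at h1
    rcases mul_eq_zero.1 h1 with h2 | h2
    · exact h2
    · exact absurd (inner_self_eq_zero.1 h2) hw
  subst hα hβ
  simp only [zero_smul, add_zero] at h
  have hv : A v = 0 := (smul_eq_zero.1 h).resolve_left ht.ne'
  have : v = 0 := hA (by rw [hv, map_zero])
  subst this
  rfl

/-- the linearisation as an equivalence. -/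
noncomputable def adlEq {t₀ : ℝ} {A : E m →L[ℝ] E (m + 2)} {w n : E (m + 2)} (h : Function.Injective (adlL t₀ A w n)) :
    (E m × ℝ × ℝ) ≃L[ℝ] E (m + 2) :=
  (LinearMap.linearEquivOfInjective (adlL t₀ A w n).toLinearMap h (by simp)).toContinuousLinearEquiv

theorem adlEq_coe {t₀ : ℝ} {A : E m →L[ℝ] E (m + 2)} {w n : E (m + 2)} (h : Function.Injective (adlL t₀ A w n)) :
    ((adlEq h : (E m × ℝ × ℝ) ≃L[ℝ] E (m + 2)) : E m × ℝ × ℝ →L[ℝ] E (m + 2)) = adlL t₀ A w n := by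
  refine ContinuousLinearMap.ext fun q => ?_
  rfl


/-- tangent vectors of a map into the unit sphere are orthogonal to the position. -/
theorem adl_tangent {r : ℝ} (hr : 0 < r) {f : E m → E (m + 2)} (hf : DifferentiableAt ℝ f 0) (hsph : ∀ u ∈ ball (0 : E m) r, ‖f u‖ = 1) (v : E m) :
    ⟪fderiv ℝ f 0 v, f 0⟫ = 0 := by
  have h1 : HasFDerivAt (fun u => ⟪f u, f u⟫) _ 0 := hf.hasFDerivAt.inner ℝ hf.hasFDerivAt
  have h2 : (fun u => ⟪f u, f u⟫) =ᶠ[𝓝 (0 : E m)] fun _ => (1 : ℝ) := by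
    filter_upwards [ball_mem_nhds (0 : E m) hr] with u hu
    rw [real_inner_self_eq_norm_sq, hsph u hu, one_pow]
  have h3 := (h2.hasFDerivAt_iff.1 h1).unique (hasFDerivAt_const (1 : ℝ) (0 : E m))
  have h4 := congrArg (fun L : E m →L[ℝ] ℝ => L v) h3
  simp only [zero_apply] at h4
  have h5 : ⟪f 0, fderiv ℝ f 0 v⟫ + ⟪fderiv ℝ f 0 v, f 0⟫ = 0 := by simpa using h4
  rw [real_inner_comm] at h5
  linarith

/-- **the inverse function theorem for the cone over a local sheet.** -/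
theorem adl_ift {r t₀ : ℝ} (hr : 0 < r) (ht : 0 < t₀) {f : E m → E (m + 2)} (hf : ContDiffOn ℝ ∞ f (ball 0 r))
    (hinj : Function.Injective (fderiv ℝ f 0)) (hsph : ∀ u ∈ ball (0 : E m) r, ‖f u‖ = 1) :
    ∃ (δ r₀ : ℝ) (φ : E (m + 2) → ℝ), 0 < δ ∧ δ ≤ r ∧ δ ≤ t₀ / 2 ∧ 0 < r₀ ∧ ContDiffOn ℝ ∞ φ (ball (t₀ • f 0) r₀) ∧
      (∀ y ∈ ball (t₀ • f 0) r₀, fderiv ℝ φ y ≠ 0) ∧
      (∀ y ∈ ball (t₀ • f 0) r₀, φ y = 0 → ∃ u ∈ ball (0 : E m) δ, ∃ b : ℝ, |b| < δ ∧ y = (t₀ + b) • f u) ∧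
      (∀ u ∈ ball (0 : E m) δ, ∀ b : ℝ, |b| < δ → φ ((t₀ + b) • f u) = 0) := by
  have hw1 : ‖f 0‖ = 1 := hsph 0 (mem_ball_self hr)
  have hw : f 0 ≠ 0 := by
    intro h
    rw [h, norm_zero] at hw1
    norm_num at hw1
  have hfat : ∀ u ∈ ball (0 : E m) r, ContDiffAt ℝ ∞ f u := fun u hu => hf.contDiffAt (isOpen_ball.mem_nhds hu)
  have hfd : DifferentiableAt ℝ f 0 := (hfat 0 (mem_ball_self hr)).differentiableAt (by simp)
  have hAw : ∀ v, ⟪fderiv ℝ f 0 v, f 0⟫ = 0 := adl_tangent hr hfd hsph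
  obtain ⟨n, hn, hwn, hAn⟩ := adl_normal (fderiv ℝ f 0) (f 0)
  have hLinj := adlL_inj ht hinj hw hn hwn hAn hAw
  set Ψ : E m × ℝ × ℝ → E (m + 2) := fun q => (t₀ + q.2.2) • f q.1 + q.2.1 • n with hΨdef
  have hΨs : ∀ q : E m × ℝ × ℝ, q.1 ∈ ball (0 : E m) r → ContDiffAt ℝ ∞ Ψ q := by
    intro q hq
    have h1 : ContDiffAt ℝ ∞ (fun q : E m × ℝ × ℝ => f q.1) q := (hfat q.1 hq).comp q contDiffAt_fst
    exact ((contDiffAt_const.add contDiffAt_snd.snd).smul h1).add (contDiffAt_snd.fst.smul contDiffAt_const)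
  have hΨ0 : HasFDerivAt Ψ (adlL t₀ (fderiv ℝ f 0) (f 0) n) 0 := by
    have h1 : HasFDerivAt (fun q : E m × ℝ × ℝ => f q.1) (fderiv ℝ f 0 ∘L ContinuousLinearMap.fst ℝ (E m) (ℝ × ℝ)) 0 :=
      HasFDerivAt.comp (0 : E m × ℝ × ℝ) (g := f) (f := Prod.fst) hfd.hasFDerivAt hasFDerivAt_fst
    have h2 : HasFDerivAt (fun q : E m × ℝ × ℝ => t₀ + q.2.2)
        ((ContinuousLinearMap.snd ℝ ℝ ℝ) ∘L (ContinuousLinearMap.snd ℝ (E m) (ℝ × ℝ))) 0 :=
      ((ContinuousLinearMap.snd ℝ ℝ ℝ) ∘L (ContinuousLinearMap.snd ℝ (E m) (ℝ × ℝ))).hasFDerivAt.const_add t₀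
    have h3 : HasFDerivAt (fun q : E m × ℝ × ℝ => q.2.1)
        ((ContinuousLinearMap.fst ℝ ℝ ℝ) ∘L (ContinuousLinearMap.snd ℝ (E m) (ℝ × ℝ))) 0 :=
      ((ContinuousLinearMap.fst ℝ ℝ ℝ) ∘L (ContinuousLinearMap.snd ℝ (E m) (ℝ × ℝ))).hasFDerivAt
    have h4 := (h2.smul h1).add (h3.smul_const n)
    refine h4.congr_fderiv ?_
    refine ContinuousLinearMap.ext fun q => ?_
    simp [adlL]
  have hΨ0' : HasFDerivAt Ψ ((adlEq hLinj : (E m × ℝ × ℝ) ≃L[ℝ] E (m + 2)) : E m × ℝ × ℝ →L[ℝ] E (m + 2)) 0 := by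
    rw [adlEq_coe]
    exact hΨ0
  have hc0 : ContDiffAt ℝ ∞ Ψ 0 := hΨs 0 (by simpa using hr)
  have hn0 : (∞ : WithTop ℕ∞) ≠ 0 := by simp
  set e := hc0.toOpenPartialHomeomorph Ψ hΨ0' hn0 with he
  have he_coe : ∀ q, e q = Ψ q := fun q => rfl
  have h0src : (0 : E m × ℝ × ℝ) ∈ e.source := hc0.mem_toOpenPartialHomeomorph_source hΨ0' hn0
  have hopenr : ∀ᶠ q : E m × ℝ × ℝ in 𝓝 0, q.1 ∈ ball (0 : E m) r :=
    continuous_fst.continuousAt.eventually_mem (by simpa using ball_mem_nhds (0 : E m) hr)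
  have hinv : ∀ᶠ q in 𝓝 (0 : E m × ℝ × ℝ), ∃ L : (E m × ℝ × ℝ) ≃L[ℝ] E (m + 2), HasFDerivAt Ψ (L : E m × ℝ × ℝ →L[ℝ] E (m + 2)) q := by
    have hcont : ContinuousAt (fderiv ℝ Ψ) 0 := (hc0.fderiv_right (m := 0) (by simp)).continuousAt
    have h1 : range ((↑) : ((E m × ℝ × ℝ) ≃L[ℝ] E (m + 2)) → (E m × ℝ × ℝ →L[ℝ] E (m + 2))) ∈ 𝓝 (fderiv ℝ Ψ 0) := by
      rw [hΨ0'.fderiv]
      exact ContinuousLinearEquiv.nhds _
    filter_upwards [hcont.eventually_mem h1, hopenr] with q hq hq'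
    obtain ⟨L, hL⟩ := hq
    exact ⟨L, hL ▸ ((hΨs q hq').differentiableAt (by simp)).hasFDerivAt⟩
  obtain ⟨δ₀, hδ₀, hsub₀⟩ := Metric.mem_nhds_iff.1 (Filter.Eventually.and (e.open_source.mem_nhds h0src : ∀ᶠ q in 𝓝 (0 : E m × ℝ × ℝ), q ∈ e.source) (hopenr.and hinv))
  set δ : ℝ := min δ₀ (min r (t₀ / 2)) with hδ
  have hδpos : 0 < δ := lt_min hδ₀ (lt_min hr (by positivity))
  have hsub : ∀ q ∈ ball (0 : E m × ℝ × ℝ) δ, q ∈ e.source ∧ q.1 ∈ ball (0 : E m) r ∧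
      ∃ L : (E m × ℝ × ℝ) ≃L[ℝ] E (m + 2), HasFDerivAt Ψ (L : E m × ℝ × ℝ →L[ℝ] E (m + 2)) q :=
    fun q hq => hsub₀ (ball_subset_ball (min_le_left _ _) hq)
  have hopen : IsOpen (e '' ball (0 : E m × ℝ × ℝ) δ) := e.isOpen_image_of_subset_source isOpen_ball fun q hq => (hsub q hq).1
  have hp : t₀ • f 0 ∈ e '' ball (0 : E m × ℝ × ℝ) δ := ⟨0, mem_ball_self hδpos, by rw [he_coe]; simp [hΨdef]⟩
  obtain ⟨r₀, hr₀, hball⟩ := Metric.isOpen_iff.1 hopen _ hp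
  refine ⟨δ, r₀, fun y => (e.symm y).2.1, hδpos, (min_le_right _ _).trans (min_le_left _ _), (min_le_right _ _).trans (min_le_right _ _), hr₀,
    ?_, ?_, ?_, ?_⟩
  · intro y hy
    obtain ⟨q, hq, rfl⟩ := hball hy
    obtain ⟨h1, h2, L, hL⟩ := hsub q hq
    have h3 : ContDiffAt ℝ ∞ e.symm (e q) :=
      e.contDiffAt_symm (e.map_source h1) (f₀' := L) (by rw [e.left_inv h1]; exact hL) (by rw [e.left_inv h1]; exact hΨs q h2)
    exact h3.snd.fst.contDiffWithinAt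
  · intro y hy
    obtain ⟨q, hq, rfl⟩ := hball hy
    obtain ⟨h1, h2, L, hL⟩ := hsub q hq
    have h3 : HasFDerivAt e.symm (L.symm : E (m + 2) →L[ℝ] E m × ℝ × ℝ) (e q) :=
      e.hasFDerivAt_symm (e.map_source h1) (by rw [e.left_inv h1]; exact hL)
    have h4 : HasFDerivAt (fun y => (e.symm y).2.1)
        (((ContinuousLinearMap.fst ℝ ℝ ℝ) ∘L (ContinuousLinearMap.snd ℝ (E m) (ℝ × ℝ))) ∘L (L.symm : E (m + 2) →L[ℝ] E m × ℝ × ℝ)) (e q) :=
      (((ContinuousLinearMap.fst ℝ ℝ ℝ) ∘L (ContinuousLinearMap.snd ℝ (E m) (ℝ × ℝ))).hasFDerivAt).comp (e q) h3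
    rw [h4.fderiv]
    intro h0
    have h5 := congrArg (fun T : E (m + 2) →L[ℝ] ℝ => T (L ((0 : E m), (1 : ℝ), (0 : ℝ)))) h0
    simp at h5
  · intro y hy hφ
    obtain ⟨q, hq, rfl⟩ := hball hy
    obtain ⟨h1, -, -⟩ := hsub q hq
    simp only [e.left_inv h1] at hφ
    have hqn : ‖q‖ < δ := by simpa using hq
    refine ⟨q.1, by simpa using (norm_fst_le q).trans_lt hqn, q.2.2, ?_, ?_⟩
    · exact ((norm_snd_le q.2).trans (norm_snd_le q)).trans_lt hqn
    · rw [he_coe]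
      simp [hΨdef, hφ]
  · intro u hu b hb
    have hq : ((u, (0 : ℝ), b) : E m × ℝ × ℝ) ∈ ball (0 : E m × ℝ × ℝ) δ := by
      have hu' : ‖u‖ < δ := by simpa using hu
      simp only [mem_ball_zero_iff, Prod.norm_def, norm_zero, Real.norm_eq_abs]
      exact max_lt hu' (max_lt hδpos hb)
    obtain ⟨h1, -, -⟩ := hsub _ hq
    have h2 : (t₀ + b) • f u = e ((u, (0 : ℝ), b) : E m × ℝ × ℝ) := by
      rw [he_coe]
      simp [hΨdef]
    simp only [h2, e.left_inv h1]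

end lin

variable {m : ℕ} {M : Type*} [TopologicalSpace M] [ChartedSpace (E m) M]

/-- chain rule: a function which is constant along `F` kills the tangent vectors of `F`. -/
theorem adl_mf_chain {N : ℕ} {F : M → E N} {x : M} (hF : MDifferentiableAt (𝓡 m) 𝓘(ℝ, E N) F x) {u : E N → ℝ}
    (hu : DifferentiableAt ℝ u (F x)) {c : ℝ} (hc : ∀ x', u (F x') = c) (v : E m) :
    fderiv ℝ u (F x) ((mfderiv (𝓡 m) 𝓘(ℝ, E N) F x : E m →L[ℝ] E N) v) = 0 := by
  have h1 : HasMFDerivAt (𝓡 m) 𝓘(ℝ, ℝ) (u ∘ F) x ((fderiv ℝ u (F x)).comp (mfderiv (𝓡 m) 𝓘(ℝ, E N) F x)) :=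
    HasMFDerivAt.comp x hu.hasFDerivAt.hasMFDerivAt hF.hasMFDerivAt
  have h2 : u ∘ F = fun _ => c := funext hc
  rw [h2] at h1
  have h3 := hasMFDerivAt_unique h1 (hasMFDerivAt_const c x)
  exact congrArg (fun L : E m →L[ℝ] ℝ => L v) h3

/-- `projR A` kills the vectors orthogonal to the range of `A`. -/
theorem adl_projR_zero {N : ℕ} (A : E m →L[ℝ] E N) {y : E N} (hy : ∀ v, ⟪A v, y⟫ = 0) : projR A y = 0 := by
  have hadj : ContinuousLinearMap.adjoint A y = 0 := by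
    refine ext_inner_left ℝ fun v => ?_
    rw [ContinuousLinearMap.adjoint_inner_right, inner_zero_right, hy]
  simp [projR, hadj]

/-- tangent vectors of a map into the unit sphere are orthogonal to the position. -/
theorem adl_mf_tangent {N : ℕ} {F : M → E N} {x : M} (hF : MDifferentiableAt (𝓡 m) 𝓘(ℝ, E N) F x) (hsph : ∀ x, ‖F x‖ = 1)
    (A : E m →L[ℝ] E N) (hA : A = mfderiv (𝓡 m) 𝓘(ℝ, E N) F x) (v : E m) : ⟪A v, F x⟫ = 0 := by
  have hd : HasFDerivAt (fun y : E N => ⟪y, y⟫) _ (F x) := (hasFDerivAt_id (F x)).inner ℝ (hasFDerivAt_id (F x))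
  have h1 := adl_mf_chain hF hd.differentiableAt (c := 1) (fun x' => by rw [real_inner_self_eq_norm_sq, hsph, one_pow]) v
  rw [hd.fderiv, ← hA] at h1
  have h2 : ⟪F x, A v⟫ + ⟪A v, F x⟫ = 0 := h1
  rw [real_inner_comm] at h2
  linarith

theorem adl_norm {k : ℕ} {F : M → E k} (hsph : ∀ x, ‖F x‖ = 1) {t : ℝ} (ht : 0 < t) (x : M) : ‖t • F x‖ = t := by
  rw [norm_smul, hsph, mul_one, Real.norm_of_nonneg ht.le]

theorem adl_closed [CompactSpace M] {k : ℕ} {F : M → E k} (hF : Continuous F) (hsph : ∀ x, ‖F x‖ = 1) : IsClosed (insert (0 : E k) (adZ F)) := by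
  have hT : IsClosed {q : E k × M | q.1 = ‖q.1‖ • F q.2} :=
    isClosed_eq continuous_fst ((continuous_norm.comp continuous_fst).smul (hF.comp continuous_snd))
  have e : insert (0 : E k) (adZ F) = {0} ∪ Prod.fst '' {q : E k × M | q.1 = ‖q.1‖ • F q.2} := by
    ext y
    simp only [mem_insert_iff, mem_union, mem_singleton_iff, mem_image, mem_ofPred_eq, Prod.exists, exists_and_right, exists_eq_right]
    constructor
    · rintro (h | ⟨t, ht, x, rfl⟩)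
      · exact Or.inl h
      · exact Or.inr ⟨x, by rw [adl_norm hsph ht]⟩
    · rintro (h | ⟨x, hx⟩)
      · exact Or.inl h
      · by_cases hy : y = 0
        · exact Or.inl hy
        · exact Or.inr ⟨‖y‖, norm_pos_iff.2 hy, x, hx⟩
  rw [e]
  exact isClosed_singleton.union (isClosedMap_fst_of_compactSpace _ hT)

/-- **EXIT.** -/
theorem ad_hyp [T2Space M] [CompactSpace M] [IsManifold (𝓡 m) ∞ M] {F : M → E (m + 2)}
    (hF : ContMDiff (𝓡 m) 𝓘(ℝ, E (m + 2)) ∞ F) (hsph : ∀ x, ‖F x‖ = 1)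
    (himm : ∀ x, Function.Injective (mfderiv (𝓡 m) 𝓘(ℝ, E (m + 2)) F x))
    (hinj : Function.Injective F) : AdHyp (m + 2) (adZ F) := by
  refine ⟨?_, adl_closed hF.continuous hsph, ?_, ?_⟩
  · rintro ⟨t, ht, x, h⟩
    have h1 := adl_norm hsph ht x
    rw [← h, norm_zero] at h1
    exact ht.ne h1
  · rintro s hs _ ⟨t, ht, x, rfl⟩
    exact ⟨s * t, mul_pos hs ht, x, by rw [smul_smul]⟩
  · rintro _ ⟨t₀, ht₀, x₀, rfl⟩
    obtain ⟨O, r, f, hO, hx₀, -, hr, hf, hfi, -, hf0, hFO, -, hOδ⟩ := ad_chart hF himm x₀ univ univ_mem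
    have hfs : ∀ u ∈ ball (0 : E m) r, ‖f u‖ = 1 := by
      intro u hu
      obtain ⟨x, -, hx⟩ : f u ∈ F '' O := hFO ▸ mem_image_of_mem f hu
      rw [← hx, hsph]
    obtain ⟨δ, r₀, φ, hδ, hδr, hδt, hr₀, hφs, hφd, hφ1, hφ2⟩ := adl_ift hr ht₀ hf (hfi 0 (mem_ball_self hr)) hfs
    rw [hf0] at hφs hφd hφ1
    -- the complement of the small sheet stays away from `F x₀`
    have hOo : IsOpen (O ∩ F ⁻¹' (f '' ball 0 δ)) := hOδ δ hδ hδr
    have hx₀' : x₀ ∈ O ∩ F ⁻¹' (f '' ball 0 δ) := ⟨hx₀, 0, mem_ball_self hδ, hf0⟩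
    have hK : IsClosed (F '' (O ∩ F ⁻¹' (f '' ball 0 δ))ᶜ) := (hOo.isClosed_compl.isCompact.image hF.continuous).isClosed
    have hnot : F x₀ ∉ F '' (O ∩ F ⁻¹' (f '' ball 0 δ))ᶜ := by
      rintro ⟨x, hx, hxx⟩
      exact hx (hinj hxx ▸ hx₀')
    obtain ⟨η, hη, hηb⟩ := Metric.isOpen_iff.1 hK.isOpen_compl _ hnot
    refine ⟨min r₀ (min δ (t₀ * η / 2)), lt_min hr₀ (lt_min hδ (by positivity)), φ, hφs.mono (ball_subset_ball (min_le_left _ _)),
      fun y hy => hφd y (ball_subset_ball (min_le_left _ _) hy), fun y hy => ⟨fun h => ?_, ?_⟩⟩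
    · obtain ⟨u, hu, b, hb, rfl⟩ := hφ1 y (ball_subset_ball (min_le_left _ _) hy) h
      obtain ⟨x, -, hx⟩ : f u ∈ F '' O := hFO ▸ mem_image_of_mem f (ball_subset_ball hδr hu)
      have hb' := (abs_lt.1 hb).1
      exact ⟨t₀ + b, by linarith, x, by rw [hx]⟩
    · rintro ⟨t, ht, x, rfl⟩
      have hd : ‖t • F x - t₀ • F x₀‖ < min r₀ (min δ (t₀ * η / 2)) := by simpa [dist_eq_norm] using hy
      have hd1 : ‖t • F x - t₀ • F x₀‖ < δ := hd.trans_le ((min_le_right _ _).trans (min_le_left _ _))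
      have hd2 : ‖t • F x - t₀ • F x₀‖ < t₀ * η / 2 := hd.trans_le ((min_le_right _ _).trans (min_le_right _ _))
      have htt : |t - t₀| ≤ ‖t • F x - t₀ • F x₀‖ := by
        have := abs_norm_sub_norm_le (t • F x) (t₀ • F x₀)
        rwa [adl_norm hsph ht, adl_norm hsph ht₀] at this
      have hFF : t₀ * ‖F x - F x₀‖ ≤ 2 * ‖t • F x - t₀ • F x₀‖ := by
        have e1 : t₀ • (F x - F x₀) = (t₀ - t) • F x + (t • F x - t₀ • F x₀) := by
          rw [smul_sub, sub_smul]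
          abel
        have e2 : ‖t₀ • (F x - F x₀)‖ = t₀ * ‖F x - F x₀‖ := by rw [norm_smul, Real.norm_of_nonneg ht₀.le]
        have e3 : ‖(t₀ - t) • F x‖ = |t - t₀| := by rw [norm_smul, hsph, mul_one, Real.norm_eq_abs, abs_sub_comm]
        have e4 := norm_add_le ((t₀ - t) • F x) (t • F x - t₀ • F x₀)
        rw [← e1, e2, e3] at e4
        linarith
      have hFη : F x ∈ ball (F x₀) η := by
        rw [mem_ball, dist_eq_norm]
        have : t₀ * ‖F x - F x₀‖ < t₀ * η := by linarith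
        exact lt_of_mul_lt_mul_left this ht₀.le
      have hxO : x ∈ O ∩ F ⁻¹' (f '' ball 0 δ) := by
        by_contra hc
        exact hηb hFη (mem_image_of_mem F hc)
      obtain ⟨u, hu, hux⟩ := hxO.2
      have := hφ2 u hu (t - t₀) (htt.trans_lt hd1)
      rwa [hux, add_sub_cancel] at this

/-- the link of the cone is the image. -/
theorem ad_link_eq {F : M → E (m + 2)} (hsph : ∀ x, ‖F x‖ = 1) {S : Set (E (m + 2))}
    (hbd : gmtBd S = insert 0 (adZ F)) : adLink S = range F := by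
  unfold adLink
  rw [hbd]
  ext y
  simp only [mem_inter_iff, mem_insert_iff, mem_sphere_iff_norm, sub_zero, mem_range]
  constructor
  · rintro ⟨h | ⟨t, ht, x, rfl⟩, hy⟩
    · rw [h, norm_zero] at hy
      norm_num at hy
    · rw [adl_norm hsph ht] at hy
      exact ⟨x, by rw [hy, one_smul]⟩
  · rintro ⟨x, rfl⟩
    exact ⟨Or.inr ⟨1, one_pos, x, (one_smul _ _).symm⟩, hsph x⟩

/-- the volume of an embedding (`encard (F ⁻¹' {y}) = 1_{range F} y`; `range F` is compact). -/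
theorem ad_vol_inj [CompactSpace M] {F : M → E (m + 2)} (hF : Continuous F)
    (hinj : Function.Injective F) : volWithMult m F = μH[(m : ℝ)] (range F) := by
  have hm : MeasurableSet (range F) := (isCompact_range hF).isClosed.measurableSet
  have e : (fun y => ((F ⁻¹' {y}).encard : ℝ≥0∞)) = (range F).indicator 1 := by
    funext y
    by_cases hy : y ∈ range F
    · obtain ⟨x, rfl⟩ := hy
      have : F ⁻¹' {F x} = {x} := by
        ext x'
        simp [hinj.eq_iff]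
      rw [this, Set.encard_singleton, indicator_of_mem (mem_range_self x)]
      simp
    · have : F ⁻¹' {y} = ∅ := by
        ext x'
        simp only [mem_preimage, mem_singleton_iff, mem_empty_iff_false, iff_false]
        exact fun h => hy ⟨x', h⟩
      rw [this, Set.encard_empty, indicator_of_notMem hy]
      simp
  unfold volWithMult
  rw [e, lintegral_indicator_one hm]

end Claimed.Agent.R323
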