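import Claimed.Agent.R323.Ad.Gen
import Claimed.Agent.R323.Ad.Loc
import Claimed.Agent.R323.Kit.Tube

/-!
# Row 323, block A, package A5: the cone over an embedded minimal `F(M)` is stationary (also across the vertex).      Contract + plan by helper195.

`N = m + 2`, `u = gmtSimSd S`, `n = gradient u`, `Σ = adLink S = range F`, `c = adC m`.
* `ad_st_tube`  : `gmtSim_tube_exists` + the proof of `gmtSim_cone_exists` (fields `hom`): on `gmtBd S \ 0`: `u` smooth nearby, `|n| = 1`, `⟪x, n x⟫ = 0`, `n (r • x) = n x`; `gmtNu S = n` `μ_S`-a.e.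
* `ad_st_proj`  : linear algebra: a rank `m` orthogonal projection `P` of `E (m+2)` with `P y = 0 = P n`, `y ⊥ n` unit, is `1 - y⊗y - n⊗n`; so `tdiv P L = tr L - ⟪L y, y⟫ - ⟪L n, n⟫`
                  (`Q = 1 - y⊗y - n⊗n`, `R = Q - P` is a symmetric idempotent of trace `0`, `tr R = ∑ |R e_i|²`).
* `ad_st_tan`   : `𝒱`-a.e. `q.2 (n q.1) = 0`: `q.2 = projR (mfderiv F x)`, `u ∘ F = 0` on `M`, chain rule: `⟪n (F x), mfderiv F x v⟫ = 0`, so `Aᵀ n = 0`.
* `ad_st_slice` : `AdVar.stat` with `W y = X (r • y)` (`DW(y) = r DX(r y)`), `𝒱.map fst = μH[m]⌞Σ` (`F` injective):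
                  `r ∫_Σ (div X - ⟪DX y, y⟫ - ⟪DX n, n⟫)(r y) dμH[m] = m ∫_Σ ⟪X (r y), y⟫ dμH[m]`.
* `ad_st_polar` : `ad_gen_polar` + Fubini: `c · gmtDelta S X = ∫_0^∞ r^m ∫_Σ (div X - ⟪n, DX n⟫)(r y) dμH[m](y) dr`.
* `ad_st_rad`   : `h r = ∫_Σ ⟪X (r y), y⟫`, `h' r = ∫_Σ ⟪DX(r y) y, y⟫`; the integrand above is `r^m (m h/r + h') = (r^m h)'`; `r^m h → 0` at `0` (`m ≥ 1`), `= 0` for large `r`: the integral vanishes
                  (`intervalIntegral.integral_eq_sub_of_hasDerivAt`).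
-/

set_option autoImplicit false
open scoped Manifold ContDiff ENNReal NNReal RealInnerProductSpace Topology
open MeasureTheory Metric Set Filter
open Claims.C0508

namespace Claimed.Agent.R323

open Claimed.Agent.Gmt
open Claimed.Agent.R322 (IsProj tdiv)

variable {m : ℕ} {M : Type*} [TopologicalSpace M] [ChartedSpace (E m) M]

/-- **L-AD-S1** the normal field of a regular cone. -/
theorem ad_st_tube {k : ℕ} {S : Set (E k)} (hS : AdReg k S) :
    (∀ x ∈ gmtBd S, x ≠ 0 → ContDiffAt ℝ ∞ (gmtSimSd S) x ∧ gmtSimSd S x = 0 ∧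
      ‖gradient (gmtSimSd S) x‖ = 1 ∧ ⟪x, gradient (gmtSimSd S) x⟫ = 0 ∧
      ∀ r : ℝ, 0 < r → gradient (gmtSimSd S) (r • x) = gradient (gmtSimSd S) x) ∧
    ∀ᵐ x ∂((gmtMu S).restrict {0}ᶜ), gmtNu S x = gradient (gmtSimSd S) x := by
  obtain ⟨U, hU⟩ := gmtSim_tube_exists hS.meas hS.reg
  have hu : ∀ t : ℝ, 0 < t → ∀ x, gmtSimSd S (t • x) = t * gmtSimSd S x :=
    fun t ht x => gmtSim_sd_smul hS.cone ht x
  constructor
  · intro x hx hx0
    have hxU : x ∈ U := hU.bd x hx hx0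
    have hsm : ContDiffAt ℝ ∞ (gmtSimSd S) x := hU.smooth.contDiffAt (hU.opn.mem_nhds hxU)
    have hz : gmtSimSd S x = 0 := (hU.zero_iff x hxU).2 hx
    refine ⟨hsm, hz, hU.eik x hxU, ?_, fun r hr => kit_grad_smul hr (hu r hr) x⟩
    have hd : DifferentiableAt ℝ (gmtSimSd S) x := hsm.differentiableAt (by simp)
    have h1 : HasDerivAt (fun t : ℝ => gmtSimSd S (t • x)) (fderiv ℝ (gmtSimSd S) x x) 1 := by
      have hx1 : HasDerivAt (fun t : ℝ => t • x) x 1 := by
        simpa using (hasDerivAt_id (1 : ℝ)).smul_const x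
      have hd' : HasFDerivAt (gmtSimSd S) (fderiv ℝ (gmtSimSd S) x) ((1 : ℝ) • x) := by
        rw [one_smul]
        exact hd.hasFDerivAt
      exact hd'.comp_hasDerivAt 1 hx1
    have h2 : HasDerivAt (fun t : ℝ => t * gmtSimSd S x) (gmtSimSd S x) 1 := by
      simpa using (hasDerivAt_id (1 : ℝ)).mul_const (gmtSimSd S x)
    have h3 : (fun t : ℝ => t * gmtSimSd S x) =ᶠ[𝓝 1] fun t : ℝ => gmtSimSd S (t • x) := by
      filter_upwards [lt_mem_nhds (zero_lt_one' ℝ)] with t ht using (hu t ht x).symm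
    rw [real_inner_comm, gmtSim_inner_gradient, (h1.congr_of_eventuallyEq h3).unique h2, hz]
  · have h1 := hU.nu
    have h2 : ∀ᵐ x ∂(gmtMu S), x ∈ gmtBd S := by
      rw [ae_iff]
      exact gmtMu_compl_gmtBd hS.meas
    rw [ae_restrict_iff' hU.opn.measurableSet] at h1
    rw [ae_restrict_iff' isOpen_compl_singleton.measurableSet]
    filter_upwards [h1, h2] with x hx1 hx2 hx3
    exact hx1 (hU.bd x hx2 hx3)

theorem ad_st_proj_sq {P : E (m + 2) →L[ℝ] E (m + 2)} (hP : IsProj m P) {y n : E (m + 2)}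
    (hy : ‖y‖ = 1) (hn : ‖n‖ = 1) (hyn : ⟪y, n⟫ = 0) (hPy : P y = 0) (hPn : P n = 0)
    (x : E (m + 2)) :
    ‖x - ⟪y, x⟫ • y - ⟪n, x⟫ • n - P x‖ ^ 2 = ‖x‖ ^ 2 - ⟪y, x⟫ ^ 2 - ⟪n, x⟫ ^ 2 - ⟪x, P x⟫ := by
  have h1 : ⟪P x, P x⟫ = ⟪x, P x⟫ := by
    rw [hP.symm x (P x)]
    have := congrArg (fun A : E (m + 2) →L[ℝ] E (m + 2) => A x) hP.idem
    simp only [ContinuousLinearMap.comp_apply] at this
    rw [this]
  have h2 : ⟪y, P x⟫ = 0 := by rw [← hP.symm y x, hPy, inner_zero_left]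
  have h3 : ⟪n, P x⟫ = 0 := by rw [← hP.symm n x, hPn, inner_zero_left]
  have hyy : ⟪y, y⟫ = 1 := by rw [real_inner_self_eq_norm_sq, hy, one_pow]
  have hnn : ⟪n, n⟫ = 1 := by rw [real_inner_self_eq_norm_sq, hn, one_pow]
  have hny : ⟪n, y⟫ = 0 := by rw [real_inner_comm, hyn]
  have hxy : ⟪x, y⟫ = ⟪y, x⟫ := real_inner_comm _ _
  have hxn : ⟪x, n⟫ = ⟪n, x⟫ := real_inner_comm _ _
  have hPxx : ⟪P x, x⟫ = ⟪x, P x⟫ := real_inner_comm _ _
  have hPxy : ⟪P x, y⟫ = 0 := by rw [real_inner_comm, h2]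
  have hPxn : ⟪P x, n⟫ = 0 := by rw [real_inner_comm, h3]
  rw [← real_inner_self_eq_norm_sq, ← real_inner_self_eq_norm_sq]
  simp only [inner_sub_left, inner_sub_right, inner_smul_left, inner_smul_right, h1, h2, h3, hyy,
    hnn, hny, hyn, hxy, hxn, hPxx, hPxy, hPxn, RCLike.conj_to_real]
  ring

theorem ad_st_proj_eq {P : E (m + 2) →L[ℝ] E (m + 2)} (hP : IsProj m P) {y n : E (m + 2)}
    (hy : ‖y‖ = 1) (hn : ‖n‖ = 1) (hyn : ⟪y, n⟫ = 0) (hPy : P y = 0) (hPn : P n = 0)
    (i : Fin (m + 2)) : P (eb i) = eb i - ⟪y, eb i⟫ • y - ⟪n, eb i⟫ • n := by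
  have hsum : ∑ i : Fin (m + 2), ‖eb i - ⟪y, eb i⟫ • y - ⟪n, eb i⟫ • n - P (eb i)‖ ^ 2 = 0 := by
    simp only [ad_st_proj_sq hP hy hn hyn hPy hPn]
    have htr := hP.tr
    rw [LinearMap.trace_eq_sum_inner _ (EuclideanSpace.basisFun (Fin (m + 2)) ℝ)] at htr
    simp only [EuclideanSpace.basisFun_apply] at htr
    have hy2 : ∑ i : Fin (m + 2), ⟪y, eb i⟫ ^ 2 = 1 := by
      have := EuclideanSpace.real_norm_sq_eq y
      rw [hy, one_pow] at this
      rw [this]
      refine Finset.sum_congr rfl fun i _ => ?_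
      simp [EuclideanSpace.inner_single_right]
    have hn2 : ∑ i : Fin (m + 2), ⟪n, eb i⟫ ^ 2 = 1 := by
      have := EuclideanSpace.real_norm_sq_eq n
      rw [hn, one_pow] at this
      rw [this]
      refine Finset.sum_congr rfl fun i _ => ?_
      simp [EuclideanSpace.inner_single_right]
    have h1 : ∑ i : Fin (m + 2), ‖(eb i : E (m + 2))‖ ^ 2 = (m : ℝ) + 2 := by
      simp
    rw [Finset.sum_sub_distrib, Finset.sum_sub_distrib, Finset.sum_sub_distrib, h1, hy2, hn2]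
    have htr' : ∑ i : Fin (m + 2), ⟪(eb i : E (m + 2)), P (eb i)⟫ = (m : ℝ) := htr
    rw [htr']
    ring
  have h0 := (Finset.sum_eq_zero_iff_of_nonneg (fun i _ => by positivity)).1 hsum i (Finset.mem_univ i)
  have h1 : eb i - ⟪y, eb i⟫ • y - ⟪n, eb i⟫ • n - P (eb i) = 0 := by
    rw [← norm_eq_zero]
    exact pow_eq_zero_iff (two_ne_zero) |>.1 h0
  exact (sub_eq_zero.1 h1).symm

theorem ad_st_proj_sum (L : E (m + 2) →L[ℝ] E (m + 2)) (y : E (m + 2)) :
    ∑ i : Fin (m + 2), ⟪y, eb i⟫ * ⟪y, L (eb i)⟫ = ⟪L y, y⟫ := by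
  have h := (EuclideanSpace.basisFun (Fin (m + 2)) ℝ).sum_repr' y
  simp only [EuclideanSpace.basisFun_apply] at h
  have h2 : L y = ∑ i : Fin (m + 2), ⟪(eb i : E (m + 2)), y⟫ • L (eb i) := by
    conv_lhs => rw [← h]
    rw [map_sum]
    refine Finset.sum_congr rfl fun i _ => ?_
    rw [map_smul]
  rw [h2, sum_inner]
  refine Finset.sum_congr rfl fun i _ => ?_
  rw [inner_smul_left, real_inner_comm (eb i) y, real_inner_comm y (L (eb i))]
  simp

/-- **L-AD-S2** linear algebra. -/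
theorem ad_st_proj {P : E (m + 2) →L[ℝ] E (m + 2)} (hP : IsProj m P) {y n : E (m + 2)}
    (hy : ‖y‖ = 1) (hn : ‖n‖ = 1) (hyn : ⟪y, n⟫ = 0) (hPy : P y = 0) (hPn : P n = 0)
    (L : E (m + 2) →L[ℝ] E (m + 2)) :
    tdiv P L = (∑ i, ⟪L (eb i), eb i⟫) - ⟪L y, y⟫ - ⟪L n, n⟫ := by
  unfold tdiv
  rw [LinearMap.trace_eq_sum_inner _ (EuclideanSpace.basisFun (Fin (m + 2)) ℝ)]
  simp only [EuclideanSpace.basisFun_apply]
  rw [← ad_st_proj_sum L y, ← ad_st_proj_sum L n, ← Finset.sum_sub_distrib, ← Finset.sum_sub_distrib]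
  refine Finset.sum_congr rfl fun i _ => ?_
  show ⟪eb i, P (L (eb i))⟫ = _
  rw [← hP.symm, ad_st_proj_eq hP hy hn hyn hPy hPn i]
  simp only [inner_sub_left, inner_smul_left, RCLike.conj_to_real]
  rw [real_inner_comm (L (eb i)) (eb i)]

/-- **L-AD-S3** the tangent planes are orthogonal to the normal of the cone. -/
theorem ad_st_tan [IsManifold (𝓡 m) ∞ M] {F : M → E (m + 2)}
    (hF : ContMDiff (𝓡 m) 𝓘(ℝ, E (m + 2)) ∞ F) (hsph : ∀ x, ‖F x‖ = 1)
    {𝒱 : Measure (E (m + 2) × (E (m + 2) →L[ℝ] E (m + 2)))} (h𝒱 : AdVar m F 𝒱)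
    {S : Set (E (m + 2))} (hS : AdReg (m + 2) S) (hbd : gmtBd S = insert 0 (adZ F)) :
    ∀ᵐ q ∂𝒱, q.2 (gradient (gmtSimSd S) q.1) = 0 := by
  obtain ⟨htube, -⟩ := ad_st_tube hS
  have hmem : ∀ x, F x ∈ gmtBd S ∧ F x ≠ 0 := fun x =>
    ⟨by rw [hbd]; exact Or.inr ⟨1, one_pos, x, (one_smul _ _).symm⟩, fun h => by
      have h1 := hsph x
      rw [h, norm_zero] at h1
      norm_num at h1⟩
  filter_upwards [h𝒱.tan] with q hq
  obtain ⟨x, hx, hP⟩ := hq
  rw [hP, ← hx]
  refine adl_projR_zero _ fun v => ?_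
  have hd : DifferentiableAt ℝ (gmtSimSd S) (F x) := (htube (F x) (hmem x).1 (hmem x).2).1.differentiableAt (by simp)
  have h1 := adl_mf_chain (hF.mdifferentiableAt (by simp)) hd (c := 0) (fun x' => (htube (F x') (hmem x').1 (hmem x').2).2.1) v
  rw [real_inner_comm, ← h1]
  unfold gradient
  exact InnerProductSpace.toDual_symm_apply

/-! ### helpers for S4, S5, S7 (helper153) -/

theorem ad_sth_compact {k : ℕ} (S : Set (E k)) : IsCompact (adLink S) :=
  (isCompact_sphere (0 : E k) 1).inter_left (isClosed_gmtBd S)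

theorem ad_sth_norm {k : ℕ} {S : Set (E k)} {y : E k} (hy : y ∈ adLink S) : ‖y‖ = 1 :=
  mem_sphere_zero_iff_norm.1 hy.2

theorem ad_sth_ne {k : ℕ} {S : Set (E k)} {y : E k} (hy : y ∈ adLink S) : y ≠ 0 := by
  intro h
  have := ad_sth_norm hy
  rw [h, norm_zero] at this
  exact zero_ne_one this

theorem ad_sth_n_cont {k : ℕ} {S : Set (E k)} (hS : AdReg k S) :
    ContinuousOn (gradient (gmtSimSd S)) (adLink S) := by
  intro y hy
  have h1 := ((ad_st_tube hS).1 y hy.1 (ad_sth_ne hy)).1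
  have h2 : ContinuousAt (fderiv ℝ (gmtSimSd S)) y := (h1.fderiv_right (m := 0) (by simp)).continuousAt
  exact ((InnerProductSpace.toDual ℝ (E k)).symm.continuous.continuousAt.comp h2).continuousWithinAt

theorem ad_sth_int {S : Set (E (m + 2))} (hS : AdReg (m + 2) S) {f : E (m + 2) → ℝ}
    (hf : ContinuousOn f (adLink S)) : IntegrableOn f (adLink S) μH[(m : ℝ)] := by
  obtain ⟨C, hC⟩ := (ad_sth_compact S).exists_bound_of_continuousOn hf
  exact IntegrableOn.of_bound (ad_gen_fin hS).lt_top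
    (hf.aestronglyMeasurable (ad_link_meas S)) C
    ((ae_restrict_iff' (ad_link_meas S)).2 (Eventually.of_forall hC))

theorem ad_sth_cA {k : ℕ} {X : E k → E k} (hX : ContDiff ℝ ∞ X) (r : ℝ) :
    Continuous fun y : E k => gmtDiv X (r • y) :=
  (fly_div_continuous (hX.of_le (by simp))).comp (continuous_const_smul r)

theorem ad_sth_cDX {k : ℕ} {X : E k → E k} (hX : ContDiff ℝ ∞ X) (r : ℝ) :
    Continuous fun y : E k => fderiv ℝ X (r • y) :=
  (hX.continuous_fderiv (by simp)).comp (continuous_const_smul r)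

theorem ad_sth_cB {k : ℕ} {X : E k → E k} (hX : ContDiff ℝ ∞ X) (r : ℝ) :
    Continuous fun y : E k => ⟪fderiv ℝ X (r • y) y, y⟫ :=
  ((ad_sth_cDX hX r).clm_apply continuous_id).inner continuous_id

theorem ad_sth_cC {k : ℕ} {S : Set (E k)} (hS : AdReg k S) {X : E k → E k} (hX : ContDiff ℝ ∞ X)
    (r : ℝ) : ContinuousOn (fun y : E k => ⟪gradient (gmtSimSd S) y,
      fderiv ℝ X (r • y) (gradient (gmtSimSd S) y)⟫) (adLink S) :=
  (ad_sth_n_cont hS).inner ((ad_sth_cDX hX r).continuousOn.clm_apply (ad_sth_n_cont hS))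

theorem ad_sth_cD {k : ℕ} {X : E k → E k} (hX : ContDiff ℝ ∞ X) (r : ℝ) :
    Continuous fun y : E k => ⟪X (r • y), y⟫ :=
  (hX.continuous.comp (continuous_const_smul r)).inner continuous_id

theorem ad_sth_fst [CompactSpace M] {F : M → E (m + 2)} (hF : Continuous F)
    (hsph : ∀ x, ‖F x‖ = 1) (hinj : Function.Injective F)
    {𝒱 : Measure (E (m + 2) × (E (m + 2) →L[ℝ] E (m + 2)))} (h𝒱 : AdVar m F 𝒱)
    {S : Set (E (m + 2))} (hbd : gmtBd S = insert 0 (adZ F)) :
    𝒱.map Prod.fst = (μH[(m : ℝ)] : Measure (E (m + 2))).restrict (adLink S) := by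
  have e : (fun y => ((F ⁻¹' {y}).encard : ℝ≥0∞)) = (range F).indicator 1 := by
    funext y
    by_cases hy : y ∈ range F
    · obtain ⟨x, rfl⟩ := hy
      have : F ⁻¹' {F x} = {x} := by
        ext x'
        simp [hinj.eq_iff]
      rw [this, Set.encard_singleton, indicator_of_mem (mem_range_self x)]
      simp
    · have : F ⁻¹' {y} = ∅ := by
        ext x'
        simp only [mem_preimage, mem_singleton_iff, mem_empty_iff_false, iff_false]
        exact fun h => hy ⟨x', h⟩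
      rw [this, Set.encard_empty, indicator_of_notMem hy]
      simp
  rw [h𝒱.fst, e, ad_link_eq hsph hbd,
    withDensity_indicator_one (isCompact_range hF).isClosed.measurableSet]

theorem ad_sth_div {k : ℕ} (X : E k → E k) (z : E k) :
    ∑ i, ⟪fderiv ℝ X z (eb i), eb i⟫ = gmtDiv X z := by
  unfold gmtDiv
  refine Finset.sum_congr rfl fun i _ => ?_
  rw [EuclideanSpace.inner_single_right]
  simp

/-- **L-AD-S4** the first variation on the sphere of radius `r`. -/
theorem ad_st_slice [T2Space M] [CompactSpace M] [IsManifold (𝓡 m) ∞ M] {F : M → E (m + 2)}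
    (hF : ContMDiff (𝓡 m) 𝓘(ℝ, E (m + 2)) ∞ F) (hsph : ∀ x, ‖F x‖ = 1)
    (himm : ∀ x, Function.Injective (mfderiv (𝓡 m) 𝓘(ℝ, E (m + 2)) F x))
    (hinj : Function.Injective F)
    {𝒱 : Measure (E (m + 2) × (E (m + 2) →L[ℝ] E (m + 2)))} (h𝒱 : AdVar m F 𝒱)
    {S : Set (E (m + 2))} (hS : AdReg (m + 2) S) (hbd : gmtBd S = insert 0 (adZ F))
    {X : E (m + 2) → E (m + 2)} (hX : ContDiff ℝ ∞ X) (r : ℝ) :
    r * ∫ y in adLink S, (gmtDiv X (r • y) - ⟪fderiv ℝ X (r • y) y, y⟫ -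
        ⟪gradient (gmtSimSd S) y, fderiv ℝ X (r • y) (gradient (gmtSimSd S) y)⟫) ∂μH[(m : ℝ)] =
      m * ∫ y in adLink S, ⟪X (r • y), y⟫ ∂μH[(m : ℝ)] := by
  have hstat := h𝒱.stat univ (fun y => X (r • y)) isOpen_univ (subset_univ _)
    (hX.comp (contDiff_const_smul r)).contDiffOn
  have iA := ad_sth_int hS (ad_sth_cA hX r).continuousOn
  have iB := ad_sth_int hS (ad_sth_cB hX r).continuousOn
  have iC := ad_sth_int hS (ad_sth_cC hS hX r)
  have iD := ad_sth_int hS (ad_sth_cD hX r).continuousOn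
  have hae : ∀ᵐ q ∂𝒱, tdiv q.2 (fderiv ℝ (fun y => X (r • y)) q.1) - m * ⟪X (r • q.1), q.1⟫ =
      (fun y => r * (gmtDiv X (r • y) - ⟪fderiv ℝ X (r • y) y, y⟫ -
        ⟪gradient (gmtSimSd S) y, fderiv ℝ X (r • y) (gradient (gmtSimSd S) y)⟫) -
        m * ⟪X (r • y), y⟫) q.1 := by
    filter_upwards [ad_var_ae hF hsph himm h𝒱, ad_st_tan hF hsph h𝒱 hS hbd, h𝒱.tan] with q h1 h2 h3
    obtain ⟨x, hx, -⟩ := h3
    have hq : q.1 ∈ adLink S := by
      rw [ad_link_eq hsph hbd]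
      exact ⟨x, hx⟩
    obtain ⟨-, -, hn1, hn2, -⟩ := (ad_st_tube hS).1 q.1 hq.1 (ad_sth_ne hq)
    rw [fderiv_comp_smul, Claimed.Agent.R322.tdiv_smul, ad_st_proj h1.2.1 h1.1 hn1 hn2 h1.2.2 h2,
      ad_sth_div, real_inner_comm (gradient (gmtSimSd S) q.1)]
  rw [integral_congr_ae hae] at hstat
  have hfst := ad_sth_fst hF.continuous hsph hinj h𝒱 hbd
  have hint : IntegrableOn (fun y => r * (gmtDiv X (r • y) - ⟪fderiv ℝ X (r • y) y, y⟫ -
        ⟪gradient (gmtSimSd S) y, fderiv ℝ X (r • y) (gradient (gmtSimSd S) y)⟫) -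
        m * ⟪X (r • y), y⟫) (adLink S) μH[(m : ℝ)] :=
    (((iA.sub iB).sub iC).const_mul r).sub (iD.const_mul m)
  have hmap := integral_map (μ := 𝒱) measurable_fst.aemeasurable
    (f := fun y => r * (gmtDiv X (r • y) - ⟪fderiv ℝ X (r • y) y, y⟫ -
        ⟪gradient (gmtSimSd S) y, fderiv ℝ X (r • y) (gradient (gmtSimSd S) y)⟫) -
        m * ⟪X (r • y), y⟫) (by rw [hfst]; exact hint.aestronglyMeasurable)
  rw [← hmap, hfst] at hstat
  have h1 := integral_sub (((iA.sub iB).sub iC).const_mul r) (iD.const_mul m)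
  simp only [Pi.sub_apply] at h1
  rw [h1, integral_const_mul, integral_const_mul] at hstat
  linarith

theorem ad_sth_n_meas {k : ℕ} (S : Set (E k)) : Measurable (gradient (gmtSimSd S)) :=
  (InnerProductSpace.toDual ℝ (E k)).symm.continuous.measurable.comp (measurable_fderiv ℝ _)

theorem ad_sth_g_meas {k : ℕ} (S : Set (E k)) {X : E k → E k} (hX : ContDiff ℝ ∞ X) :
    Measurable fun y => gmtDiv X y -
      ⟪gradient (gmtSimSd S) y, fderiv ℝ X y (gradient (gmtSimSd S) y)⟫ := by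
  have hDX : Continuous (fderiv ℝ X) := hX.continuous_fderiv (by simp)
  refine (fly_div_continuous (hX.of_le (by simp))).measurable.sub ?_
  exact (ad_sth_n_meas S).inner
    (ContinuousLinearMap.measurable_apply₂.comp (hDX.measurable.prodMk (ad_sth_n_meas S)))

theorem ad_sth_ae {S : Set (E (m + 2))} (hS : AdReg (m + 2) S) :
    ∀ᵐ y ∂(gmtMu S), y ∈ gmtBd S ∧ y ≠ 0 := by
  rw [ae_iff]
  refine measure_mono_null ?_ (measure_union_null (gmtMu_compl_gmtBd hS.meas) (ad_gen_zero hS))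
  intro y hy
  by_cases h0 : y = 0
  · exact Or.inr h0
  · exact Or.inl fun h => hy ⟨h, h0⟩

theorem ad_sth_nu {S : Set (E (m + 2))} (hS : AdReg (m + 2) S) :
    ∀ᵐ y ∂(gmtMu S), gmtNu S y = gradient (gmtSimSd S) y := by
  have h : (gmtMu S).restrict {0}ᶜ = gmtMu S :=
    Measure.restrict_eq_self_of_ae_mem (by
      rw [ae_iff]
      simpa using ad_gen_zero hS)
  have := (ad_st_tube hS).2
  rwa [h] at this

theorem ad_sth_g_int {S : Set (E (m + 2))} (hS : AdReg (m + 2) S)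
    {X : E (m + 2) → E (m + 2)} (hX : GmtTestS univ X) :
    Integrable (fun y => gmtDiv X y -
      ⟪gradient (gmtSimSd S) y, fderiv ℝ X y (gradient (gmtSimSd S) y)⟫) (gmtMu S) := by
  have hDX : Continuous (fderiv ℝ X) := hX.smooth.continuous_fderiv (by simp)
  obtain ⟨R, hR⟩ := hX.cpt.isBounded.subset_ball 0
  have hG : Continuous fun p : E (m + 2) × E (m + 2) => gmtDiv X p.1 - ⟪p.2, fderiv ℝ X p.1 p.2⟫ :=
    ((fly_div_continuous (hX.smooth.of_le (by simp))).comp continuous_fst).sub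
      (continuous_snd.inner ((hDX.comp continuous_fst).clm_apply continuous_snd))
  obtain ⟨C, hC⟩ := ((isCompact_closedBall (0 : E (m + 2)) R).prod
    (isCompact_sphere (0 : E (m + 2)) 1)).exists_bound_of_continuousOn hG.continuousOn
  refine Integrable.mono' (g := (ball (0 : E (m + 2)) R).indicator fun _ => C)
    ((integrable_indicator_iff measurableSet_ball).2
      (integrableOn_const (ad_gen_ball_ne_top hS R)))
    (ad_sth_g_meas S hX.smooth).aestronglyMeasurable ?_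
  filter_upwards [ad_sth_ae hS] with y hy
  by_cases hyR : y ∈ ball (0 : E (m + 2)) R
  · rw [indicator_of_mem hyR]
    exact hC (y, gradient (gmtSimSd S) y) ⟨ball_subset_closedBall hyR,
      mem_sphere_zero_iff_norm.2 ((ad_st_tube hS).1 y hy.1 hy.2).2.2.1⟩
  · have hys : y ∉ tsupport X := fun h => hyR (hR h)
    rw [indicator_of_notMem hyR, gmtDiv_eq_zero_of_notMem hys,
      fderiv_of_notMem_tsupport (𝕜 := ℝ) hys]
    simp

/-- **L-AD-S5** polar form of the first variation of a regular cone. -/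
theorem ad_st_polar {S : Set (E (m + 2))} (hS : AdReg (m + 2) S)
    {X : E (m + 2) → E (m + 2)} (hX : GmtTestS univ X) :
    (adC m).toReal * gmtDelta S X = ∫ r in Ioi (0 : ℝ), r ^ m *
      ∫ y in adLink S, (gmtDiv X (r • y) -
        ⟪gradient (gmtSimSd S) y, fderiv ℝ X (r • y) (gradient (gmtSimSd S) y)⟫) ∂μH[(m : ℝ)] := by
  have hgm := ad_sth_g_meas S hX.smooth
  have hgi := ad_sth_g_int hS hX
  have : IsFiniteMeasure ((μH[(m : ℝ)] : Measure (E (m + 2))).restrict (adLink S)) :=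
    ⟨by rw [Measure.restrict_apply_univ]; exact (ad_gen_fin hS).lt_top⟩
  have hcont : Continuous fun p : ℝ × E (m + 2) => p.1 • p.2 := continuous_fst.smul continuous_snd
  have e1 : gmtDelta S X = ∫ y, (gmtDiv X y -
      ⟪gradient (gmtSimSd S) y, fderiv ℝ X y (gradient (gmtSimSd S) y)⟫) ∂(gmtMu S) := by
    unfold gmtDelta
    refine integral_congr_ae ?_
    filter_upwards [ad_sth_nu hS] with y hy
    rw [hy]
  have hgi' : Integrable (fun y => gmtDiv X y -
      ⟪gradient (gmtSimSd S) y, fderiv ℝ X y (gradient (gmtSimSd S) y)⟫) (adPol m (adLink S)) := by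
    rw [← ad_gen_polar hS]
    exact hgi.smul_measure (adC_ne_top m)
  rw [e1, ← smul_eq_mul, ← integral_smul_measure, ad_gen_polar hS]
  unfold adPol at hgi' ⊢
  have hgi'' := (integrable_map_measure hgm.aestronglyMeasurable hcont.aemeasurable).1 hgi'
  have e2 := integral_prod _ hgi''
  simp only [Function.comp_apply] at e2
  rw [integral_map hcont.aemeasurable hgm.aestronglyMeasurable, e2,
    integral_withDensity_eq_integral_toReal_smul (by fun_prop)
      (Eventually.of_forall fun r => ENNReal.ofReal_lt_top)]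
  refine setIntegral_congr_fun measurableSet_Ioi fun r hr => ?_
  have hr0 : (0 : ℝ) < r := hr
  simp only [smul_eq_mul]
  rw [ENNReal.toReal_ofReal (pow_nonneg hr0.le m)]
  congr 1
  refine setIntegral_congr_fun (ad_link_meas S) fun y hy => ?_
  rw [((ad_st_tube hS).1 y hy.1 (ad_sth_ne hy)).2.2.2.2 r hr0]

/-- **L-AD-S6** the radial integration (`μ` = any finite measure carried by the unit sphere). -/
theorem ad_st_rad {k : ℕ} (hm : 1 ≤ m) {μ : Measure (E k)} [IsFiniteMeasure μ]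
    (hμ : ∀ᵐ y ∂μ, ‖y‖ = 1) {X : E k → E k} (hX : GmtTestS univ X) :
    ∫ r in Ioi (0 : ℝ), (m * r ^ (m - 1) * ∫ y, ⟪X (r • y), y⟫ ∂μ +
      r ^ m * ∫ y, ⟪fderiv ℝ X (r • y) y, y⟫ ∂μ) = 0 := by
  have hXc : Continuous X := hX.smooth.continuous
  have hXd : Differentiable ℝ X := hX.smooth.differentiable (by simp)
  have hDc : Continuous (fderiv ℝ X) := hX.smooth.continuous_fderiv (by simp)
  obtain ⟨C0, hC0⟩ := hX.cpt.exists_bound_of_continuous hXc
  obtain ⟨C1, hC1⟩ := (hX.cpt.fderiv ℝ).exists_bound_of_continuous hDc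
  obtain ⟨R, hR⟩ := hX.cpt.isCompact.isBounded.subset_closedBall (0 : E k)
  have hz0 : ∀ x : E k, R < ‖x‖ → X x = 0 := fun x hx =>
    image_eq_zero_of_notMem_tsupport fun h => by
      have := hR h
      rw [mem_closedBall_zero_iff] at this
      linarith
  have hz1 : ∀ x : E k, R < ‖x‖ → fderiv ℝ X x = 0 := fun x hx =>
    fderiv_of_notMem_tsupport ℝ fun h => by
      have := hR h
      rw [mem_closedBall_zero_iff] at this
      linarith
  set F : ℝ → E k → ℝ := fun r y => ⟪X (r • y), y⟫ with hF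
  set F' : ℝ → E k → ℝ := fun r y => ⟪fderiv ℝ X (r • y) y, y⟫ with hF'
  have hFc : ∀ r, Continuous (F r) := fun r => by
    have h1 : Continuous fun y : E k => X (r • y) := hXc.comp (continuous_const_smul r)
    exact h1.inner continuous_id
  have hF'c : ∀ r, Continuous (F' r) := fun r => by
    have h1 : Continuous fun y : E k => fderiv ℝ X (r • y) := hDc.comp (continuous_const_smul r)
    exact (h1.clm_apply continuous_id).inner continuous_id
  have hFb : ∀ r, ∀ᵐ y ∂μ, ‖F r y‖ ≤ C0 := fun r => by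
    filter_upwards [hμ] with y hy
    calc ‖F r y‖ ≤ ‖X (r • y)‖ * ‖y‖ := norm_inner_le_norm _ _
      _ ≤ C0 * 1 := by rw [hy]; exact mul_le_mul_of_nonneg_right (hC0 _) zero_le_one
      _ = C0 := mul_one _
  have hF'b : ∀ᵐ y ∂μ, ∀ r, ‖F' r y‖ ≤ C1 := by
    filter_upwards [hμ] with y hy r
    calc ‖F' r y‖ ≤ ‖fderiv ℝ X (r • y) y‖ * ‖y‖ := norm_inner_le_norm _ _
      _ ≤ (‖fderiv ℝ X (r • y)‖ * ‖y‖) * ‖y‖ := mul_le_mul_of_nonneg_right (ContinuousLinearMap.le_opNorm _ _) (norm_nonneg _)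
      _ ≤ C1 := by rw [hy, mul_one, mul_one]; exact hC1 _
  have hFi : ∀ r, Integrable (F r) μ := fun r =>
    Integrable.mono' (integrable_const C0) (hFc r).aestronglyMeasurable (hFb r)
  have hdiff : ∀ (y : E k) (r : ℝ), HasDerivAt (fun r => F r y) (F' r y) r := by
    intro y r
    have h1 : HasDerivAt (fun r : ℝ => X (r • y)) (fderiv ℝ X (r • y) y) r := by
      have h2 := (hXd (r • y)).hasFDerivAt.comp_hasDerivAt r ((hasDerivAt_id r).smul_const y)
      rw [one_smul] at h2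
      exact h2
    have h3 := h1.inner ℝ (hasDerivAt_const r y)
    simpa [hF, hF'] using h3
  set h : ℝ → ℝ := fun r => ∫ y, F r y ∂μ with hh
  set h' : ℝ → ℝ := fun r => ∫ y, F' r y ∂μ with hh'
  have hder : ∀ r, HasDerivAt h (h' r) r := fun r =>
    (hasDerivAt_integral_of_dominated_loc_of_deriv_le (μ := μ) (F := F) (F' := F') (x₀ := r) (s := univ) (bound := fun _ => C1) univ_mem
      (Eventually.of_forall fun r => (hFc r).aestronglyMeasurable) (hFi r) (hF'c r).aestronglyMeasurable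
      (hF'b.mono fun y hy r _ => hy r) (integrable_const C1) (Eventually.of_forall fun y r _ => hdiff y r)).2
  have hhc : Continuous h := continuous_iff_continuousAt.2 fun r => (hder r).continuousAt
  have hh'c : Continuous h' := by
    refine continuous_of_dominated (bound := fun _ => C1) (fun r => (hF'c r).aestronglyMeasurable)
      (fun r => hF'b.mono fun y hy => hy r) (integrable_const C1) (Eventually.of_forall fun y => ?_)
    have h1 : Continuous fun r : ℝ => fderiv ℝ X (r • y) := hDc.comp (continuous_id.smul continuous_const)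
    exact (h1.clm_apply continuous_const).inner continuous_const
  have hh0 : ∀ r, R < |r| → h r = 0 := by
    intro r hr
    refine integral_eq_zero_of_ae ?_
    filter_upwards [hμ] with y hy
    have : X (r • y) = 0 := hz0 _ (by rw [norm_smul, hy, mul_one, Real.norm_eq_abs]; exact hr)
    simp [hF, this]
  have hh'0 : ∀ r, R < |r| → h' r = 0 := by
    intro r hr
    refine integral_eq_zero_of_ae ?_
    filter_upwards [hμ] with y hy
    have : fderiv ℝ X (r • y) = 0 := hz1 _ (by rw [norm_smul, hy, mul_one, Real.norm_eq_abs]; exact hr)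
    simp [hF', this]
  set g : ℝ → ℝ := fun r => r ^ m * h r with hg
  set g' : ℝ → ℝ := fun r => m * r ^ (m - 1) * h r + r ^ m * h' r with hg'
  have hgder : ∀ r, HasDerivAt g (g' r) r := fun r => by
    have := (hasDerivAt_pow m r).mul (hder r)
    exact this
  have hg'c : Continuous g' := by
    rw [hg']
    fun_prop
  have hg'supp : HasCompactSupport g' := by
    refine HasCompactSupport.intro (isCompact_Icc (a := -(|R|)) (b := |R|)) fun r hr => ?_
    have hr' : R < |r| := by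
      by_contra hcon
      rw [not_lt] at hcon
      apply hr
      have h1 : |r| ≤ |R| := hcon.trans (le_abs_self R)
      exact abs_le.1 h1
    simp [hg', hh0 r hr', hh'0 r hr']
  have hint : Integrable g' := hg'c.integrable_of_hasCompactSupport hg'supp
  have htend : Tendsto g atTop (𝓝 0) := by
    refine tendsto_const_nhds.congr' ?_
    filter_upwards [eventually_gt_atTop |R|] with r hr
    have hr' : R < |r| := lt_of_le_of_lt (le_abs_self R) (lt_of_lt_of_le hr (le_abs_self r))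
    simp [hg, hh0 r hr']
  have key := integral_Ioi_of_hasDerivAt_of_tendsto (a := (0 : ℝ)) (f := g) (f' := g') (m := 0)
    (hgder 0).continuousAt.continuousWithinAt (fun r _ => hgder r) hint.integrableOn htend
  have hg0 : g 0 = 0 := by
    have : (0 : ℝ) ^ m = 0 := zero_pow (by omega)
    simp [hg, this]
  rw [hg0, sub_zero] at key
  exact key

/-- **EXIT of A5.** -/
theorem ad_stat (hm : 1 ≤ m) [T2Space M] [CompactSpace M] [IsManifold (𝓡 m) ∞ M]
    {F : M → E (m + 2)}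
    (hF : ContMDiff (𝓡 m) 𝓘(ℝ, E (m + 2)) ∞ F) (hsph : ∀ x, ‖F x‖ = 1)
    (himm : ∀ x, Function.Injective (mfderiv (𝓡 m) 𝓘(ℝ, E (m + 2)) F x))
    (hinj : Function.Injective F)
    {𝒱 : Measure (E (m + 2) × (E (m + 2) →L[ℝ] E (m + 2)))} (h𝒱 : AdVar m F 𝒱)
    {S : Set (E (m + 2))} (hS : AdReg (m + 2) S) (hbd : gmtBd S = insert 0 (adZ F)) :
    ∀ X, GmtTestS univ X → gmtDelta S X = 0 := by
  intro X hX
  have hc : 0 < (adC m).toReal := ENNReal.toReal_pos (adC_ne_zero m) (adC_ne_top m)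
  have h5 := ad_st_polar hS hX
  have : IsFiniteMeasure ((μH[(m : ℝ)] : Measure (E (m + 2))).restrict (adLink S)) :=
    ⟨by rw [Measure.restrict_apply_univ]; exact (ad_gen_fin hS).lt_top⟩
  have h6 := ad_st_rad (k := m + 2) hm
    (μ := (μH[(m : ℝ)] : Measure (E (m + 2))).restrict (adLink S))
    ((ae_restrict_iff' (ad_link_meas S)).2 (Eventually.of_forall fun y hy => ad_sth_norm hy)) hX
  have hpt : ∀ r ∈ Ioi (0 : ℝ), r ^ m * ∫ y in adLink S, (gmtDiv X (r • y) -
        ⟪gradient (gmtSimSd S) y, fderiv ℝ X (r • y) (gradient (gmtSimSd S) y)⟫) ∂μH[(m : ℝ)] =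
      m * r ^ (m - 1) * ∫ y in adLink S, ⟪X (r • y), y⟫ ∂μH[(m : ℝ)] +
        r ^ m * ∫ y in adLink S, ⟪fderiv ℝ X (r • y) y, y⟫ ∂μH[(m : ℝ)] := by
    intro r hr
    have h4 := ad_st_slice hF hsph himm hinj h𝒱 hS hbd hX.smooth r
    have iA := ad_sth_int hS (ad_sth_cA hX.smooth r).continuousOn
    have iB := ad_sth_int hS (ad_sth_cB hX.smooth r).continuousOn
    have iC := ad_sth_int hS (ad_sth_cC hS hX.smooth r)
    have e1 : ∫ y in adLink S, (gmtDiv X (r • y) -
        ⟪gradient (gmtSimSd S) y, fderiv ℝ X (r • y) (gradient (gmtSimSd S) y)⟫) ∂μH[(m : ℝ)] =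
        ∫ y in adLink S, (gmtDiv X (r • y) - ⟪fderiv ℝ X (r • y) y, y⟫ -
        ⟪gradient (gmtSimSd S) y, fderiv ℝ X (r • y) (gradient (gmtSimSd S) y)⟫) ∂μH[(m : ℝ)] +
        ∫ y in adLink S, ⟪fderiv ℝ X (r • y) y, y⟫ ∂μH[(m : ℝ)] := by
      have := integral_add ((iA.sub iB).sub iC) iB
      simp only [Pi.sub_apply] at this
      rw [← this]
      refine integral_congr_ae (Eventually.of_forall fun y => ?_)
      simp only
      ring
    have hpow : r ^ m = r ^ (m - 1) * r := by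
      rw [← pow_succ, Nat.sub_add_cancel hm]
    rw [e1, mul_add]
    congr 1
    rw [hpow, mul_assoc, h4]
    ring
  rw [setIntegral_congr_fun measurableSet_Ioi hpt, h6] at h5
  exact (mul_eq_zero.1 h5).resolve_left hc.ne'

end Claimed.Agent.R323
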