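import Claimed.Agent.R323.Ad.Sep
import Claimed.Agent.R323.Ad.Stat
import Claimed.Agent.R323.Ad.Clif

/-!
# Row 323, block A (adapter from `Def_0508` to the internal theorem `TT m`): ASSEMBLY.   Architect: helper195.   Plan of the block: header of `Ad/Defs.lean`.
This file has no sorry of its own.
-/

set_option autoImplicit false
open Claims Claims.C0508
open scoped Manifold ContDiff ENNReal
open MeasureTheory

namespace Claimed.Agent.R323

open Claimed.Agent.Gmt

theorem ad_main (m : ℕ) (hm : 2 ≤ m) (hT : TT m) (M : Type*) [TopologicalSpace M]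
    [T2Space M] [CompactSpace M] [ConnectedSpace M]
    [ChartedSpace (EuclideanSpace ℝ (Fin m)) M] [IsManifold (𝓡 m) ∞ M]
    (F : M → EuclideanSpace ℝ (Fin (m + 2)))
    (hF : ContMDiff (𝓡 m) 𝓘(ℝ, EuclideanSpace ℝ (Fin (m + 2))) ∞ F)
    (hsph : ∀ x, ‖F x‖ = 1)
    (himm : ∀ x, Function.Injective (mfderiv (𝓡 m) 𝓘(ℝ, EuclideanSpace ℝ (Fin (m + 2))) F x))
    (hmin : IsMinimalInSphere m F)
    (hntg : ¬ ∃ a : EuclideanSpace ℝ (Fin (m + 2)), a ≠ 0 ∧ ∀ x, inner ℝ a (F x) = 0) :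
    (⨅ (k : ℕ) (_ : 1 ≤ k ∧ k < m), μH[(m : ℝ)] (cliffordProduct m k)) ≤ volWithMult m F := by
  have hm1 : 1 ≤ m := by omega
  obtain ⟨𝒱, h𝒱⟩ := ad_var_exists hF hsph himm hmin
  refine (ad_iInf_le m hm).trans ?_
  by_cases hinj : Function.Injective F
  · -- the embedded case
    have hZ : AdHyp (m + 2) (adZ F) := ad_hyp hF hsph himm hinj
    obtain ⟨x₀⟩ : Nonempty M := inferInstance
    have hne : (adZ F).Nonempty := ⟨F x₀, 1, one_pos, x₀, (one_smul ℝ _).symm⟩
    obtain ⟨S, -, hS, hbd⟩ := ad_sep (by omega) hZ hne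
    have hmc : MinCone (m + 2) S :=
      { meas := hS.meas
        cone := hS.cone
        lf := ad_gen_lf hS
        vert := by rw [hbd]; exact Set.mem_insert _ _
        reg := hS.reg
        stat := ad_stat hm1 hF hsph himm hinj h𝒱 hS hbd }
    have hnh : ¬ IsHalf S := by
      intro hh
      obtain ⟨a, ha, hay⟩ := ad_not_half hh
      refine hntg ⟨a, ha, fun x => hay _ ?_⟩
      rw [hbd]
      exact Set.mem_insert_of_mem _ ⟨1, one_pos, x, (one_smul ℝ _).symm⟩
    have h1 : cliffMin m ≤ linkArea S := hT S hmc hnh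
    rw [ad_vol_inj hF.continuous hinj, ← ad_link_eq hsph hbd, ad_gen_area hS]
    gcongr
  · -- a double point
    have : ∃ x₁ x₂ : M, F x₁ = F x₂ ∧ x₁ ≠ x₂ := by
      simpa [Function.Injective] using hinj
    obtain ⟨x₁, x₂, heq, hne⟩ := this
    refine le_trans ?_ (ad_mult hm1 hF hsph himm h𝒱 hne heq)
    rw [ad_sig_eq m hm1, ← mul_assoc, mul_comm 2 (adC m), mul_assoc]
    gcongr
    rw [show (2 : ℝ≥0∞) = ENNReal.ofReal 2 by simp, ← ENNReal.ofReal_mul (by norm_num)]
    exact ENNReal.ofReal_le_ofReal (nuc_lt_two m hm).le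

end Claimed.Agent.R323
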