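import Claimed.Agent.R323.Ad.Var
import Claimed.Agent.R323.Ad.Loc
import Claimed.Agent.R323.Ad.DblMono
import Claimed.Agent.R323.Ad.DblBlow
import Claimed.Agent.R323.Ad.DblChart
import Claimed.Agent.R323.Ad.DblNum

/-!
# Row 323, block A, package A3 (owner: helper258, contract by helper195): a double point costs `2 σ_m`.

NO CONE, NO MONOTONICITY FORMULA (Li-Yau).   `N = m + 2`, `a = F x₁ = F x₂`, `β_τ(s) = adbB τ s = (cosh τ - sinh τ s)⁻¹`, `s = ⟪a, y⟫`.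
EXIT `ad_mult` is PROVED here from the leaves
* `adC_spec`, `adC_ne_zero`, `adC_ne_top` (**L-AD-C**), `ad_var_ae` (**L-AD-M0**), `adb_stat` (**L-ADB-STAT**), `adb_I_eq` (**L-ADB-SCALE**)   [this file]
* `adb_mono` (`DblMono.lean`), `adb_blow` (`DblBlow.lean`), `adb_mult`, `adb_liminf_add` (`DblChart.lean`), and `ad_chart` (`Var.lean`, helper229).
-/

set_option autoImplicit false
open scoped Manifold ContDiff ENNReal NNReal RealInnerProductSpace Topology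
open MeasureTheory Metric Set Filter
open Claims.C0508

namespace Claimed.Agent.R323

open Claimed.Agent.Gmt
open Claimed.Agent.R322 (IsProj tdiv)
open Claimed.Agent.R322.Base.Area (nd projR fibSum)

theorem adC_aux (m : ℕ) : ∃ c : ℝ≥0, (μH[(m : ℝ)] : Measure (E m)) = c • (volume : Measure (E m)) ∧ adC m = c ∧ c ≠ 0 := by
  have : Measure.IsAddHaarMeasure (μH[(m : ℝ)] : Measure (E m)) := by
    have := isAddHaarMeasure_hausdorffMeasure (E := E m)
    rwa [finrank_euclideanSpace_fin] at this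
  have h := Measure.isAddLeftInvariant_eq_smul (μH[(m : ℝ)] : Measure (E m)) (volume : Measure (E m))
  set c := Measure.addHaarScalarFactor (μH[(m : ℝ)] : Measure (E m)) (volume : Measure (E m)) with hc
  have hv0 : volume (ball (0 : E m) 1) ≠ 0 := (measure_ball_pos _ _ one_pos).ne'
  have hvt : volume (ball (0 : E m) 1) ≠ ⊤ := measure_ball_lt_top.ne
  have e : adC m = c := by
    unfold adC
    rw [h]
    rw [Measure.smul_apply, ENNReal.smul_def, smul_eq_mul, mul_div_assoc, ENNReal.div_self hv0 hvt, mul_one]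
  refine ⟨c, h, e, ?_⟩
  intro h0
  have hb : (μH[(m : ℝ)] : Measure (E m)) (ball 0 1) ≠ 0 := (measure_ball_pos _ _ one_pos).ne'
  apply hb
  rw [h, h0]
  simp

/-- **L-AD-C** `μH[m]` is a Haar measure on `E m` (`MeasureTheory.isAddHaarMeasure_hausdorffMeasure`, `finrank_euclideanSpace_fin`; `Measure.isAddLeftInvariant_eq_smul` / `addHaar_eq...`). -/
theorem adC_spec (m : ℕ) : (μH[(m : ℝ)] : Measure (E m)) = adC m • volume := by
  obtain ⟨c, h, e, -⟩ := adC_aux m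
  rw [e, h]
  rfl

theorem adC_ne_zero (m : ℕ) : adC m ≠ 0 := by
  obtain ⟨c, -, e, h0⟩ := adC_aux m
  rw [e]
  exact_mod_cast h0

theorem adC_ne_top (m : ℕ) : adC m ≠ ⊤ := by
  obtain ⟨c, -, e, -⟩ := adC_aux m
  rw [e]
  exact ENNReal.coe_ne_top


theorem adb_I_int (m : ℕ) : Integrable (fun z : E m => ((1 + ‖z‖ ^ 2 / 4) ^ m)⁻¹) volume := by
  cases m with
  | zero =>
    have : Subsingleton (E 0) := ⟨fun a b => by ext i; exact i.elim0⟩
    have : IntegrableOn (fun z : E 0 => ((1 + ‖z‖ ^ 2 / 4) ^ 0)⁻¹) univ volume :=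
      ContinuousOn.integrableOn_compact isCompact_univ (by simp only [pow_zero, inv_one]; exact continuousOn_const)
    rwa [integrableOn_univ] at this
  | succ k =>
    have h := adb_num_vol k
    refine (lintegral_ofReal_ne_top_iff_integrable ?_ ?_).1 ?_
    · refine Continuous.aestronglyMeasurable ?_
      refine Continuous.inv₀ (by fun_prop) fun z => ?_
      positivity
    · exact Eventually.of_forall fun z => by positivity
    · rw [h]; exact ENNReal.ofReal_ne_top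

/-- **L-ADB-SCALE**  `z = 2 v`: `∫ (1 + |z|²/4)^{-m} dz = 2^m ∫ (1 + |v|²)^{-m} dv = ∫ (2/(1+|v|²))^m dv` (`Measure.integral_comp_smul` / `lintegral` version `Measure.addHaar_smul`, `finrank = m`);
`adC_spec`; `ofReal_integral_eq_lintegral_ofReal` (integrability: for `m = k + 1` from `adb_num_vol` (finite lintegral); `m = 0`: `E 0` is a point, both sides are `adC 0`). -/
theorem adb_I_eq (m : ℕ) : adbI m = adC m * ENNReal.ofReal (adSig m) := by

  have hint := adb_I_int m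
  unfold adbI
  rw [adC_spec, lintegral_smul_measure, smul_eq_mul]
  congr 1
  rw [← ofReal_integral_eq_lintegral_ofReal hint (Eventually.of_forall fun z => by positivity)]
  congr 1
  have h := Measure.integral_comp_smul (volume : Measure (E m)) (fun z : E m => ((1 + ‖z‖ ^ 2 / 4) ^ m)⁻¹) 2
  rw [finrank_euclideanSpace_fin] at h
  unfold adSig
  have e : ∀ v : E m, (2 / (1 + ‖v‖ ^ 2)) ^ m = 2 ^ m * ((1 + ‖(2 : ℝ) • v‖ ^ 2 / 4) ^ m)⁻¹ := by
    intro v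
    rw [norm_smul, Real.norm_eq_abs, abs_of_pos (by norm_num : (0 : ℝ) < 2), div_pow, div_eq_mul_inv]
    congr 3
    ring
  simp_rw [e]
  rw [integral_const_mul, h, abs_of_pos (by positivity), smul_eq_mul, ← mul_assoc,
    mul_inv_cancel₀ (by positivity), one_mul]

variable {m : ℕ} {M : Type*} [TopologicalSpace M] [ChartedSpace (E m) M]

/-- **L-AD-M0**  `𝒱`-a.e. `|y| = 1`, `P` is a rank `m` orthogonal projection, `P y = 0`   (`AdVar.tan`; `⟪mfderiv F x v, F x⟫ = 0` from `|F|² = 1`; `R322.Base.Area.projR_isProj`; `projR A y = 0` if `y ⊥ range A`: `adjoint A y = 0`). -/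
theorem ad_var_ae [IsManifold (𝓡 m) ∞ M] {F : M → E (m + 2)}
    (hF : ContMDiff (𝓡 m) 𝓘(ℝ, E (m + 2)) ∞ F) (hsph : ∀ x, ‖F x‖ = 1)
    (himm : ∀ x, Function.Injective (mfderiv (𝓡 m) 𝓘(ℝ, E (m + 2)) F x))
    {𝒱 : Measure (E (m + 2) × (E (m + 2) →L[ℝ] E (m + 2)))} (h𝒱 : AdVar m F 𝒱) :
    ∀ᵐ q ∂𝒱, ‖q.1‖ = 1 ∧ IsProj m q.2 ∧ q.2 q.1 = 0 := by
  filter_upwards [h𝒱.tan] with q hq
  obtain ⟨x, hx, hP⟩ := hq
  refine ⟨by rw [← hx]; exact hsph x, by rw [hP]; exact R322.Base.Area.projR_isProj _ (himm x), ?_⟩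
  rw [hP, ← hx]
  exact adl_projR_zero _ (adl_mf_tangent (hF.mdifferentiableAt (by simp)) hsph _ rfl)

/-- **L-ADB-STAT**  `AdVar.stat` with `U = {y | sinh τ * ⟪a,y⟫ < cosh τ}` (open, contains the unit sphere: `adbB_den_pos`), `W y = adbB τ ⟪a,y⟫ ^ m • a` (smooth on `U`: `ContDiffOn.inv`).
`fderiv W y = (m sinh τ β^{m+1}) • (innerSL a).smulRight a`, `tdiv P (l.smulRight a) = l (P a)` (`R322.tdiv_smulRight`, `tdiv_smul`; or `tdiv_fderiv_smul` with constant `Y`), `⟪W y, y⟫ = β^m ⟪a,y⟫`;   divide by `m ≥ 1`. -/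
theorem adb_stat (hm : 1 ≤ m) {F : M → E (m + 2)} (hsph : ∀ x, ‖F x‖ = 1)
    {𝒱 : Measure (E (m + 2) × (E (m + 2) →L[ℝ] E (m + 2)))} (h𝒱 : AdVar m F 𝒱)
    {a : E (m + 2)} (ha : ‖a‖ = 1) {τ : ℝ} (hτ : 0 ≤ τ) :
    ∫ q, (Real.sinh τ * adbB τ ⟪a, q.1⟫ ^ (m + 1) * ⟪q.2 a, a⟫ - adbB τ ⟪a, q.1⟫ ^ m * ⟪a, q.1⟫) ∂𝒱 = 0 := by
  set U : Set (E (m + 2)) := {y | Real.sinh τ * ⟪a, y⟫ < Real.cosh τ} with hU
  have hUo : IsOpen U :=
    isOpen_lt (continuous_const.mul (continuous_const.inner continuous_id)) continuous_const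
  have hsU : sphere 0 1 ⊆ U := fun y hy => by
    have h1 : ⟪a, y⟫ ≤ 1 := by
      have := real_inner_le_norm a y
      rwa [ha, mem_sphere_zero_iff_norm.1 hy, one_mul] at this
    have := adbB_den_pos h1 hτ
    simp only [hU, mem_ofPred_eq]
    linarith
  have hne : ∀ y ∈ U, Real.cosh τ - Real.sinh τ * ⟪a, y⟫ ≠ 0 := fun y hy => by
    simp only [hU, mem_ofPred_eq] at hy
    exact (by linarith : 0 < Real.cosh τ - Real.sinh τ * ⟪a, y⟫).ne'
  set W : E (m + 2) → E (m + 2) := fun y => (adbB τ ⟪a, y⟫ ^ m) • a with hW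
  have hder : ∀ y ∈ U, HasFDerivAt W
      (((m : ℝ) * (Real.sinh τ * adbB τ ⟪a, y⟫ ^ (m + 1))) • (innerSL ℝ a).smulRight a) y := by
    intro y hy
    have h1 := adb_theta_deriv m τ ⟪a, y⟫ (hne y hy)
    have h2 : HasFDerivAt (fun y : E (m + 2) => ⟪a, y⟫) (innerSL ℝ a) y := (innerSL ℝ a).hasFDerivAt
    have h3 := h1.comp_hasFDerivAt y h2
    have h4 := h3.smul_const a
    have e : (((m : ℝ) * (Real.sinh τ * adbB τ ⟪a, y⟫ ^ (m + 1))) • (innerSL ℝ a)).smulRight a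
        = ((m : ℝ) * (Real.sinh τ * adbB τ ⟪a, y⟫ ^ (m + 1))) • (innerSL ℝ a).smulRight a := by
      refine ContinuousLinearMap.ext fun v => ?_
      simp [smul_smul]
    rw [e] at h4
    exact h4
  have hWs : ContDiffOn ℝ ∞ W U := by
    have h1 : ContDiffOn ℝ ∞ (fun y : E (m + 2) => Real.cosh τ - Real.sinh τ * ⟪a, y⟫) U :=
      (contDiff_const.sub (contDiff_const.mul (contDiff_const.inner ℝ contDiff_id))).contDiffOn
    exact ((h1.inv hne).pow m).smul contDiffOn_const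
  have hst := h𝒱.stat U W hUo hsU hWs
  have hae : ∀ᵐ q ∂𝒱, q.1 ∈ U := by
    filter_upwards [h𝒱.tan] with q hq
    obtain ⟨x, hx, -⟩ := hq
    exact hsU (by rw [← hx]; exact mem_sphere_zero_iff_norm.2 (hsph x))
  have hcong : ∫ q, (tdiv q.2 (fderiv ℝ W q.1) - m * ⟪W q.1, q.1⟫) ∂𝒱 = ∫ q, (m : ℝ) *
      (Real.sinh τ * adbB τ ⟪a, q.1⟫ ^ (m + 1) * ⟪q.2 a, a⟫ - adbB τ ⟪a, q.1⟫ ^ m * ⟪a, q.1⟫) ∂𝒱 := by
    refine integral_congr_ae ?_
    filter_upwards [hae] with q hq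
    rw [(hder q.1 hq).fderiv, R322.tdiv_smul, R322.tdiv_smulRight]
    simp only [hW, inner_smul_left, innerSL_apply_apply, RCLike.conj_to_real]
    rw [real_inner_comm a (q.2 a)]
    ring
  rw [hcong, integral_const_mul] at hst
  have hm0 : (m : ℝ) ≠ 0 := by
    have : 0 < m := hm
    positivity
  exact (mul_eq_zero.1 hst).resolve_left hm0

/-- the total mass. -/
theorem ad_var_univ {F : M → E (m + 2)}
    {𝒱 : Measure (E (m + 2) × (E (m + 2) →L[ℝ] E (m + 2)))} (h𝒱 : AdVar m F 𝒱) :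
    𝒱 univ = volWithMult m F := by
  have h1 : (𝒱.map Prod.fst) univ = 𝒱 univ := by
    rw [Measure.map_apply measurable_fst MeasurableSet.univ, preimage_univ]
  rw [← h1, h𝒱.fst, withDensity_apply _ MeasurableSet.univ, Measure.restrict_univ]
  rfl

/-- `|P a|² ≤ 1 - ⟪a,y⟫²` for an orthogonal projection `P` with `P y = 0`, `|a| = |y| = 1`. -/
theorem adb_proj {N k : ℕ} {P : E N →L[ℝ] E N} (hP : IsProj k P) {a y : E N} (ha : ‖a‖ = 1) (hy : ‖y‖ = 1)
    (hPy : P y = 0) : 0 ≤ ⟪P a, a⟫ ∧ ⟪P a, a⟫ ≤ 1 - ⟪a, y⟫ ^ 2 := by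
  have h1 : ⟪P a, a⟫ = ‖P a‖ ^ 2 := hP.inner_apply_self a
  have h2 : P a = P (a - ⟪a, y⟫ • y) := by rw [map_sub, map_smul, hPy, smul_zero, sub_zero]
  have h3 : ‖P a‖ ≤ ‖a - ⟪a, y⟫ • y‖ := by
    rw [h2]
    exact hP.norm_apply_le _
  have h4 : ‖a - ⟪a, y⟫ • y‖ ^ 2 = 1 - ⟪a, y⟫ ^ 2 := by
    rw [norm_sub_sq_real, norm_smul, inner_smul_right, ha, hy]
    simp only [Real.norm_eq_abs, mul_one, one_pow, sq_abs]
    ring
  refine ⟨h1 ▸ sq_nonneg _, ?_⟩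
  rw [h1, ← h4]
  exact pow_le_pow_left₀ (norm_nonneg _) h3 2

/-- **EXIT of A3.** -/
theorem ad_mult (hm : 1 ≤ m) [T2Space M] [IsManifold (𝓡 m) ∞ M] {F : M → E (m + 2)}
    (hF : ContMDiff (𝓡 m) 𝓘(ℝ, E (m + 2)) ∞ F) (hsph : ∀ x, ‖F x‖ = 1)
    (himm : ∀ x, Function.Injective (mfderiv (𝓡 m) 𝓘(ℝ, E (m + 2)) F x))
    {𝒱 : Measure (E (m + 2) × (E (m + 2) →L[ℝ] E (m + 2)))} (h𝒱 : AdVar m F 𝒱)
    {x₁ x₂ : M} (hne : x₁ ≠ x₂) (heq : F x₁ = F x₂) :
    2 * (adC m * ENNReal.ofReal (adSig m)) ≤ volWithMult m F := by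
  classical
  rw [← adb_I_eq]
  have := h𝒱.fin
  have hae := ad_var_ae hF hsph himm h𝒱
  set a := F x₁ with ha
  have ha1 : ‖a‖ = 1 := hsph x₁
  obtain ⟨O₁', O₂', hO₁', hO₂', hp₁, hp₂, hd'⟩ := t2_separation hne
  obtain ⟨O₁, r₁, g₁, -, -, hO₁, hr₁, hg₁, hD₁, hi₁, hgu₁, him₁, -⟩ := ad_chart hF himm x₁ O₁' (hO₁'.mem_nhds hp₁)
  obtain ⟨O₂, r₂, g₂, -, -, hO₂, hr₂, hg₂, hD₂, hi₂, hgu₂, him₂, -⟩ := ad_chart hF himm x₂ O₂' (hO₂'.mem_nhds hp₂)
  have hd : Disjoint O₁ O₂ := hd'.mono hO₁ hO₂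
  have hs₁ : ∀ y ∈ g₁ '' ball 0 r₁, ∃ x ∈ O₁, F x = y := fun y hy => by rw [← him₁] at hy; exact hy
  have hs₂ : ∀ y ∈ g₂ '' ball 0 r₂, ∃ x ∈ O₂, F x = y := fun y hy => by rw [← him₂] at hy; exact hy
  have hn₁ : ∀ u ∈ ball (0 : E m) r₁, ‖g₁ u‖ = 1 := fun u hu => by
    obtain ⟨x, -, hx⟩ := hs₁ _ (mem_image_of_mem g₁ hu)
    rw [← hx]; exact hsph x
  have hn₂ : ∀ u ∈ ball (0 : E m) r₂, ‖g₂ u‖ = 1 := fun u hu => by
    obtain ⟨x, -, hx⟩ := hs₂ _ (mem_image_of_mem g₂ hu)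
    rw [← hx]; exact hsph x
  have hb₁ := adb_blow g₁ (ball 0 r₁) isOpen_ball 0 (mem_ball_self hr₁) (hg₁.of_le (by exact_mod_cast le_top)) hi₁
    (hD₁ 0 (mem_ball_self hr₁)) hn₁
  have hb₂ := adb_blow g₂ (ball 0 r₂) isOpen_ball 0 (mem_ball_self hr₂) (hg₂.of_le (by exact_mod_cast le_top)) hi₂
    (hD₂ 0 (mem_ball_self hr₂)) hn₂
  rw [hgu₁] at hb₁
  rw [hgu₂, ← heq] at hb₂
  refine adb_liminf_add hb₁ hb₂ fun j => ?_
  -- the functions on the varifold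
  set f : E (m + 2) × (E (m + 2) →L[ℝ] E (m + 2)) → ℝ := fun q => ⟪a, q.1⟫ with hf
  set qq : E (m + 2) × (E (m + 2) →L[ℝ] E (m + 2)) → ℝ := fun q => ⟪q.2 a, a⟫ with hqq
  have hfm : Measurable f := measurable_const.inner measurable_fst
  have hqm : Measurable qq :=
    ((continuous_snd.clm_apply continuous_const).inner continuous_const).measurable
  have hf1 : ∀ᵐ q ∂𝒱, |f q| ≤ 1 := by
    filter_upwards [hae] with q hq
    have := abs_real_inner_le_norm a q.1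
    rwa [ha1, hq.1, one_mul] at this
  have hq0 : ∀ᵐ q ∂𝒱, 0 ≤ qq q := by
    filter_upwards [hae] with q hq using (adb_proj hq.2.1 ha1 hq.1 hq.2.2).1
  have hq1 : ∀ᵐ q ∂𝒱, qq q ≤ 1 - f q ^ 2 := by
    filter_upwards [hae] with q hq using (adb_proj hq.2.1 ha1 hq.1 hq.2.2).2
  have hmono := adb_mono_ae 𝒱 m f qq hfm hqm hf1 hq0 hq1 (fun τ hτ => adb_stat hm hsph h𝒱 ha1 hτ) j (Nat.cast_nonneg j)
  -- the weight
  set h : E (m + 2) → ℝ≥0∞ := fun y => ENNReal.ofReal (adbB j ⟪a, y⟫ ^ m) with hh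
  have hhm : Measurable h := by
    have : Measurable fun y : E (m + 2) => adbB j ⟪a, y⟫ := by
      unfold adbB
      exact (measurable_const.sub (measurable_const.mul (measurable_const.inner measurable_id))).inv
    exact (this.pow_const m).ennreal_ofReal
  have hS₁ : MeasurableSet (g₁ '' ball 0 r₁) :=
    R322.Base.Area.measurableSet_image_of_deriv measurableSet_ball
      (fun x hx => ((hg₁.differentiableOn (by simp) x hx).differentiableAt (isOpen_ball.mem_nhds hx)).hasFDerivAt.hasFDerivWithinAt) hi₁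
  have hS₂ : MeasurableSet (g₂ '' ball 0 r₂) :=
    R322.Base.Area.measurableSet_image_of_deriv measurableSet_ball
      (fun x hx => ((hg₂.differentiableOn (by simp) x hx).differentiableAt (isOpen_ball.mem_nhds hx)).hasFDerivAt.hasFDerivWithinAt) hi₂
  have hmult := adb_mult F O₁ O₂ hd (g₁ '' ball 0 r₁) (g₂ '' ball 0 r₂) hs₁ hs₂
  set N' : E (m + 2) → ℝ≥0∞ := fun y => (g₁ '' ball 0 r₁).indicator (fun _ => (1 : ℝ≥0∞)) y +
    (g₂ '' ball 0 r₂).indicator (fun _ => (1 : ℝ≥0∞)) y with hN'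
  have hN'm : Measurable N' := (measurable_const.indicator hS₁).add (measurable_const.indicator hS₂)
  have hle : (μH[(m : ℝ)] : Measure (E (m + 2))).withDensity N' ≤ 𝒱.map Prod.fst := by
    rw [h𝒱.fst]
    exact withDensity_mono (Eventually.of_forall hmult)
  calc (∫⁻ y in g₁ '' ball 0 r₁, h y ∂μH[(m : ℝ)]) + ∫⁻ y in g₂ '' ball 0 r₂, h y ∂μH[(m : ℝ)]
      = ∫⁻ y, N' y * h y ∂μH[(m : ℝ)] := by
        rw [← lintegral_indicator hS₁, ← lintegral_indicator hS₂, ← lintegral_add_left (hhm.indicator hS₁)]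
        refine lintegral_congr fun y => ?_
        by_cases h1 : y ∈ g₁ '' ball 0 r₁ <;> by_cases h2 : y ∈ g₂ '' ball 0 r₂ <;> simp [hN', h1, h2, add_mul]
    _ = ∫⁻ y, h y ∂((μH[(m : ℝ)] : Measure (E (m + 2))).withDensity N') :=
        (lintegral_withDensity_eq_lintegral_mul _ hN'm hhm).symm
    _ ≤ ∫⁻ y, h y ∂(𝒱.map Prod.fst) := lintegral_mono' hle le_rfl
    _ = ∫⁻ q, h q.1 ∂𝒱 := lintegral_map hhm measurable_fst
    _ = ENNReal.ofReal (∫ q, adbB j (f q) ^ m ∂𝒱) := by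
        rw [ofReal_integral_eq_lintegral_ofReal]
        · exact adb_integrable_ae 𝒱 m f hfm hf1 j (Nat.cast_nonneg j)
        · filter_upwards [hf1] with q hq
          exact pow_nonneg (adbB_pos (abs_le.1 hq).2 (Nat.cast_nonneg j)).le m
    _ ≤ ENNReal.ofReal (𝒱 univ).toReal := ENNReal.ofReal_le_ofReal hmono
    _ = volWithMult m F := by rw [ENNReal.ofReal_toReal (measure_ne_top 𝒱 univ), ad_var_univ h𝒱]

end Claimed.Agent.R323
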