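import Claimed.Agent.R323.Ad.SepTop

/-!
# Row 323, block A (adapter), unit A4 (helper153): separation, geometric part.   MATHLIB + `SepTop` ONLY.

* `ads_cyl`: both sides of a regular level set are locally connected (implicit function chart).
* `ads_cmp`: comparison of the signs of two defining functions.
* `ads_sep`: **a closed smooth conical hypersurface `Z` of `F \ {0}`, `dim F ≥ 3`, bounds a conical domain `S`**, with `S = {φ < 0}` locally
  for defining functions `φ` of `Z`.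
-/

set_option autoImplicit false
open scoped Topology RealInnerProductSpace ContDiff
open Set Filter Metric

namespace Claimed.Agent.R323

/-! ### 1. the two sides of a regular level set -/

/-- **cylinder lemma**: a regular zero `p` of `φ` has arbitrarily small neighbourhoods `N` in which both sides `{φ > 0}`, `{φ < 0}` are connected and non empty. -/
theorem ads_cyl {F : Type*} [NormedAddCommGroup F] [NormedSpace ℝ F] [CompleteSpace F] {φ : F → ℝ}
    {φ' : F →L[ℝ] ℝ} {p : F} (hφ : HasStrictFDerivAt φ φ' p) (hφ' : φ' ≠ 0) (h0 : φ p = 0)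
    {O : Set F} (hO : O ∈ 𝓝 p) :
    ∃ N : Set F, IsOpen N ∧ p ∈ N ∧ N ⊆ O ∧ IsPreconnected (N ∩ {y | 0 < φ y}) ∧
      IsPreconnected (N ∩ {y | φ y < 0}) ∧ (N ∩ {y | 0 < φ y}).Nonempty ∧
      (N ∩ {y | φ y < 0}).Nonempty := by
  have hr : φ'.range = ⊤ := by
    refine LinearMap.range_eq_top.2 (LinearMap.surjective ?_)
    intro h
    exact hφ' (ContinuousLinearMap.coe_injective h)
  obtain ⟨Ψ, hΨ⟩ : ∃ Ψ, Ψ = hφ.implicitToOpenPartialHomeomorph φ φ' hr := ⟨_, rfl⟩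
  have hfst : ∀ x, (Ψ x).1 = φ x := fun x => by
    rw [hΨ]
    exact hφ.implicitToOpenPartialHomeomorph_fst hr x
  have hps : p ∈ Ψ.source := by
    rw [hΨ]
    exact hφ.mem_implicitToOpenPartialHomeomorph_source hr
  have hp0 : Ψ p = (0, 0) := by
    rw [hΨ, hφ.implicitToOpenPartialHomeomorph_self, h0]
  have h0t : ((0 : ℝ), (0 : φ'.ker)) ∈ Ψ.target := hp0 ▸ Ψ.map_source hps
  have hsymm0 : Ψ.symm (0, 0) = p := by
    rw [← hp0]
    exact Ψ.left_inv hps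
  have hT : Ψ.target ∩ Ψ.symm ⁻¹' O ∈ 𝓝 ((0 : ℝ), (0 : φ'.ker)) := by
    refine inter_mem (Ψ.open_target.mem_nhds h0t) ((Ψ.continuousAt_symm h0t).preimage_mem_nhds ?_)
    rwa [hsymm0]
  obtain ⟨ε, hε, hball⟩ := Metric.mem_nhds_iff.1 hT
  have hφs : ∀ q ∈ ball ((0 : ℝ), (0 : φ'.ker)) ε, φ (Ψ.symm q) = q.1 := by
    intro q hq
    rw [← hfst, Ψ.right_inv (hball hq).1]
  have hside : ∀ C : Set ℝ, Ψ.symm '' ball ((0 : ℝ), (0 : φ'.ker)) ε ∩ {y | φ y ∈ C} =
      Ψ.symm '' (ball ((0 : ℝ), (0 : φ'.ker)) ε ∩ {q | q.1 ∈ C}) := by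
    intro C
    ext y
    constructor
    · rintro ⟨⟨q, hq, rfl⟩, hy⟩
      exact ⟨q, ⟨hq, by simpa [hφs q hq] using hy⟩, rfl⟩
    · rintro ⟨q, ⟨hq, hqC⟩, rfl⟩
      exact ⟨⟨q, hq, rfl⟩, by simpa [hφs q hq] using hqC⟩
  have hcont : ContinuousOn Ψ.symm (ball ((0 : ℝ), (0 : φ'.ker)) ε) :=
    Ψ.continuousOn_symm.mono fun q hq => (hball hq).1
  refine ⟨Ψ.symm '' ball (0, 0) ε, Ψ.isOpen_image_symm_of_subset_target isOpen_ball
    (fun q hq => (hball hq).1), ⟨(0, 0), mem_ball_self hε, hsymm0⟩, ?_, ?_, ?_, ?_, ?_⟩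
  · rintro _ ⟨q, hq, rfl⟩
    exact (hball hq).2
  · have := hside (Ioi 0)
    simp only [mem_Ioi] at this
    rw [this]
    exact (((convex_ball _ _).inter (convex_halfSpace_gt (LinearMap.fst ℝ ℝ φ'.ker).isLinear 0)).isPreconnected).image _
      (hcont.mono inter_subset_left)
  · have := hside (Iio 0)
    simp only [mem_Iio] at this
    rw [this]
    exact (((convex_ball _ _).inter (convex_halfSpace_lt (LinearMap.fst ℝ ℝ φ'.ker).isLinear 0)).isPreconnected).image _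
      (hcont.mono inter_subset_left)
  · have hq : ((ε / 2 : ℝ), (0 : φ'.ker)) ∈ ball ((0 : ℝ), (0 : φ'.ker)) ε := by
      rw [mem_ball, Prod.dist_eq]
      simp [abs_of_pos hε, hε]
    exact ⟨_, ⟨_, hq, rfl⟩, by
      show 0 < φ _
      rw [hφs _ hq]
      exact half_pos hε⟩
  · have hq : ((-(ε / 2) : ℝ), (0 : φ'.ker)) ∈ ball ((0 : ℝ), (0 : φ'.ker)) ε := by
      rw [mem_ball, Prod.dist_eq]
      simp [abs_of_pos hε, hε]
    exact ⟨_, ⟨_, hq, rfl⟩, by
      show φ _ < 0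
      rw [hφs _ hq]
      show -(ε / 2) < 0
      linarith⟩

theorem ads_sign_const {X : Type*} [TopologicalSpace X] {s : Set X} (hs : IsPreconnected s)
    {f : X → ℝ} (hf : ContinuousOn f s) (hne : ∀ x ∈ s, f x ≠ 0) :
    (∀ x ∈ s, 0 < f x) ∨ ∀ x ∈ s, f x < 0 := by
  by_contra hcon
  push Not at hcon
  obtain ⟨⟨x, hx, hx1⟩, ⟨y, hy, hy1⟩⟩ := hcon
  obtain ⟨z, hz, hz0⟩ := hs.intermediate_value hx hy hf (show (0 : ℝ) ∈ Icc (f x) (f y) from ⟨hx1, hy1⟩)
  exact hne z hz hz0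

theorem ads_freq {F : Type*} [NormedAddCommGroup F] [NormedSpace ℝ F] [CompleteSpace F] {φ : F → ℝ}
    {φ' : F →L[ℝ] ℝ} {p : F} (hφ : HasStrictFDerivAt φ φ' p) (hφ' : φ' ≠ 0) (h0 : φ p = 0) :
    (∃ᶠ y in 𝓝 p, 0 < φ y) ∧ ∃ᶠ y in 𝓝 p, φ y < 0 := by
  constructor
  · rw [frequently_iff]
    intro O hO
    obtain ⟨N, -, -, hNO, -, -, ⟨y, hyN, hy⟩, -⟩ := ads_cyl hφ hφ' h0 hO
    exact ⟨y, hNO hyN, hy⟩
  · rw [frequently_iff]
    intro O hO
    obtain ⟨N, -, -, hNO, -, -, -, ⟨y, hyN, hy⟩⟩ := ads_cyl hφ hφ' h0 hO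
    exact ⟨y, hNO hyN, hy⟩

/-- **comparison of signs**: a continuous function with the same zeros as `φ` near the regular zero `p`, which takes both signs near `p`, has the sign of `± φ` near `p`. -/
theorem ads_cmp {F : Type*} [NormedAddCommGroup F] [NormedSpace ℝ F] [CompleteSpace F] {φ : F → ℝ}
    {φ' : F →L[ℝ] ℝ} {p : F} (hφ : HasStrictFDerivAt φ φ' p) (hφ' : φ' ≠ 0) (h0 : φ p = 0)
    {ψ : F → ℝ} {U : Set F} (hU : U ∈ 𝓝 p) (hψ : ContinuousOn ψ U)
    (hz : ∀ y ∈ U, ψ y = 0 ↔ φ y = 0) (hpos : ∃ᶠ y in 𝓝 p, 0 < ψ y)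
    (hneg : ∃ᶠ y in 𝓝 p, ψ y < 0) :
    ∃ a : ℝ, (a = 1 ∨ a = -1) ∧ ∀ᶠ y in 𝓝 p, Real.sign (ψ y) = a * Real.sign (φ y) := by
  obtain ⟨N, hNo, hpN, hNU, hc1, hc2, -, -⟩ := ads_cyl hφ hφ' h0 hU
  have hN : N ∈ 𝓝 p := hNo.mem_nhds hpN
  have h1 := ads_sign_const hc1 (hψ.mono fun y hy => hNU hy.1) (fun y hy h =>
    (ne_of_gt (show 0 < φ y from hy.2)) ((hz y (hNU hy.1)).1 h))
  have h2 := ads_sign_const hc2 (hψ.mono fun y hy => hNU hy.1) (fun y hy h =>
    (ne_of_lt (show φ y < 0 from hy.2)) ((hz y (hNU hy.1)).1 h))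
  obtain ⟨y₁, hy₁, hy₁N⟩ := (hpos.and_eventually hN).exists
  obtain ⟨y₂, hy₂, hy₂N⟩ := (hneg.and_eventually hN).exists
  have hfin : ∀ a : ℝ, (∀ y ∈ N ∩ {y | 0 < φ y}, Real.sign (ψ y) = a) →
      (∀ y ∈ N ∩ {y | φ y < 0}, Real.sign (ψ y) = -a) →
      ∀ᶠ y in 𝓝 p, Real.sign (ψ y) = a * Real.sign (φ y) := by
    intro a ha1 ha2
    filter_upwards [hN] with y hy
    rcases lt_trichotomy (φ y) 0 with h | h | h
    · rw [ha2 y ⟨hy, h⟩, Real.sign_of_neg h]
      ring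
    · rw [h, (hz y (hNU hy)).2 h, Real.sign_zero, mul_zero]
    · rw [ha1 y ⟨hy, h⟩, Real.sign_of_pos h, mul_one]
  have htri : ∀ y ∈ N, ψ y ≠ 0 → y ∈ N ∩ {y | 0 < φ y} ∨ y ∈ N ∩ {y | φ y < 0} := by
    intro y hy hne
    rcases lt_trichotomy (φ y) 0 with h | h | h
    · exact Or.inr ⟨hy, h⟩
    · exact absurd ((hz y (hNU hy)).2 h) hne
    · exact Or.inl ⟨hy, h⟩
  rcases h1 with h1 | h1 <;> rcases h2 with h2 | h2
  · exfalso
    rcases htri y₂ hy₂N hy₂.ne with h | h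
    · exact lt_asymm hy₂ (h1 _ h)
    · exact lt_asymm hy₂ (h2 _ h)
  · exact ⟨1, Or.inl rfl, hfin 1 (fun y hy => Real.sign_of_pos (h1 y hy))
      fun y hy => Real.sign_of_neg (h2 y hy)⟩
  · exact ⟨-1, Or.inr rfl, hfin (-1) (fun y hy => Real.sign_of_neg (h1 y hy))
      fun y hy => by rw [Real.sign_of_pos (h2 y hy), neg_neg]⟩
  · exfalso
    rcases htri y₁ hy₁N hy₁.ne' with h | h
    · exact lt_asymm hy₁ (h1 _ h)
    · exact lt_asymm hy₁ (h2 _ h)

/-! ### 2. cones -/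

section cone

variable {F : Type*} [NormedAddCommGroup F] [InnerProductSpace ℝ F]

/-- the radial projection. -/
noncomputable def adsN (y : F) : F := ‖y‖⁻¹ • y

theorem adsN_continuousAt {y : F} (hy : y ≠ 0) : ContinuousAt adsN y :=
  (continuousAt_id.norm.inv₀ (norm_ne_zero_iff.2 hy)).smul continuousAt_id

theorem adsN_norm {y : F} (hy : y ≠ 0) : ‖adsN y‖ = 1 := by
  rw [adsN, norm_smul, norm_inv, norm_norm, inv_mul_cancel₀ (norm_ne_zero_iff.2 hy)]

theorem adsN_smul {t : ℝ} (ht : 0 < t) (y : F) : adsN (t • y) = adsN y := by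
  rw [adsN, adsN, norm_smul, Real.norm_eq_abs, abs_of_pos ht, smul_smul, mul_inv]
  congr 1
  field_simp

theorem adsN_of_norm {y : F} (hy : ‖y‖ = 1) : adsN y = y := by
  rw [adsN, hy, inv_one, one_smul]

theorem adsN_norm_smul {y : F} (hy : y ≠ 0) : ‖y‖ • adsN y = y := by
  rw [adsN, smul_smul, mul_inv_cancel₀ (norm_ne_zero_iff.2 hy), one_smul]

theorem ads_cone_iff {Z : Set F} (hc : ∀ x ∈ Z, ∀ t : ℝ, 0 < t → t • x ∈ Z) {t : ℝ} (ht : 0 < t)
    (y : F) : t • y ∈ Z ↔ y ∈ Z := by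
  refine ⟨fun h => ?_, fun h => hc y h t ht⟩
  have := hc _ h t⁻¹ (inv_pos.2 ht)
  rwa [smul_smul, inv_mul_cancel₀ ht.ne', one_smul] at this

theorem adsN_mem_iff {Z : Set F} (hc : ∀ x ∈ Z, ∀ t : ℝ, 0 < t → t • x ∈ Z) {y : F} (hy : y ≠ 0) :
    adsN y ∈ Z ↔ y ∈ Z :=
  ads_cone_iff hc (inv_pos.2 (norm_pos_iff.2 hy)) y

/-- a defining function of a cone on a convex set has a constant sign along rays. -/
theorem ads_radial_sign {Z : Set F} (hc : ∀ x ∈ Z, ∀ t : ℝ, 0 < t → t • x ∈ Z) {B : Set F}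
    (hB : Convex ℝ B) {φ : F → ℝ} (hφ : ContinuousOn φ B) (hz : ∀ y ∈ B, φ y = 0 ↔ y ∈ Z)
    {z : F} (hzB : z ∈ B) {t : ℝ} (ht : 0 < t) (htB : t • z ∈ B) :
    Real.sign (φ (t • z)) = Real.sign (φ z) := by
  by_cases hzZ : z ∈ Z
  · rw [(hz z hzB).2 hzZ, (hz _ htB).2 (hc z hzZ t ht)]
  · have hseg : segment ℝ z (t • z) ⊆ B := hB.segment_subset hzB htB
    have hne : ∀ x ∈ segment ℝ z (t • z), φ x ≠ 0 := by
      rintro x hx h0
      have hxZ := (hz x (hseg hx)).1 h0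
      obtain ⟨a, b, ha, hb, hab, rfl⟩ := hx
      rw [smul_smul, ← add_smul] at hxZ
      have hpos : 0 < a + b * t := by
        rcases ha.eq_or_lt with h | h
        · have : b = 1 := by linarith
          rw [← h, this]
          linarith
        · have := mul_nonneg hb ht.le
          linarith
      exact hzZ ((ads_cone_iff hc hpos z).1 hxZ)
    rcases ads_sign_const (convex_segment z (t • z)).isPreconnected (hφ.mono hseg) hne with h | h
    · rw [Real.sign_of_pos (h _ (left_mem_segment ℝ _ _)),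
        Real.sign_of_pos (h _ (right_mem_segment ℝ _ _))]
    · rw [Real.sign_of_neg (h _ (left_mem_segment ℝ _ _)),
        Real.sign_of_neg (h _ (right_mem_segment ℝ _ _))]

end cone

/-! ### 3. separation -/

theorem ads_pos_of_sign_eq {a b : ℝ} (h : Real.sign a = Real.sign b) (hb : 0 < b) : 0 < a := by
  rw [Real.sign_of_pos hb] at h
  rcases lt_trichotomy a 0 with h' | h' | h'
  · rw [Real.sign_of_neg h'] at h
    norm_num at h
  · rw [h', Real.sign_zero] at h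
    norm_num at h
  · exact h'

theorem ads_neg_of_sign_eq {a b : ℝ} (h : Real.sign a = Real.sign b) (hb : b < 0) : a < 0 := by
  rw [Real.sign_of_neg hb] at h
  rcases lt_trichotomy a 0 with h' | h' | h'
  · exact h'
  · rw [h', Real.sign_zero] at h
    norm_num at h
  · rw [Real.sign_of_pos h'] at h
    norm_num at h

section sep

variable {F : Type*} [NormedAddCommGroup F] [InnerProductSpace ℝ F]

/-- `Z` is a smooth hypersurface near `p`. -/
def AdsReg (Z : Set F) (p : F) : Prop :=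
  ∃ r > 0, ∃ φ : F → ℝ, ContDiffOn ℝ ∞ φ (ball p r) ∧ (∀ y ∈ ball p r, fderiv ℝ φ y ≠ 0) ∧
    ∀ y ∈ ball p r, φ y = 0 ↔ y ∈ Z

theorem ads_strict {p : F} {r : ℝ} {φ : F → ℝ} (hφ : ContDiffOn ℝ ∞ φ (ball p r)) {y : F}
    (hy : y ∈ ball p r) : HasStrictFDerivAt φ (fderiv ℝ φ y) y :=
  (hφ.contDiffAt (isOpen_ball.mem_nhds hy)).hasStrictFDerivAt (by simp)

/-- the `0`-homogeneous extension of a defining function takes both signs near every point of the cone. -/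
theorem ads_freq_cone [CompleteSpace F] {Z : Set F} (hc : ∀ x ∈ Z, ∀ t : ℝ, 0 < t → t • x ∈ Z)
    {p : F} {r : ℝ} {φ : F → ℝ} (hφ : ContDiffOn ℝ ∞ φ (ball p r))
    (hd : ∀ y ∈ ball p r, fderiv ℝ φ y ≠ 0) (hz : ∀ y ∈ ball p r, φ y = 0 ↔ y ∈ Z) {y₀ : F}
    (hy₀ : y₀ ≠ 0) (hy₀Z : y₀ ∈ Z) (hy₀B : adsN y₀ ∈ ball p r) :
    (∃ᶠ z in 𝓝 y₀, 0 < φ (adsN z)) ∧ ∃ᶠ z in 𝓝 y₀, φ (adsN z) < 0 := by
  have hq1 : ‖adsN y₀‖ = 1 := adsN_norm hy₀
  have hq0 : adsN y₀ ≠ 0 := by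
    intro h
    rw [h, norm_zero] at hq1
    exact zero_ne_one hq1
  obtain ⟨f1, f2⟩ := ads_freq (ads_strict hφ hy₀B) (hd _ hy₀B)
    ((hz _ hy₀B).2 ((adsN_mem_iff hc hy₀).2 hy₀Z))
  have hev : ∀ᶠ z in 𝓝 (adsN y₀), z ∈ ball p r ∧ adsN z ∈ ball p r ∧ z ≠ 0 := by
    filter_upwards [isOpen_ball.mem_nhds hy₀B, (adsN_continuousAt hq0).preimage_mem_nhds
      (isOpen_ball.mem_nhds (by rwa [adsN_of_norm hq1])),
      isOpen_compl_singleton.mem_nhds hq0] with z h1 h2 h3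
    exact ⟨h1, h2, h3⟩
  have ht : Tendsto (fun z : F => ‖y₀‖ • z) (𝓝 (adsN y₀)) (𝓝 y₀) := by
    have : ContinuousAt (fun z : F => ‖y₀‖ • z) (adsN y₀) := (continuous_const_smul _).continuousAt
    have h2 := this.tendsto
    rwa [adsN_norm_smul hy₀] at h2
  have key : ∀ z, (z ∈ ball p r ∧ adsN z ∈ ball p r ∧ z ≠ 0) →
      Real.sign (φ (adsN (‖y₀‖ • z))) = Real.sign (φ z) := by
    rintro z ⟨h1, h2, h3⟩
    rw [adsN_smul (norm_pos_iff.2 hy₀)]
    exact ads_radial_sign hc (convex_ball p r) hφ.continuousOn hz h1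
      (inv_pos.2 (norm_pos_iff.2 h3)) h2
  exact ⟨ht.frequently ((f1.and_eventually hev).mono fun z hz => ads_pos_of_sign_eq (key z hz.2) hz.1),
    ht.frequently ((f2.and_eventually hev).mono fun z hz => ads_neg_of_sign_eq (key z hz.2) hz.1)⟩

/-- `ads_sign` with reference signs `σ y` near every point `y`. -/
theorem ads_sign_ref [FiniteDimensional ℝ F] {J : Type*} [Fintype J]
    (hF : 2 < Module.finrank ℝ F) {Z : Set F}
    (hd : ∀ y, y ≠ 0 → y ∈ closure (Z ∪ {0})ᶜ)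
    {U : J → Set F} (hU : ∀ j, IsOpen (U j)) (h0 : ∀ j, (0 : F) ∉ U j)
    (hcov : ∀ y, y ≠ 0 → ∃ j, y ∈ U j)
    {s : J → F → ℝ} (h1 : ∀ j, ∀ y ∈ U j, y ∉ Z → s j y = 1 ∨ s j y = -1) {σ : F → F → ℝ}
    (hσ : ∀ j, ∀ y ∈ U j, ∃ a : ℝ, (a = 1 ∨ a = -1) ∧
      ∀ᶠ z in 𝓝[(Z ∪ {0})ᶜ] y, s j z = a * σ y z) :
    ∃ τ : F → ℝ, (∀ y ∈ (Z ∪ {0})ᶜ, τ y = 1 ∨ τ y = -1) ∧
      ∀ y, y ≠ 0 → ∃ δ : ℝ, (δ = 1 ∨ δ = -1) ∧ ∀ᶠ z in 𝓝[(Z ∪ {0})ᶜ] y, τ z = δ * σ y z := by
  obtain ⟨τ, hτ1, hτ2⟩ := ads_sign hF hd hU h0 hcov h1 (by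
    intro i j y hi hj
    obtain ⟨a, ha, hae⟩ := hσ i y hi
    obtain ⟨b, hb, hbe⟩ := hσ j y hj
    refine ⟨a * b, ?_⟩
    filter_upwards [hae, hbe, self_mem_nhdsWithin, mem_nhdsWithin_of_mem_nhds ((hU j).mem_nhds hj)]
      with z h1z h2z hzG hzU
    have h3 := h1 j z hzU (fun h => hzG (Or.inl h))
    have h4 : (b * σ y z) ^ 2 = 1 := by
      rw [← h2z]
      rcases h3 with h | h <;> rw [h] <;> norm_num
    have h5 : b ^ 2 = 1 := by
      rcases hb with h | h <;> rw [h] <;> norm_num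
    have h6 : σ y z ^ 2 = 1 := by
      rw [mul_pow, h5, one_mul] at h4
      exact h4
    rw [h1z, h2z]
    calc a * σ y z * (b * σ y z) = a * b * σ y z ^ 2 := by ring
      _ = a * b := by rw [h6, mul_one])
  refine ⟨τ, hτ1, fun y hy => ?_⟩
  obtain ⟨j, hj⟩ := hcov y hy
  obtain ⟨δ, hδ, hδe⟩ := hτ2 j y hj
  obtain ⟨a, ha, hae⟩ := hσ j y hj
  refine ⟨δ * a, ?_, ?_⟩
  · rcases hδ with h | h <;> rcases ha with h' | h' <;> rw [h, h'] <;> norm_num
  · filter_upwards [hδe, hae] with z h1z h2z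
    rw [h1z, h2z, mul_assoc]

/-- the finite conical cover. -/
def adsU (Z : Set F) (r : F → ℝ) (t : Finset F) : Option t → Set F
  | none => (Z ∪ {0})ᶜ
  | some p => {y | y ≠ 0 ∧ adsN y ∈ ball (p : F) (r p)}

/-- its sign functions. -/
noncomputable def adsS (φ : F → F → ℝ) (t : Finset F) : Option t → F → ℝ
  | none => fun _ => 1
  | some p => fun y => Real.sign (φ p (adsN y))

theorem ads_mul_sign {δ x : ℝ} (hδ : δ = 1 ∨ δ = -1) (hx : x ≠ 0) :
    δ * x < 0 ↔ δ * Real.sign x = -1 := by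
  rcases hδ with rfl | rfl <;> rcases hx.lt_or_gt with h | h
  · simp [Real.sign_of_neg h, h]
  · rw [Real.sign_of_pos h]
    constructor
    · intro h'
      linarith
    · intro h'
      norm_num at h'
  · rw [Real.sign_of_neg h]
    constructor
    · intro h'
      linarith
    · intro h'
      norm_num at h'
  · simp [Real.sign_of_pos h, h]

/-- **separation**: a closed smooth conical hypersurface `Z` of `F \ {0}`, `dim F ≥ 3`, is two sided: it bounds an open cone `S`. -/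
theorem ads_sep [FiniteDimensional ℝ F] (hF : 2 < Module.finrank ℝ F) {Z : Set F}
    (hcl : IsClosed (Z ∪ {0})) (hc : ∀ x ∈ Z, ∀ t : ℝ, 0 < t → t • x ∈ Z)
    (hreg : ∀ p ∈ Z, AdsReg Z p) :
    ∃ S : Set F, IsOpen S ∧ IsOpen (S ∪ Z ∪ {0})ᶜ ∧ (0 : F) ∉ S ∧ (∀ x ∈ S, x ∉ Z) ∧
      (∀ x ∈ S, ∀ t : ℝ, 0 < t → t • x ∈ S) ∧
      ∀ p ∈ Z, p ≠ 0 → ∃ r > 0, ∃ φ : F → ℝ, ContDiffOn ℝ ∞ φ (ball p r) ∧
        (∀ y ∈ ball p r, fderiv ℝ φ y ≠ 0) ∧ (∀ y ∈ ball p r, φ y = 0 ↔ y ∈ Z) ∧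
        ∀ y ∈ ball p r, φ y < 0 ↔ y ∈ S := by
  classical
  have hGo : IsOpen (Z ∪ {0})ᶜ := hcl.isOpen_compl
  simp only [AdsReg] at hreg
  choose! r hr φ hφ hdφ hzφ using hreg
  have hd : ∀ y, y ≠ 0 → y ∈ closure (Z ∪ {0})ᶜ := by
    intro y hy
    by_cases hyZ : y ∈ Z
    · rw [mem_closure_iff_frequently]
      have hyB := mem_ball_self (x := y) (hr y hyZ)
      have h1 := (ads_freq (ads_strict (hφ y hyZ) hyB) (hdφ y hyZ y hyB) ((hzφ y hyZ y hyB).2 hyZ)).1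
      have hev : ∀ᶠ z in 𝓝 y, z ∈ ball y (r y) ∧ z ≠ 0 := by
        filter_upwards [isOpen_ball.mem_nhds hyB, isOpen_compl_singleton.mem_nhds hy] with z h1 h2
        exact ⟨h1, h2⟩
      refine (h1.and_eventually hev).mono ?_
      rintro z ⟨hz, hzB, hz0⟩ (h | h)
      · exact hz.ne' ((hzφ y hyZ z hzB).2 h)
      · exact hz0 h
    · exact subset_closure (by
        rintro (h | h)
        · exact hyZ h
        · exact hy h)
  have hK : IsCompact (Z ∩ sphere (0 : F) 1) := by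
    have : Z ∩ sphere (0 : F) 1 = (Z ∪ {0}) ∩ sphere (0 : F) 1 := by
      ext y
      constructor
      · rintro ⟨h1, h2⟩
        exact ⟨Or.inl h1, h2⟩
      · rintro ⟨h1 | h1, h2⟩
        · exact ⟨h1, h2⟩
        · exfalso
          rw [mem_singleton_iff.1 h1] at h2
          simp at h2
    rw [this]
    exact (isCompact_sphere (0 : F) 1).inter_left hcl
  obtain ⟨t, htZ, htcov⟩ := hK.elim_nhds_subcover (fun p => ball p (r p))
    (fun p hp => ball_mem_nhds p (hr p hp.1))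
  have hUo : ∀ j, IsOpen (adsU Z r t j) := by
    rintro (_ | p)
    · exact hGo
    · rw [isOpen_iff_mem_nhds]
      rintro y ⟨hy0, hyB⟩
      filter_upwards [isOpen_compl_singleton.mem_nhds hy0,
        (adsN_continuousAt hy0).preimage_mem_nhds (isOpen_ball.mem_nhds hyB)] with z h1 h2
      exact ⟨h1, h2⟩
  have hψc : ∀ p : t, ContinuousOn (fun z => φ p (adsN z)) (adsU Z r t (some p)) := by
    intro p
    refine (hφ p (htZ p p.2).1).continuousOn.comp (fun z hz => (adsN_continuousAt hz.1).continuousWithinAt)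
      fun z hz => hz.2
  obtain ⟨τ, hτ1, hτ2⟩ := ads_sign_ref hF hd (U := adsU Z r t) (s := adsS φ t)
    (σ := fun y => if y ∈ Z then fun z => Real.sign (φ y z) else fun _ => 1) hUo
    (by
      rintro (_ | p) h
      · exact h (Or.inr rfl)
      · exact h.1 rfl)
    (by
      intro y hy
      by_cases hyZ : y ∈ Z
      · have h1 : adsN y ∈ Z ∩ sphere (0 : F) 1 :=
          ⟨(adsN_mem_iff hc hy).2 hyZ, mem_sphere_zero_iff_norm.2 (adsN_norm hy)⟩
        obtain ⟨p, hp, hpB⟩ := mem_iUnion₂.1 (htcov h1)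
        exact ⟨some ⟨p, hp⟩, hy, hpB⟩
      · refine ⟨none, ?_⟩
        rintro (h | h)
        · exact hyZ h
        · exact hy h)
    (by
      rintro (_ | p) y hy hyZ
      · exact Or.inl rfl
      · have : φ p (adsN y) ≠ 0 := fun h =>
          hyZ ((adsN_mem_iff hc hy.1).1 ((hzφ p (htZ p p.2).1 _ hy.2).1 h))
        exact (Real.sign_apply_eq_of_ne_zero _ this).symm)
    (by
      rintro (_ | p) y hy
      · have hyZ : y ∉ Z := fun h => hy (Or.inl h)
        refine ⟨1, Or.inl rfl, Eventually.of_forall fun z => ?_⟩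
        simp [hyZ, adsS]
      · have hpZ := (htZ p p.2).1
        by_cases hyZ : y ∈ Z
        · have hyB := mem_ball_self (x := y) (hr y hyZ)
          obtain ⟨f1, f2⟩ := ads_freq_cone hc (hφ p hpZ) (hdφ p hpZ) (hzφ p hpZ) hy.1 hyZ hy.2
          obtain ⟨a, ha, hae⟩ := ads_cmp (ads_strict (hφ y hyZ) hyB) (hdφ y hyZ y hyB)
            ((hzφ y hyZ y hyB).2 hyZ) (ψ := fun z => φ p (adsN z))
            (U := adsU Z r t (some p) ∩ ball y (r y))
            (inter_mem ((hUo (some p)).mem_nhds hy) (isOpen_ball.mem_nhds hyB))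
            ((hψc p).mono inter_subset_left)
            (fun z hz => by
              rw [hzφ p hpZ _ hz.1.2, hzφ y hyZ z hz.2, adsN_mem_iff hc hz.1.1]) f1 f2
          refine ⟨a, ha, (hae.filter_mono nhdsWithin_le_nhds).mono fun z hz => ?_⟩
          simp only [hyZ, if_true]
          exact hz
        · have hne : φ p (adsN y) ≠ 0 := fun h =>
            hyZ ((adsN_mem_iff hc hy.1).1 ((hzφ p hpZ _ hy.2).1 h))
          have hca : ContinuousAt (fun z => φ p (adsN z)) y :=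
            (hψc p).continuousAt ((hUo (some p)).mem_nhds hy)
          refine ⟨Real.sign (φ p (adsN y)), (Real.sign_apply_eq_of_ne_zero _ hne).symm, ?_⟩
          refine Eventually.filter_mono nhdsWithin_le_nhds ?_
          simp only [hyZ, if_false, mul_one]
          rcases hne.lt_or_gt with h | h
          · filter_upwards [hca.eventually_lt continuousAt_const h] with z hz
            show Real.sign (φ p (adsN z)) = _
            rw [Real.sign_of_neg hz, Real.sign_of_neg h]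
          · filter_upwards [continuousAt_const.eventually_lt hca h] with z hz
            show Real.sign (φ p (adsN z)) = _
            rw [Real.sign_of_pos hz, Real.sign_of_pos h])
  -- local constancy off `Z`
  have hloc : ∀ y ∈ (Z ∪ {0})ᶜ, ∀ᶠ z in 𝓝 y, z ∈ (Z ∪ {0})ᶜ ∧ τ z = τ y := by
    intro y hy
    have hyZ : y ∉ Z := fun h => hy (Or.inl h)
    obtain ⟨δ, -, hδ⟩ := hτ2 y (fun h => hy (Or.inr h))
    rw [hGo.nhdsWithin_eq hy] at hδ
    simp only [hyZ, if_false, mul_one] at hδ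
    filter_upwards [hδ, hGo.mem_nhds hy] with z hz hzG
    exact ⟨hzG, by rw [hz, hδ.self_of_nhds]⟩
  have hτc : ContinuousOn τ (Z ∪ {0})ᶜ := by
    intro y hy
    refine ContinuousAt.continuousWithinAt ?_
    exact continuousAt_const.congr ((hloc y hy).mono fun z hz => hz.2.symm)
  refine ⟨{y | y ∈ (Z ∪ {0})ᶜ ∧ τ y = -1}, ?_, ?_, fun h => h.1 (Or.inr rfl),
    fun x hx h => hx.1 (Or.inl h), ?_, ?_⟩
  · rw [isOpen_iff_mem_nhds]
    rintro y ⟨hy, hy1⟩
    filter_upwards [hloc y hy] with z hz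
    exact ⟨hz.1, hz.2.trans hy1⟩
  · rw [isOpen_iff_mem_nhds]
    intro y hy
    have hyG : y ∈ (Z ∪ {0})ᶜ := by
      rintro (h | h)
      · exact hy (Or.inl (Or.inr h))
      · exact hy (Or.inr h)
    have hy1 : τ y ≠ -1 := fun h => hy (Or.inl (Or.inl ⟨hyG, h⟩))
    filter_upwards [hloc y hyG] with z hz
    rintro ((h | h) | h)
    · exact hy1 (hz.2.symm.trans h.2)
    · exact hz.1 (Or.inl h)
    · exact hz.1 (Or.inr h)
  · rintro x ⟨hxG, hx1⟩ c hc0
    have hx0 : x ≠ 0 := fun h => hxG (Or.inr h)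
    have hray : ∀ a ∈ Ioi (0 : ℝ), a • x ∈ (Z ∪ {0})ᶜ := by
      rintro a ha (h | h)
      · exact hxG (Or.inl ((ads_cone_iff hc ha x).1 h))
      · exact (smul_ne_zero (ne_of_gt ha) hx0) h
    have hpre : IsPreconnected ((fun a : ℝ => a • x) '' Ioi 0) :=
      isPreconnected_Ioi.image _ (continuous_id.smul continuous_const).continuousOn
    have hsub : (fun a : ℝ => a • x) '' Ioi 0 ⊆ (Z ∪ {0})ᶜ := by
      rintro _ ⟨a, ha, rfl⟩
      exact hray a ha
    rcases ads_const_of_sq_one hpre (hτc.mono hsub) (fun y hy => hτ1 y (hsub hy)) with h | h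
    · exfalso
      have := h x ⟨1, by simp, one_smul _ _⟩
      rw [hx1] at this
      norm_num at this
    · exact ⟨hray c hc0, h _ ⟨c, hc0, rfl⟩⟩
  · intro p hp hp0
    obtain ⟨δ, hδ, hδe⟩ := hτ2 p hp0
    simp only [hp, if_true] at hδe
    rw [eventually_nhdsWithin_iff] at hδe
    have hpB := mem_ball_self (x := p) (hr p hp)
    obtain ⟨ρ, hρ, hball⟩ := Metric.mem_nhds_iff.1 (inter_mem hδe
      (inter_mem (isOpen_ball.mem_nhds hpB) (isOpen_compl_singleton.mem_nhds hp0)))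
    have hδ0 : δ ≠ 0 := by
      rcases hδ with h | h <;> rw [h] <;> norm_num
    have hsub : ball p ρ ⊆ ball p (r p) := fun y hy => (hball hy).2.1
    refine ⟨ρ, hρ, fun z => δ * φ p z, contDiffOn_const.mul ((hφ p hp).mono hsub), ?_, ?_, ?_⟩
    · intro y hy
      have hdiff : DifferentiableAt ℝ (φ p) y := (ads_strict (hφ p hp) (hsub hy)).hasFDerivAt.differentiableAt
      rw [fderiv_const_mul hdiff]
      exact smul_ne_zero hδ0 (hdφ p hp y (hsub hy))
    · intro y hy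
      show δ * φ p y = 0 ↔ _
      rw [mul_eq_zero, or_iff_right hδ0]
      exact hzφ p hp y (hsub hy)
    · intro y hy
      show δ * φ p y < 0 ↔ _
      by_cases hyZ : y ∈ Z
      · rw [(hzφ p hp y (hsub hy)).2 hyZ, mul_zero]
        exact ⟨fun h => absurd h (lt_irrefl _), fun h => absurd (Or.inl hyZ) h.1⟩
      · have hyG : y ∈ (Z ∪ {0})ᶜ := by
          rintro (h | h)
          · exact hyZ h
          · exact (hball hy).2.2 h
        have hne : φ p y ≠ 0 := fun h => hyZ ((hzφ p hp y (hsub hy)).1 h)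
        rw [ads_mul_sign hδ hne, ← (hball hy).1 hyG]
        exact ⟨fun h => ⟨hyG, h⟩, fun h => h.2⟩

end sep

end Claimed.Agent.R323
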