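import Claimed.Agent.R323.Ad.Defs
import Claimed.Agent.R323.Ad.SepGeo

/-!
# Row 323, block A, package A4 (owner: helper153): Jordan-Brouwer for smooth conical hypersurfaces.      EXIT `ad_sep`.
Proof: `SepTop.lean` (Veronese double cover, lifting of line fields on the punctured space, abstract sign theorem), `SepGeo.lean` (`ads_sep`), this file (measure theoretic boundary).
-/

set_option autoImplicit false
open scoped ContDiff ENNReal RealInnerProductSpace Topology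
open MeasureTheory Metric Set Filter

namespace Claimed.Agent.R323

open Claimed.Agent.Gmt

/-- **EXIT of A4, long form**: the side `S` is an open cone, its exterior is open, and `S = {φ < 0}` near every point of `Z` for a defining function `φ` of `Z`. -/
theorem ad_sep_full {k : ℕ} (hk : 3 ≤ k) {Z : Set (E k)} (hZ : AdHyp k Z) (hne : Z.Nonempty) :
    ∃ S : Set (E k), IsOpen S ∧ AdReg k S ∧ gmtBd S = insert 0 Z ∧ IsOpen (S ∪ Z ∪ {0})ᶜ ∧
      (0 : E k) ∉ S ∧ (∀ x ∈ S, x ∉ Z) ∧ (∀ x ∈ S, ∀ t : ℝ, 0 < t → t • x ∈ S) ∧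
      ∀ p ∈ Z, ∃ r > 0, ∃ φ : E k → ℝ, ContDiffOn ℝ ∞ φ (ball p r) ∧
        (∀ y ∈ ball p r, fderiv ℝ φ y ≠ 0) ∧ (∀ y ∈ ball p r, φ y = 0 ↔ y ∈ Z) ∧
        ∀ y ∈ ball p r, φ y < 0 ↔ y ∈ S := by
  obtain ⟨S, hSo, hXo, h0S, hSZ, hSc, hloc⟩ := ads_sep (F := E k)
    (by rw [finrank_euclideanSpace_fin]; omega) (Z := Z)
    (by rw [union_singleton]; exact hZ.closed) (fun x hx t ht => hZ.cone t ht x hx)
    (fun p hp => hZ.loc p hp)
  have hZ0 : ∀ p ∈ Z, p ≠ 0 := fun p hp h => hZ.zero (h ▸ hp)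
  have hside : ∀ p ∈ Z, ∀ ρ > 0, (S ∩ ball p ρ).Nonempty ∧
      ((S ∪ Z ∪ {0})ᶜ ∩ ball p ρ).Nonempty := by
    intro p hp ρ hρ
    obtain ⟨r, hr, φ, hφ, hdφ, hzφ, hsφ⟩ := hloc p hp (hZ0 p hp)
    have hpB := mem_ball_self (x := p) hr
    obtain ⟨f1, f2⟩ := ads_freq (ads_strict hφ hpB) (hdφ p hpB) ((hzφ p hpB).2 hp)
    have hev : ∀ᶠ z in 𝓝 p, z ∈ ball p r ∧ z ∈ ball p ρ ∧ z ≠ 0 := by
      filter_upwards [isOpen_ball.mem_nhds hpB, ball_mem_nhds p hρ,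
        isOpen_compl_singleton.mem_nhds (hZ0 p hp)] with z h1 h2 h3
      exact ⟨h1, h2, h3⟩
    obtain ⟨y, hy, hyB⟩ := (f2.and_eventually hev).exists
    obtain ⟨y', hy', hyB'⟩ := (f1.and_eventually hev).exists
    refine ⟨⟨y, (hsφ y hyB.1).1 hy, hyB.2.1⟩, ⟨y', ?_, hyB'.2.1⟩⟩
    rintro ((h | h) | h)
    · exact lt_asymm hy' ((hsφ y' hyB'.1).2 h)
    · exact hy'.ne' ((hzφ y' hyB'.1).2 h)
    · exact hyB'.2.2 h
  have hSc' : ∀ x, ∀ t : ℝ, 0 < t → (t • x ∈ S ↔ x ∈ S) := fun x t ht => ads_cone_iff hSc ht x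
  have hXc : ∀ x ∈ (S ∪ Z ∪ {0})ᶜ, ∀ t : ℝ, 0 < t → t • x ∈ (S ∪ Z ∪ {0})ᶜ := by
    rintro x hx t ht ((h | h) | h)
    · exact hx (Or.inl (Or.inl ((hSc' x t ht).1 h)))
    · exact hx (Or.inl (Or.inr ((ads_cone_iff (fun x hx t ht => hZ.cone t ht x hx) ht x).1 h)))
    · rcases smul_eq_zero.1 h with h' | h'
      · exact ht.ne' h'
      · exact hx (Or.inr h')
  have hshrink : ∀ C : Set (E k), (∀ x ∈ C, ∀ t : ℝ, 0 < t → t • x ∈ C) → (0 : E k) ∉ C →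
      C.Nonempty → ∀ ρ > 0, (C ∩ ball 0 ρ).Nonempty := by
    rintro C hC h0 ⟨y, hy⟩ ρ hρ
    have hy0 : y ≠ 0 := fun h => h0 (h ▸ hy)
    have hn : 0 < ‖y‖ := norm_pos_iff.2 hy0
    refine ⟨(ρ / (2 * ‖y‖)) • y, hC y hy _ (by positivity), ?_⟩
    rw [mem_ball_zero_iff, norm_smul, Real.norm_eq_abs, abs_of_pos (by positivity)]
    have : ρ / (2 * ‖y‖) * ‖y‖ = ρ / 2 := by
      field_simp
    rw [this]
    linarith
  have hpos : ∀ x, ∀ ρ : ℝ, (S ∩ ball x ρ).Nonempty → ((S ∪ Z ∪ {0})ᶜ ∩ ball x ρ).Nonempty →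
      0 < volume (S ∩ ball x ρ) ∧ 0 < volume (ball x ρ \ S) := by
    intro x ρ h1 h2
    refine ⟨(hSo.inter isOpen_ball).measure_pos volume h1,
      lt_of_lt_of_le ((hXo.inter isOpen_ball).measure_pos volume h2) (measure_mono ?_)⟩
    rintro y ⟨hy1, hy2⟩
    exact ⟨hy2, fun h => hy1 (Or.inl (Or.inl h))⟩
  have hbd : gmtBd S = insert 0 Z := by
    ext x
    constructor
    · intro hx
      by_contra hcon
      have hx0 : x ≠ 0 := fun h => hcon (Or.inl h)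
      have hxZ : x ∉ Z := fun h => hcon (Or.inr h)
      by_cases hxS : x ∈ S
      · obtain ⟨ε, hε, hsub⟩ := Metric.isOpen_iff.1 hSo x hxS
        have := (hx ε hε).2
        rw [sdiff_eq_empty.2 hsub, measure_empty] at this
        exact lt_irrefl _ this
      · have hxX : x ∈ (S ∪ Z ∪ {0})ᶜ := by
          rintro ((h | h) | h)
          · exact hxS h
          · exact hxZ h
          · exact hx0 h
        obtain ⟨ε, hε, hsub⟩ := Metric.isOpen_iff.1 hXo x hxX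
        have := (hx ε hε).1
        have hemp : S ∩ ball x ε = ∅ := by
          ext y
          simp only [mem_inter_iff, mem_empty_iff_false, iff_false, not_and]
          intro hyS hyB
          exact hsub hyB (Or.inl (Or.inl hyS))
        rw [hemp, measure_empty] at this
        exact lt_irrefl _ this
    · rintro (rfl | hx) ρ hρ
      · obtain ⟨p, hp⟩ := hne
        obtain ⟨⟨y, hy, -⟩, ⟨y', hy', -⟩⟩ := hside p hp 1 one_pos
        exact hpos 0 ρ (hshrink S hSc h0S ⟨y, hy⟩ ρ hρ)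
          (hshrink _ hXc (fun h => h (Or.inr rfl)) ⟨y', hy'⟩ ρ hρ)
      · exact hpos x ρ (hside x hx ρ hρ).1 (hside x hx ρ hρ).2
  refine ⟨S, hSo, ⟨hSo.measurableSet, ?_, ?_⟩, hbd, hXo, h0S, hSZ, hSc,
    fun p hp => hloc p hp (hZ0 p hp)⟩
  · intro ρ hρ
    have : gmtDil 0 ρ S = S := by
      ext y
      show 0 + ρ • y ∈ S ↔ y ∈ S
      rw [zero_add]
      exact hSc' y ρ hρ
    rw [this]
    exact Filter.EventuallyEq.rfl
  · intro x hx hx0
    rw [hbd] at hx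
    have hxZ : x ∈ Z := hx.resolve_left hx0
    obtain ⟨r, hr, φ, hφ, hdφ, hzφ, hsφ⟩ := hloc x hxZ hx0
    refine ⟨r, hr, φ, hφ, (hzφ x (mem_ball_self hr)).2 hxZ, hdφ, ?_⟩
    have : S ∩ ball x r = {y | y ∈ ball x r ∧ φ y < 0} := by
      ext y
      constructor
      · rintro ⟨h1, h2⟩
        exact ⟨h2, (hsφ y h2).2 h1⟩
      · rintro ⟨h1, h2⟩
        exact ⟨(hsφ y h1).1 h2, h1⟩
    rw [this]
    exact Filter.EventuallyEq.rfl

/-- **EXIT of A4.** -/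
theorem ad_sep {k : ℕ} (hk : 3 ≤ k) {Z : Set (E k)} (hZ : AdHyp k Z) (hne : Z.Nonempty) :
    ∃ S : Set (E k), IsOpen S ∧ AdReg k S ∧ gmtBd S = insert 0 Z := by
  obtain ⟨S, h1, h2, h3, -⟩ := ad_sep_full hk hZ hne
  exact ⟨S, h1, h2, h3⟩

end Claimed.Agent.R323
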