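import Mathlib

/-!
# Row 323, block A (adapter), unit A4 (helper153): separation, topological part.   MATHLIB ONLY.

* `adsQ v = v ⊗ v`; `ads_lift`: a continuous field of rank one projections `v ⊗ v` on a simply connected, locally path connected space has a continuous unit section
  (the map `v ↦ v ⊗ v` from the unit sphere onto its range is a covering map; Mathlib's lifting theorem).
* `ads_lift_punctured`: the same on `F \ {0}`, `dim F ≥ 3` (two star shaped pieces, connected intersection).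
* `ads_sign`: the abstract sign theorem.
-/

set_option autoImplicit false
open scoped Topology RealInnerProductSpace
open Set Filter Metric

namespace Claimed.Agent.R323

/-! ### 0. two valued continuous functions -/

theorem ads_const_of_sq_one {X : Type*} [TopologicalSpace X] {s : Set X} (hs : IsPreconnected s)
    {f : X → ℝ} (hf : ContinuousOn f s) (h1 : ∀ x ∈ s, f x = 1 ∨ f x = -1) :
    (∀ x ∈ s, f x = 1) ∨ ∀ x ∈ s, f x = -1 := by
  by_contra hcon
  push Not at hcon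
  obtain ⟨⟨x, hx, hx1⟩, ⟨y, hy, hy1⟩⟩ := hcon
  have hxm : f x = -1 := (h1 x hx).resolve_left hx1
  have hym : f y = 1 := (h1 y hy).resolve_right hy1
  have := hs.intermediate_value hx hy hf (show (0 : ℝ) ∈ Icc (f x) (f y) by
    rw [hxm, hym]; constructor <;> norm_num)
  obtain ⟨z, hz, hz0⟩ := this
  rcases h1 z hz with h | h <;> rw [hz0] at h <;> norm_num at h

variable {H : Type*} [NormedAddCommGroup H] [InnerProductSpace ℝ H]

/-! ### 1. the Veronese covering -/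

/-- `v ⊗ v`. -/
noncomputable def adsQ (v : H) : H →L[ℝ] H := (innerSL ℝ v).smulRight v

theorem adsQ_apply (v x : H) : adsQ v x = ⟪v, x⟫ • v := rfl

theorem adsQ_neg (v : H) : adsQ (-v) = adsQ v := by
  ext x
  simp [adsQ_apply]

theorem adsQ_continuous : Continuous (adsQ : H → H →L[ℝ] H) := by
  have : (adsQ : H → H →L[ℝ] H) =
      fun v => ContinuousLinearMap.smulRightL ℝ H H (innerSL ℝ v) v := by
    funext v
    rfl
  rw [this]
  exact ((ContinuousLinearMap.smulRightL ℝ H H).continuous.comp (innerSL ℝ).continuous).clm_apply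
    continuous_id

theorem adsQ_eq_iff {v w : H} (hv : ‖v‖ = 1) (hw : ‖w‖ = 1) :
    adsQ v = adsQ w ↔ v = w ∨ v = -w := by
  constructor
  · intro h
    have h1 : ⟪v, v⟫ • v = ⟪w, v⟫ • w := by
      rw [← adsQ_apply, ← adsQ_apply, h]
    rw [real_inner_self_eq_norm_sq, hv, one_pow, one_smul] at h1
    have h2 : ‖v‖ = |⟪w, v⟫| * ‖w‖ := by
      conv_lhs => rw [h1]
      rw [norm_smul, Real.norm_eq_abs]
    rw [hv, hw, mul_one] at h2
    rcases abs_eq (zero_le_one' ℝ) |>.1 h2.symm with h3 | h3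
    · left
      rw [h1, h3, one_smul]
    · right
      rw [h1, h3, neg_one_smul]
  · rintro (rfl | rfl)
    · rfl
    · exact adsQ_neg w

section cover

variable [FiniteDimensional ℝ H]

/-- the Veronese map from the unit sphere onto its range. -/
noncomputable def adsq : sphere (0 : H) 1 → Set.range (fun v : sphere (0 : H) 1 => adsQ (v : H)) :=
  Set.rangeFactorization _

theorem adsq_coe (v : sphere (0 : H) 1) : ((adsq v : Set.range _) : H →L[ℝ] H) = adsQ (v : H) := rfl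

theorem adsq_continuous : Continuous (adsq (H := H)) :=
  (adsQ_continuous.comp continuous_subtype_val).subtype_mk _

theorem adsq_eq_iff (v w : sphere (0 : H) 1) : adsq v = adsq w ↔ v = w ∨ v = -w := by
  rw [Subtype.ext_iff, adsq_coe, adsq_coe,
    adsQ_eq_iff (mem_sphere_zero_iff_norm.1 v.2) (mem_sphere_zero_iff_norm.1 w.2),
    Subtype.ext_iff, Subtype.ext_iff]
  rfl

theorem adsq_isOpenMap : IsOpenMap (adsq (H := H)) := by
  have hq : Topology.IsQuotientMap (adsq (H := H)) :=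
    adsq_continuous.isClosedMap.isQuotientMap adsq_continuous Set.rangeFactorization_surjective
  intro W hW
  rw [← hq.isOpen_preimage]
  have : adsq ⁻¹' (adsq '' W) = W ∪ (fun v : sphere (0 : H) 1 => -v) ⁻¹' W := by
    ext v
    constructor
    · rintro ⟨w, hw, hwv⟩
      rcases (adsq_eq_iff w v).1 hwv with rfl | rfl
      · exact Or.inl hw
      · exact Or.inr hw
    · rintro (h | h)
      · exact ⟨v, h, rfl⟩
      · exact ⟨-v, h, (adsq_eq_iff _ _).2 (Or.inr rfl)⟩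
  rw [this]
  exact hW.union (hW.preimage continuous_neg)

theorem adsq_isCoveringMap : IsCoveringMap (adsq (H := H)) := by
  rw [← isLocalHomeomorph_iff_isCoveringMap, isLocalHomeomorph_iff_isOpenEmbedding_restrict]
  intro v₀
  have hUo : IsOpen {v : sphere (0 : H) 1 | 0 < ⟪(v₀ : H), (v : H)⟫} :=
    isOpen_lt continuous_const (continuous_const.inner continuous_subtype_val)
  have hv₀ : v₀ ∈ {v : sphere (0 : H) 1 | 0 < ⟪(v₀ : H), (v : H)⟫} := by
    show 0 < ⟪(v₀ : H), (v₀ : H)⟫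
    rw [real_inner_self_eq_norm_sq, mem_sphere_zero_iff_norm.1 v₀.2]
    norm_num
  refine ⟨_, hUo.mem_nhds hv₀, ?_⟩
  refine Topology.IsOpenEmbedding.of_continuous_injective_isOpenMap
    (adsq_continuous.comp continuous_subtype_val) ?_ (adsq_isOpenMap.comp hUo.isOpenMap_subtype_val)
  rintro ⟨v, hv⟩ ⟨w, hw⟩ hvw
  rcases (adsq_eq_iff v w).1 hvw with h | h
  · exact Subtype.ext h
  · exfalso
    have hv' : 0 < ⟪(v₀ : H), (v : H)⟫ := hv
    have hw' : 0 < ⟪(v₀ : H), (w : H)⟫ := hw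
    rw [h] at hv'
    have : ⟪(v₀ : H), ((-w : sphere (0 : H) 1) : H)⟫ = -⟪(v₀ : H), (w : H)⟫ := by
      simp
    linarith

/-- **lifting**: a continuous field of rank one projections on a simply connected, locally path connected space has a continuous unit section. -/
theorem ads_lift {A : Type*} [TopologicalSpace A] [SimplyConnectedSpace A]
    [LocallyPathConnectedSpace A] {P : A → H →L[ℝ] H} (hP : Continuous P)
    (hr : ∀ a, ∃ v : H, ‖v‖ = 1 ∧ P a = adsQ v) :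
    ∃ e : A → H, Continuous e ∧ ∀ a, ‖e a‖ = 1 ∧ P a = adsQ (e a) := by
  have hmem : ∀ a, P a ∈ Set.range (fun v : sphere (0 : H) 1 => adsQ (v : H)) := by
    intro a
    obtain ⟨v, hv, hPv⟩ := hr a
    exact ⟨⟨v, mem_sphere_zero_iff_norm.2 hv⟩, hPv.symm⟩
  obtain ⟨a₀⟩ : Nonempty A := inferInstance
  obtain ⟨e₀, he₀⟩ := hmem a₀
  obtain ⟨F, ⟨-, hF⟩, -⟩ := adsq_isCoveringMap.existsUnique_continuousMap_lifts
    (⟨fun a => ⟨P a, hmem a⟩, hP.subtype_mk _⟩ : C(A, Set.range (fun v : sphere (0 : H) 1 => adsQ (v : H))))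
    a₀ e₀ (Subtype.ext he₀)
  refine ⟨fun a => (F a : H), continuous_subtype_val.comp F.continuous, fun a =>
    ⟨mem_sphere_zero_iff_norm.1 (F a).2, ?_⟩⟩
  have := congrFun hF a
  exact (congrArg Subtype.val this).symm

end cover

/-! ### 2. line fields on the punctured space -/

section punctured

variable [FiniteDimensional ℝ H]
variable {F : Type*} [NormedAddCommGroup F] [InnerProductSpace ℝ F]

/-- the complement of the closed ray through the unit vector `q`. -/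
def adsA (q : F) : Set F := {y | ⟪q, y⟫ < ‖y‖}

theorem adsA_isOpen (q : F) : IsOpen (adsA q) :=
  isOpen_lt (continuous_const.inner continuous_id) continuous_norm

theorem adsA_ne_zero {q y : F} (hy : y ∈ adsA q) : y ≠ 0 := by
  rintro rfl
  simp [adsA] at hy

theorem adsA_starConvex {q : F} (hq : ‖q‖ = 1) : StarConvex ℝ (-q) (adsA q) := by
  intro y hy a b ha hb hab
  have hy' : ⟪q, y⟫ < ‖y‖ := hy
  show ⟪q, a • (-q) + b • y⟫ < ‖a • (-q) + b • y‖
  have e1 : ⟪q, a • (-q) + b • y⟫ = -a + b * ⟪q, y⟫ := by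
    simp only [inner_add_right, inner_smul_right, inner_neg_right, real_inner_self_eq_norm_sq, hq]
    ring
  have e2 : ‖a • (-q) + b • y‖ ^ 2 = a ^ 2 - 2 * a * b * ⟪q, y⟫ + b ^ 2 * ‖y‖ ^ 2 := by
    rw [← real_inner_self_eq_norm_sq]
    simp only [inner_add_left, inner_add_right, inner_smul_left, inner_smul_right, inner_neg_left,
      inner_neg_right, real_inner_self_eq_norm_sq, hq, real_inner_comm q y, RCLike.conj_to_real]
    ring
  rw [e1]
  rcases lt_or_ge (-a + b * ⟪q, y⟫) 0 with h | h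
  · exact h.trans_le (norm_nonneg _)
  · have hb0 : 0 < b := by
      rcases hb.eq_or_lt with h0 | h0
      · exfalso
        rw [← h0] at h hab
        linarith
      · exact h0
    have ht : 0 ≤ ⟪q, y⟫ := by
      by_contra hneg
      push Not at hneg
      nlinarith
    refine lt_of_pow_lt_pow_left₀ 2 (norm_nonneg _) ?_
    rw [e2]
    have : ⟪q, y⟫ ^ 2 < ‖y‖ ^ 2 := pow_lt_pow_left₀ hy' ht (by norm_num)
    nlinarith [mul_pos hb0 hb0]

theorem ads_lift_piece {q : F} (hq : ‖q‖ = 1) {P : F → H →L[ℝ] H} (hP : ContinuousOn P {0}ᶜ)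
    (hr : ∀ y, y ≠ 0 → ∃ v : H, ‖v‖ = 1 ∧ P y = adsQ v) :
    ∃ e : F → H, ContinuousOn e (adsA q) ∧ ∀ y ∈ adsA q, ‖e y‖ = 1 ∧ P y = adsQ (e y) := by
  classical
  have hne : (adsA q).Nonempty := ⟨-q, by
    show ⟪q, -q⟫ < ‖-q‖
    rw [inner_neg_right, real_inner_self_eq_norm_sq, norm_neg, hq]
    norm_num⟩
  have : ContractibleSpace (adsA q) := (adsA_starConvex hq).contractibleSpace hne
  have : LocallyPathConnectedSpace (adsA q) := (adsA_isOpen q).locallyPathConnectedSpace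
  obtain ⟨e, he, h⟩ := ads_lift (A := adsA q) (P := fun a => P a)
    (hP.comp_continuous continuous_subtype_val fun a => adsA_ne_zero a.2)
    (fun a => hr a (adsA_ne_zero a.2))
  refine ⟨fun y => if h : y ∈ adsA q then e ⟨y, h⟩ else 0, ?_, fun y hy => ?_⟩
  · rw [continuousOn_iff_continuous_domRestrict]
    convert he using 1
    funext a
    simp [Set.domRestrict, a.2]
  · simp only [hy, dif_pos]
    exact h ⟨y, hy⟩

theorem adsA_inter {q : F} (hq : ‖q‖ = 1) :
    adsA q ∩ adsA (-q) = ((ℝ ∙ q : Submodule ℝ F) : Set F)ᶜ := by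
  ext y
  constructor
  · rintro ⟨h1, h2⟩ hy
    obtain ⟨c, rfl⟩ := Submodule.mem_span_singleton.1 hy
    have h1' : ⟪q, c • q⟫ < ‖c • q‖ := h1
    have h2' : ⟪-q, c • q⟫ < ‖c • q‖ := h2
    rw [inner_smul_right, real_inner_self_eq_norm_sq, norm_smul, hq, Real.norm_eq_abs] at h1'
    rw [inner_neg_left, inner_smul_right, real_inner_self_eq_norm_sq, norm_smul, hq,
      Real.norm_eq_abs] at h2'
    rcases abs_cases c with ⟨h, -⟩ | ⟨h, -⟩ <;> rw [h] at h1' h2' <;> linarith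
  · intro hy
    have key : ∀ p : F, ‖p‖ = 1 → (ℝ ∙ p : Submodule ℝ F) = ℝ ∙ q → y ∈ adsA p := by
      intro p hp hpq
      show ⟪p, y⟫ < ‖y‖
      refine lt_of_le_of_ne (by simpa [hp] using real_inner_le_norm p y) fun heq => hy ?_
      have h3 : ⟪p, y⟫ = ‖p‖ * ‖y‖ := by rw [hp, one_mul, heq]
      rw [inner_eq_norm_mul_iff_real, hp, one_smul] at h3
      rw [SetLike.mem_coe, ← hpq, ← h3]
      exact Submodule.smul_mem _ _ (Submodule.mem_span_singleton_self p)
    exact ⟨key q hq rfl, key (-q) (by rw [norm_neg, hq]) (by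
      rw [← Set.neg_singleton, Submodule.span_neg])⟩

/-- **line fields on `F \ {0}`**, `dim F ≥ 3`, have continuous unit sections. -/
theorem ads_lift_punctured [FiniteDimensional ℝ F] (hF : 2 < Module.finrank ℝ F)
    {P : F → H →L[ℝ] H} (hP : ContinuousOn P {0}ᶜ)
    (hr : ∀ y, y ≠ 0 → ∃ v : H, ‖v‖ = 1 ∧ P y = adsQ v) :
    ∃ e : F → H, ContinuousOn e {0}ᶜ ∧ ∀ y, y ≠ 0 → ‖e y‖ = 1 ∧ P y = adsQ (e y) := by
  classical
  have : Nontrivial F := Module.nontrivial_of_finrank_pos (R := ℝ) (by omega)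
  obtain ⟨q, hq⟩ := exists_norm_eq F (zero_le_one' ℝ)
  have hq' : ‖-q‖ = 1 := by rw [norm_neg, hq]
  obtain ⟨e₀, he₀, h₀⟩ := ads_lift_piece hq hP hr
  obtain ⟨e₁, he₁, h₁⟩ := ads_lift_piece hq' hP hr
  have hconn : IsPreconnected (adsA q ∩ adsA (-q)) := by
    rw [adsA_inter hq]
    refine (isConnected_compl_of_one_lt_codim ?_).isPreconnected
    have h1 := Submodule.finrank_quotient_add_finrank (ℝ ∙ q : Submodule ℝ F)
    have hq0 : q ≠ 0 := by
      rintro rfl
      simp at hq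
    rw [finrank_span_singleton hq0] at h1
    rw [← Module.finrank_eq_rank]
    exact_mod_cast (by omega : 1 < Module.finrank ℝ (F ⧸ (ℝ ∙ q : Submodule ℝ F)))
  have hpm : ∀ y ∈ adsA q ∩ adsA (-q), e₀ y = e₁ y ∨ e₀ y = -e₁ y := fun y hy =>
    (adsQ_eq_iff (h₀ y hy.1).1 (h₁ y hy.2).1).1 ((h₀ y hy.1).2.symm.trans (h₁ y hy.2).2)
  obtain ⟨c, hc, hce⟩ : ∃ c : ℝ, (c = 1 ∨ c = -1) ∧ ∀ y ∈ adsA q ∩ adsA (-q), e₀ y = c • e₁ y := by
    have hval : ∀ y ∈ adsA q ∩ adsA (-q), ⟪e₀ y, e₁ y⟫ = 1 ∨ ⟪e₀ y, e₁ y⟫ = -1 := by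
      intro y hy
      rcases hpm y hy with h | h
      · left
        rw [h, real_inner_self_eq_norm_sq, (h₁ y hy.2).1, one_pow]
      · right
        rw [h, inner_neg_left, real_inner_self_eq_norm_sq, (h₁ y hy.2).1, one_pow]
    rcases ads_const_of_sq_one hconn
      ((he₀.mono inter_subset_left).inner (he₁.mono inter_subset_right)) hval with h | h
    · refine ⟨1, Or.inl rfl, fun y hy => ?_⟩
      rcases hpm y hy with h' | h'
      · rw [h', one_smul]
      · exfalso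
        have := h y hy
        rw [h', inner_neg_left, real_inner_self_eq_norm_sq, (h₁ y hy.2).1] at this
        norm_num at this
    · refine ⟨-1, Or.inr rfl, fun y hy => ?_⟩
      rcases hpm y hy with h' | h'
      · exfalso
        have := h y hy
        rw [h', real_inner_self_eq_norm_sq, (h₁ y hy.2).1] at this
        norm_num at this
      · rw [h', neg_one_smul]
  have hcover : ∀ y : F, y ≠ 0 → y ∈ adsA q ∨ y ∈ adsA (-q) := by
    intro y hy
    by_contra hcon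
    push Not at hcon
    have h1 : ¬ ⟪q, y⟫ < ‖y‖ := hcon.1
    have h2 : ¬ ⟪-q, y⟫ < ‖y‖ := hcon.2
    rw [inner_neg_left] at h2
    have := norm_pos_iff.2 hy
    linarith
  have hE₁ : ∀ y ∈ adsA (-q), (if y ∈ adsA q then e₀ y else c • e₁ y) = c • e₁ y := by
    intro y hy
    split_ifs with h
    · exact hce y ⟨h, hy⟩
    · rfl
  refine ⟨fun y => if y ∈ adsA q then e₀ y else c • e₁ y, fun y hy => ?_, fun y hy => ?_⟩
  · refine ContinuousAt.continuousWithinAt ?_
    rcases hcover y hy with h | h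
    · refine (he₀.continuousAt ((adsA_isOpen q).mem_nhds h)).congr ?_
      filter_upwards [(adsA_isOpen q).mem_nhds h] with z hz
      rw [if_pos hz]
    · refine ((he₁.continuousAt ((adsA_isOpen (-q)).mem_nhds h)).const_smul c).congr ?_
      filter_upwards [(adsA_isOpen (-q)).mem_nhds h] with z hz
      exact (hE₁ z hz).symm
  · rcases hcover y hy with h | h
    · simp only [if_pos h]
      exact h₀ y h
    · simp only [hE₁ y h]
      rcases hc with rfl | rfl
      · rw [one_smul]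
        exact h₁ y h
      · rw [neg_one_smul, norm_neg, adsQ_neg]
        exact h₁ y h

end punctured

/-! ### 3. the abstract sign theorem -/

theorem ads_inner_of_adsQ_eq {H : Type*} [NormedAddCommGroup H] [InnerProductSpace ℝ H] {v w : H}
    (hv : ‖v‖ = 1) (hw : ‖w‖ = 1) (h : adsQ v = adsQ w) : ⟪v, w⟫ = 1 ∨ ⟪v, w⟫ = -1 := by
  rcases (adsQ_eq_iff hv hw).1 h with rfl | rfl
  · left
    rw [real_inner_self_eq_norm_sq, hw, one_pow]
  · right
    rw [inner_neg_left, real_inner_self_eq_norm_sq, hw, one_pow]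

section sign

variable {F : Type*} [NormedAddCommGroup F] [InnerProductSpace ℝ F]
variable {J : Type*} [Fintype J]

/-- the weights of a finite cover by sets with non empty complement: `∑ v_j ^ 2 = 1`, `v_j > 0` exactly on `U j`. -/
noncomputable def adsV (U : J → Set F) (j : J) (y : F) : ℝ :=
  infDist y (U j)ᶜ / √(∑ i, infDist y (U i)ᶜ ^ 2)

/-- the canonical unit section of the sign bundle. -/
noncomputable def adsW (U : J → Set F) (s : J → F → ℝ) (y : F) : EuclideanSpace ℝ J :=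
  WithLp.toLp 2 fun j => adsV U j y * s j y

theorem adsV_nonneg (U : J → Set F) (j : J) (y : F) : 0 ≤ adsV U j y :=
  div_nonneg infDist_nonneg (Real.sqrt_nonneg _)

theorem adsV_eq_zero {U : J → Set F} {j : J} {y : F} (hy : y ∉ U j) : adsV U j y = 0 := by
  rw [adsV, infDist_zero_of_mem (show y ∈ (U j)ᶜ from hy), zero_div]

theorem adsV_sum_pos {U : J → Set F} (hU : ∀ j, IsOpen (U j)) (h0 : ∀ j, (0 : F) ∉ U j)
    {y : F} (hy : ∃ j, y ∈ U j) : 0 < ∑ i, infDist y (U i)ᶜ ^ 2 := by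
  obtain ⟨j, hj⟩ := hy
  have h1 : 0 < infDist y (U j)ᶜ :=
    ((hU j).isClosed_compl.notMem_iff_infDist_pos ⟨0, h0 j⟩).1 (fun h => h hj)
  exact Finset.sum_pos' (fun i _ => sq_nonneg _) ⟨j, Finset.mem_univ _, pow_pos h1 2⟩

theorem adsV_continuousAt {U : J → Set F} (hU : ∀ j, IsOpen (U j)) (h0 : ∀ j, (0 : F) ∉ U j)
    {y : F} (hy : ∃ j, y ∈ U j) (j : J) : ContinuousAt (adsV U j) y := by
  have hc : ∀ i, Continuous fun y : F => infDist y (U i)ᶜ := fun i => continuous_infDist_pt _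
  refine (hc j).continuousAt.div (Continuous.continuousAt ?_) ?_
  · exact Real.continuous_sqrt.comp (continuous_finsetSum _ fun i _ => (hc i).pow 2)
  · exact (Real.sqrt_pos.2 (adsV_sum_pos hU h0 hy)).ne'

theorem adsV_sq_sum {U : J → Set F} (hU : ∀ j, IsOpen (U j)) (h0 : ∀ j, (0 : F) ∉ U j)
    {y : F} (hy : ∃ j, y ∈ U j) : ∑ j, adsV U j y ^ 2 = 1 := by
  have hp := adsV_sum_pos hU h0 hy
  simp only [adsV, div_pow, Real.sq_sqrt hp.le]
  rw [← Finset.sum_div, div_self hp.ne']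

theorem adsW_norm {U : J → Set F} (hU : ∀ j, IsOpen (U j)) (h0 : ∀ j, (0 : F) ∉ U j)
    {s : J → F → ℝ} {y : F} (hy : ∃ j, y ∈ U j) (h1 : ∀ j, y ∈ U j → s j y = 1 ∨ s j y = -1) :
    ‖adsW U s y‖ = 1 := by
  have : ‖adsW U s y‖ ^ 2 = 1 := by
    rw [EuclideanSpace.real_norm_sq_eq, ← adsV_sq_sum hU h0 hy]
    refine Finset.sum_congr rfl fun j _ => ?_
    show (adsV U j y * s j y) ^ 2 = _
    by_cases hj : y ∈ U j
    · rcases h1 j hj with h | h <;> rw [h] <;> ring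
    · rw [adsV_eq_zero hj]
      ring
  nlinarith [norm_nonneg (adsW U s y)]

theorem ads_gauge_tendsto {Z : Set F} (hd : ∀ y, y ≠ 0 → y ∈ closure (Z ∪ {0})ᶜ)
    {U : J → Set F} (hU : ∀ j, IsOpen (U j)) (h0 : ∀ j, (0 : F) ∉ U j)
    {s : J → F → ℝ} (h1 : ∀ j, ∀ y ∈ U j, y ∉ Z → s j y = 1 ∨ s j y = -1)
    (hK : ∀ i j, ∀ y ∈ U i, y ∈ U j → ∃ ε : ℝ, ∀ᶠ z in 𝓝[(Z ∪ {0})ᶜ] y, s i z * s j z = ε)
    {j : J} {y : F} (hy : y ∈ U j) :
    ∃ w : EuclideanSpace ℝ J, ‖w‖ = 1 ∧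
      Tendsto (fun z => s j z • adsW U s z) (𝓝[(Z ∪ {0})ᶜ] y) (𝓝 w) := by
  have hy0 : y ≠ 0 := fun h => h0 j (h ▸ hy)
  have hev : ∀ᶠ z in 𝓝[(Z ∪ {0})ᶜ] y, z ∈ U j ∧ z ∉ Z := by
    filter_upwards [self_mem_nhdsWithin, mem_nhdsWithin_of_mem_nhds ((hU j).mem_nhds hy)]
      with z hzG hzU
    exact ⟨hzU, fun h => hzG (Or.inl h)⟩
  have hc : ∀ i, ∃ c : ℝ, Tendsto (fun z => s j z * (adsV U i z * s i z)) (𝓝[(Z ∪ {0})ᶜ] y) (𝓝 c) := by
    intro i
    have hv : Tendsto (adsV U i) (𝓝[(Z ∪ {0})ᶜ] y) (𝓝 (adsV U i y)) :=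
      (adsV_continuousAt hU h0 ⟨j, hy⟩ i).tendsto.mono_left nhdsWithin_le_nhds
    by_cases hi : y ∈ U i
    · obtain ⟨ε, hε⟩ := hK i j y hi hy
      refine ⟨adsV U i y * ε, (hv.mul_const ε).congr' ?_⟩
      filter_upwards [hε] with z hz
      rw [← hz]
      ring
    · refine ⟨0, squeeze_zero_norm' ?_ (by simpa [adsV_eq_zero hi] using hv)⟩
      filter_upwards [hev] with z hz
      have e1 : |s j z| = 1 := by
        rcases h1 j z hz.1 hz.2 with h | h <;> rw [h] <;> simp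
      rw [Real.norm_eq_abs, abs_mul, e1, one_mul, abs_mul, abs_of_nonneg (adsV_nonneg U i z)]
      by_cases hzi : z ∈ U i
      · have e2 : |s i z| = 1 := by
          rcases h1 i z hzi hz.2 with h | h <;> rw [h] <;> simp
        rw [e2, mul_one]
      · rw [adsV_eq_zero hzi, zero_mul]
  choose c hc using hc
  have hw : Tendsto (fun z => s j z • adsW U s z) (𝓝[(Z ∪ {0})ᶜ] y) (𝓝 (WithLp.toLp 2 c)) :=
    ((PiLp.continuous_toLp 2 _).tendsto c).comp (tendsto_pi_nhds.2 hc)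
  refine ⟨_, ?_, hw⟩
  have : NeBot (𝓝[(Z ∪ {0})ᶜ] y) := mem_closure_iff_nhdsWithin_neBot.1 (hd y hy0)
  refine tendsto_nhds_unique hw.norm (tendsto_const_nhds.congr' ?_)
  filter_upwards [hev] with z hz
  have e1 : |s j z| = 1 := by
    rcases h1 j z hz.1 hz.2 with h | h <;> rw [h] <;> simp
  rw [norm_smul, Real.norm_eq_abs, e1, one_mul,
    adsW_norm hU h0 ⟨j, hz.1⟩ fun i hi => h1 i z hi hz.2]

/-- **the abstract sign theorem.**  `Z` relatively closed with dense complement in `F \ {0}`, `dim F ≥ 3`; a finite cover of `F \ {0}` by sets `U j` carrying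
sign functions `s j` off `Z`, any two of which have a locally constant ratio (ACROSS `Z` too).   Then there is ONE sign function `τ` off `Z` with a locally constant ratio to all of them. -/
theorem ads_sign [FiniteDimensional ℝ F] (hF : 2 < Module.finrank ℝ F) {Z : Set F}
    (hd : ∀ y, y ≠ 0 → y ∈ closure (Z ∪ {0})ᶜ)
    {U : J → Set F} (hU : ∀ j, IsOpen (U j)) (h0 : ∀ j, (0 : F) ∉ U j)
    (hcov : ∀ y, y ≠ 0 → ∃ j, y ∈ U j)
    {s : J → F → ℝ} (h1 : ∀ j, ∀ y ∈ U j, y ∉ Z → s j y = 1 ∨ s j y = -1)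
    (hK : ∀ i j, ∀ y ∈ U i, y ∈ U j → ∃ ε : ℝ, ∀ᶠ z in 𝓝[(Z ∪ {0})ᶜ] y, s i z * s j z = ε) :
    ∃ τ : F → ℝ, (∀ y ∈ (Z ∪ {0})ᶜ, τ y = 1 ∨ τ y = -1) ∧
      ∀ j, ∀ y ∈ U j, ∃ δ : ℝ, (δ = 1 ∨ δ = -1) ∧
        ∀ᶠ z in 𝓝[(Z ∪ {0})ᶜ] y, τ z = δ * s j z := by
  classical
  have hB := fun (j : J) (y : F) (hy : y ∈ U j) => ads_gauge_tendsto hd hU h0 h1 hK hy
  have hQ : ∀ j, ∀ y ∈ U j, ∀ w, Tendsto (fun z => s j z • adsW U s z) (𝓝[(Z ∪ {0})ᶜ] y) (𝓝 w) →
      Tendsto (fun z => adsQ (adsW U s z)) (𝓝[(Z ∪ {0})ᶜ] y) (𝓝 (adsQ w)) := by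
    intro j y hy w hw
    refine ((adsQ_continuous.tendsto w).comp hw).congr' ?_
    filter_upwards [self_mem_nhdsWithin, mem_nhdsWithin_of_mem_nhds ((hU j).mem_nhds hy)]
      with z hzG hzU
    rcases h1 j z hzU (fun h => hzG (Or.inl h)) with h | h <;> simp [h, adsQ_neg]
  obtain ⟨P, hPdef⟩ : ∃ P, P = extendFrom (Z ∪ {0})ᶜ (fun z => adsQ (adsW U s z)) := ⟨_, rfl⟩
  have hPc : ContinuousOn P {0}ᶜ := by
    rw [hPdef]
    refine continuousOn_extendFrom (fun y hy => hd y hy) fun y hy => ?_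
    obtain ⟨j, hj⟩ := hcov y hy
    obtain ⟨w, -, hw⟩ := hB j y hj
    exact ⟨_, hQ j y hj w hw⟩
  have hPeq : ∀ j, ∀ y ∈ U j, ∀ w,
      Tendsto (fun z => s j z • adsW U s z) (𝓝[(Z ∪ {0})ᶜ] y) (𝓝 w) → P y = adsQ w := by
    intro j y hy w hw
    rw [hPdef]
    exact extendFrom_eq (hd y fun h => h0 j (h ▸ hy)) (hQ j y hy w hw)
  obtain ⟨e, hec, he⟩ := ads_lift_punctured hF hPc (fun y hy => by
    obtain ⟨j, hj⟩ := hcov y hy
    obtain ⟨w, hw1, hw⟩ := hB j y hj
    exact ⟨w, hw1, hPeq j y hj w hw⟩)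
  have hτ : ∀ y ∈ (Z ∪ {0})ᶜ, ⟪e y, adsW U s y⟫ = 1 ∨ ⟪e y, adsW U s y⟫ = -1 := by
    intro y hy
    have hy0 : y ≠ 0 := fun h => hy (Or.inr h)
    have hyZ : y ∉ Z := fun h => hy (Or.inl h)
    obtain ⟨j, hj⟩ := hcov y hy0
    obtain ⟨w, hw1, hw⟩ := hB j y hj
    have hwy : w = s j y • adsW U s y :=
      tendsto_nhds_unique (hw.mono_left (pure_le_nhdsWithin hy)) (tendsto_pure_nhds _ y)
    have hPy : P y = adsQ (adsW U s y) := by
      rw [hPeq j y hj w hw, hwy]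
      rcases h1 j y hj hyZ with h | h <;> simp [h, adsQ_neg]
    exact ads_inner_of_adsQ_eq (he y hy0).1 (adsW_norm hU h0 ⟨j, hj⟩ fun i hi => h1 i y hi hyZ)
      ((he y hy0).2.symm.trans hPy)
  refine ⟨fun y => ⟪e y, adsW U s y⟫, hτ, fun j y hy => ?_⟩
  have hy0 : y ≠ 0 := fun h => h0 j (h ▸ hy)
  obtain ⟨w, hw1, hw⟩ := hB j y hy
  have hδ := ads_inner_of_adsQ_eq (he y hy0).1 hw1 ((he y hy0).2.symm.trans (hPeq j y hy w hw))
  refine ⟨⟪e y, w⟫, hδ, ?_⟩
  have ht : Tendsto (fun z => ⟪e z, s j z • adsW U s z⟫) (𝓝[(Z ∪ {0})ᶜ] y) (𝓝 ⟪e y, w⟫) :=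
    ((hec.continuousAt (isOpen_compl_singleton.mem_nhds hy0)).tendsto.mono_left
      nhdsWithin_le_nhds).inner hw
  filter_upwards [ht.eventually (ball_mem_nhds _ one_pos), self_mem_nhdsWithin,
    mem_nhdsWithin_of_mem_nhds ((hU j).mem_nhds hy)] with z hz hzG hzU
  rw [Real.dist_eq, inner_smul_right] at hz
  have a1 := h1 j z hzU (fun h => hzG (Or.inl h))
  have a2 := hτ z hzG
  rw [abs_lt] at hz
  rcases a1 with a1 | a1 <;> rcases a2 with a2 | a2 <;> rcases hδ with a3 | a3 <;>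
    rw [a1, a2, a3] at hz <;> simp only [a1, a2, a3] <;> first | (exfalso; linarith [hz.1, hz.2]) | norm_num

end sign

end Claimed.Agent.R323
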