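import Claimed.Agent.R323.Ad.VarAt

/-!
# Row 323, block A, package A1+A2 (helper229): THE AREA FORMULA WITH MULTIPLICITY over the atlas of pieces.

PLAN of `ad_va_area`.  `t i := s i ∩ (G ∘ e i) ⁻¹' B` is measurable (`G ∘ e i` is continuous on the measurable set `s i`).    For every `y`:
`B.indicator (fun y => (G ⁻¹' {y}).encard) y = ∑ i, fibSum (t i) (G ∘ e i) 1 y`:    `(G ⁻¹' {y}).encard = fibSum univ G 1 y` (`ENNReal.tsum_set_one`), `univ = ⋃ i, e i '' s i` (`cover`), `fibSum_iUnion` (`disj`; `tsum_fintype`),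
`fibSum_image` (`inj`), and `fibSum (t i) .. y = fibSum (s i) .. y` if `y ∈ B`, `= 0` if not.
Then `lintegral_finset_sum'` (`aemeasurable_fibSum`) and `lintegral_fibSum` with `w = 1`.
-/

set_option autoImplicit false
open scoped Manifold ContDiff ENNReal NNReal RealInnerProductSpace Topology Function
open MeasureTheory Metric Set Filter

namespace Claimed.Agent.R323

open Claimed.Agent.R322 (E)
open Claimed.Agent.R322.Base.Area (nd projR fibSum)

variable {m : ℕ} {M : Type*} [TopologicalSpace M] [ChartedSpace (E m) M]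

/-- L-AD-AREA. -/
theorem ad_va_area {n : ℕ} {e : Fin n → E m → M} {U C s : Fin n → Set (E m)}
    (hA : AdAt m M n e U C s) {N : ℕ} (G : M → E N) (G' : Fin n → E m → E m →L[ℝ] E N)
    (hG : ∀ i, ∀ u ∈ s i, HasFDerivWithinAt (G ∘ e i) (G' i u) (s i) u)
    (B : Set (E N)) (hB : MeasurableSet B) :
    (∀ i, MeasurableSet (s i ∩ (G ∘ e i) ⁻¹' B)) ∧
    ∫⁻ y in B, ((G ⁻¹' {y}).encard : ℝ≥0∞) ∂μH[(m : ℝ)] =
      ∑ i, ∫⁻ u in s i ∩ (G ∘ e i) ⁻¹' B, ENNReal.ofReal (nd (G' i u)) ∂μH[(m : ℝ)] := by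
  have hsub : ∀ i, s i ⊆ U i := fun i => (hA.sC i).trans (hA.CU i)
  have hcont : ∀ i, ContinuousOn (G ∘ e i) (s i) := fun i u hu => (hG i u hu).continuousWithinAt
  have ht : ∀ i, MeasurableSet (s i ∩ (G ∘ e i) ⁻¹' B) := by
    intro i
    have h1 : Measurable ((s i).restrict (G ∘ e i)) := (continuousOn_iff_continuous_restrict.1 (hcont i)).measurable
    have h2 : s i ∩ (G ∘ e i) ⁻¹' B = Subtype.val '' ((s i).restrict (G ∘ e i) ⁻¹' B) := by
      ext u
      constructor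
      · rintro ⟨hu, hB'⟩
        exact ⟨⟨u, hu⟩, hB', rfl⟩
      · rintro ⟨⟨v, hv⟩, hB', rfl⟩
        exact ⟨hv, hB'⟩
    rw [h2]
    exact (hA.meas i).subtype_image (h1 hB)
  refine ⟨ht, ?_⟩
  have hd : ∀ i, ∀ u ∈ s i ∩ (G ∘ e i) ⁻¹' B,
      HasFDerivWithinAt (G ∘ e i) (G' i u) (s i ∩ (G ∘ e i) ⁻¹' B) u :=
    fun i u hu => (hG i u hu.1).mono inter_subset_left
  have key : ∀ y, B.indicator (fun y => ((G ⁻¹' {y}).encard : ℝ≥0∞)) y
      = ∑ i, fibSum (s i ∩ (G ∘ e i) ⁻¹' B) (G ∘ e i) 1 y := by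
    intro y
    by_cases hy : y ∈ B
    · rw [indicator_of_mem hy]
      have h1 : ((G ⁻¹' {y}).encard : ℝ≥0∞) = fibSum univ G 1 y := by
        have h2 : G ⁻¹' {y} = {x | x ∈ (univ : Set M) ∧ G x = y} := by
          ext x
          simp
        rw [h2, ← ENNReal.tsum_set_one]
        rfl
      rw [h1, ← hA.cover, Claimed.Agent.R322.Base.Area.fibSum_iUnion _ hA.disj, tsum_fintype]
      refine Finset.sum_congr rfl fun i _ => ?_
      rw [Claimed.Agent.R322.Base.Area.fibSum_image (e i) (s i) ((hA.inj i).mono (hsub i))]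
      refine Claimed.Agent.R322.Base.Area.fibSum_eq_of_notMem_image inter_subset_left _ _ ?_
      rintro ⟨u, ⟨hu, hu'⟩, rfl⟩
      exact hu' ⟨hu, hy⟩
    · rw [indicator_of_notMem hy]
      symm
      refine Finset.sum_eq_zero fun i _ => Claimed.Agent.R322.Base.Area.fibSum_of_notMem_image _ ?_
      rintro ⟨u, ⟨_, hu'⟩, rfl⟩
      exact hy hu'
  rw [← lintegral_indicator hB, lintegral_congr key,
    lintegral_finset_sum' _ fun i _ => Claimed.Agent.R322.Base.Area.aemeasurable_fibSum (ht i) (hd i) 1 measurable_one]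
  refine Finset.sum_congr rfl fun i _ => ?_
  rw [Claimed.Agent.R322.Base.Area.lintegral_fibSum (ht i) (hd i) 1 measurable_one]
  simp only [Pi.one_apply, mul_one]

end Claimed.Agent.R323
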