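import Mathlib

/-!
# Row 323, block A, package A1+A2 (helper229): DIFFERENTIATION UNDER THE INTEGRAL SIGN, compact parameter form.      Mathlib only.

`J` is `C¹` on an open set `W ⊆ ℝ × Z`; `z : α → Z` is continuous on the measurable set `Q` of finite measure, with values in a compact `C`, `{0} × C ⊆ W`.
Then `t ↦ ∫_Q J(t, z u) dμ` is differentiable at `0`, with derivative `∫_Q ∂_t J(0, z u) dμ`.

PLAN.  `generalized_tube_lemma` (`isCompact_singleton`, `hC`): open `T ∋ 0`, `V ⊇ C` with `T ×ˢ V ⊆ W`; `δ > 0` with `closedBall 0 δ ⊆ T`.   `fderiv ℝ J` is continuous on `W` (`hJ.continuousOn_fderiv_of_isOpen hW le_rfl`),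
hence bounded by some `b` on the compact `closedBall 0 δ ×ˢ C`.   `hasDerivAt_integral_of_dominated_loc_of_deriv_le` with `s = ball 0 δ`, `F' t u = fderiv ℝ J (t, z u) (1, 0)`, `bound = b`, measure `μ.restrict Q`:
measurability from `ContinuousOn.aestronglyMeasurable` (compositions are continuous on `Q`), integrability: bounded on a set of finite measure.   Finally `J' u = fderiv ℝ J (0, z u) (1,0)` on `Q` by `HasDerivAt.unique`.
-/

set_option autoImplicit false
open scoped ContDiff ENNReal Topology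
open MeasureTheory Metric Set Filter

namespace Claimed.Agent.R323

/-- L-AD-DUI. -/
theorem ad_vd_dui {α : Type*} [TopologicalSpace α] [MeasurableSpace α] [OpensMeasurableSpace α]
    [SecondCountableTopology α] {μ : Measure α} {Z : Type*} [NormedAddCommGroup Z] [NormedSpace ℝ Z]
    {W : Set (ℝ × Z)} (hW : IsOpen W) {J : ℝ × Z → ℝ} (hJ : ContDiffOn ℝ 1 J W)
    {Q : Set α} (hQ : MeasurableSet Q) (hμ : μ Q ≠ ⊤) {z : α → Z} (hz : ContinuousOn z Q)
    {C : Set Z} (hC : IsCompact C) (hzC : MapsTo z Q C) (hCW : ∀ c ∈ C, ((0 : ℝ), c) ∈ W)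
    {J' : α → ℝ} (hJ' : ∀ u ∈ Q, HasDerivAt (fun t => J (t, z u)) (J' u) 0) :
    (∀ᶠ t in 𝓝 (0 : ℝ), IntegrableOn (fun u => J (t, z u)) Q μ) ∧
      IntegrableOn J' Q μ ∧
      HasDerivAt (fun t => ∫ u in Q, J (t, z u) ∂μ) (∫ u in Q, J' u ∂μ) 0 := by
  -- the tube
  obtain ⟨T, V, hT, -, h0T, hCV, hTV⟩ := generalized_tube_lemma (isCompact_singleton (x := (0 : ℝ))) hC hW
    (by
      rintro ⟨t, c⟩ ⟨ht, hc⟩
      have ht' : t = 0 := ht
      rw [ht']
      exact hCW c hc)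
  obtain ⟨ε, hε, hεT⟩ := Metric.isOpen_iff.1 hT 0 (h0T rfl)
  set δ : ℝ := ε / 2 with hδ
  have hδ0 : 0 < δ := by positivity
  have hδT : closedBall (0 : ℝ) δ ⊆ T := (closedBall_subset_ball (by rw [hδ]; linarith)).trans hεT
  have hKW : closedBall (0 : ℝ) δ ×ˢ C ⊆ W := (prod_mono hδT hCV).trans hTV
  have hK : IsCompact (closedBall (0 : ℝ) δ ×ˢ C) := (isCompact_closedBall 0 δ).prod hC
  have hmem : ∀ t ∈ closedBall (0 : ℝ) δ, ∀ u ∈ Q, (t, z u) ∈ closedBall (0 : ℝ) δ ×ˢ C :=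
    fun t ht u hu => ⟨ht, hzC hu⟩
  -- bounds
  have hdc : ContinuousOn (fderiv ℝ J) W := hJ.continuousOn_fderiv_of_isOpen hW le_rfl
  obtain ⟨b, hb⟩ := hK.exists_bound_of_continuousOn (hdc.mono hKW)
  obtain ⟨b₀, hb₀⟩ := hK.exists_bound_of_continuousOn (hJ.continuousOn.mono hKW)
  -- continuity in `u`
  have hpath : ∀ t : ℝ, ContinuousOn (fun u => (t, z u)) Q := fun t => continuousOn_const.prodMk hz
  have hcJ : ∀ t ∈ closedBall (0 : ℝ) δ, ContinuousOn (fun u => J (t, z u)) Q := fun t ht =>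
    hJ.continuousOn.comp (hpath t) fun u hu => hKW (hmem t ht u hu)
  have hcD : ∀ t ∈ closedBall (0 : ℝ) δ, ContinuousOn (fun u => fderiv ℝ J (t, z u) ((1 : ℝ), (0 : Z))) Q :=
    fun t ht => (hdc.comp (hpath t) fun u hu => hKW (hmem t ht u hu)).clm_apply continuousOn_const
  have hint : ∀ t ∈ closedBall (0 : ℝ) δ, IntegrableOn (fun u => J (t, z u)) Q μ := fun t ht =>
    ⟨(hcJ t ht).aestronglyMeasurable hQ, .restrict_of_bounded (C := b₀) hμ.lt_top
      ((ae_restrict_iff' hQ).2 (ae_of_all _ fun u hu => hb₀ _ (hmem t ht u hu)))⟩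
  have hnhds : closedBall (0 : ℝ) δ ∈ 𝓝 (0 : ℝ) := closedBall_mem_nhds 0 hδ0
  have h0 : (0 : ℝ) ∈ closedBall (0 : ℝ) δ := mem_closedBall_self hδ0.le
  have hone : ‖((1 : ℝ), (0 : Z))‖ ≤ 1 := by simp [Prod.norm_def]
  have key := hasDerivAt_integral_of_dominated_loc_of_deriv_le (μ := μ.restrict Q)
    (F := fun t u => J (t, z u)) (F' := fun t u => fderiv ℝ J (t, z u) ((1 : ℝ), (0 : Z))) (x₀ := (0 : ℝ))
    (s := closedBall (0 : ℝ) δ) (bound := fun _ => b) hnhds
    (Filter.eventually_of_mem hnhds fun t ht => (hcJ t ht).aestronglyMeasurable hQ) (hint 0 h0)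
    ((hcD 0 h0).aestronglyMeasurable hQ)
    ((ae_restrict_iff' hQ).2 (ae_of_all _ fun u hu t ht => by
      refine (ContinuousLinearMap.le_opNorm _ _).trans ?_
      have h1 := hb _ (hmem t ht u hu)
      have h2 : 0 ≤ ‖fderiv ℝ J (t, z u)‖ := norm_nonneg _
      calc ‖fderiv ℝ J (t, z u)‖ * ‖((1 : ℝ), (0 : Z))‖ ≤ ‖fderiv ℝ J (t, z u)‖ * 1 :=
            mul_le_mul_of_nonneg_left hone h2
        _ ≤ b := by rw [mul_one]; exact h1))
    (by
      have : IsFiniteMeasure (μ.restrict Q) := ⟨by rw [Measure.restrict_apply_univ]; exact hμ.lt_top⟩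
      exact integrable_const b)
    ((ae_restrict_iff' hQ).2 (ae_of_all _ fun u hu t ht => by
      have hd : DifferentiableAt ℝ J (t, z u) :=
        (hJ.differentiableOn one_ne_zero).differentiableAt (hW.mem_nhds (hKW (hmem t ht u hu)))
      exact hd.hasFDerivAt.comp_hasDerivAt t ((hasDerivAt_id t).prodMk (hasDerivAt_const t (z u)))))
  have hEq : ∀ u ∈ Q, J' u = fderiv ℝ J ((0 : ℝ), z u) ((1 : ℝ), (0 : Z)) := by
    intro u hu
    have hd : DifferentiableAt ℝ J ((0 : ℝ), z u) :=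
      (hJ.differentiableOn one_ne_zero).differentiableAt (hW.mem_nhds (hKW (hmem 0 h0 u hu)))
    exact (hJ' u hu).unique
      (hd.hasFDerivAt.comp_hasDerivAt (0 : ℝ) ((hasDerivAt_id (0 : ℝ)).prodMk (hasDerivAt_const (0 : ℝ) (z u))))
  refine ⟨Filter.eventually_of_mem hnhds hint, ?_, ?_⟩
  · exact (integrableOn_congr_fun hEq hQ).2 key.1
  · rw [setIntegral_congr_fun hQ hEq]
    exact key.2

end Claimed.Agent.R323
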