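import Claimed.Agent.R323.Ad.VarTr
import Claimed.Agent.R323.Ad.VarDui

/-!
# Row 323, block A, package A1+A2 (helper229): ONE EUCLIDEAN PIECE of the varifold of an immersion.      Light file (no manifolds, no Gmt).

`AdPiece U C s f`: `f` smooth immersion of the open set `U ⊆ E m`, `s ⊆ C ⊆ U`, `C` compact, `s` Borel.
`adMu f s = nd(Df) μH[m]⌞s`, `adPhi f u = (f u, projection onto the range of Df u)`; the piece of the varifold is `(adMu f s).map (adPhi f)`.
-/

set_option autoImplicit false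
open scoped ContDiff ENNReal NNReal RealInnerProductSpace Topology
open MeasureTheory Metric Set Filter

namespace Claimed.Agent.R323

open Claimed.Agent.R322 (E IsProj tdiv)
open Claimed.Agent.R322.Base.Area (nd projR)

local notation "adj" => ContinuousLinearMap.adjoint

variable {m N : ℕ} {U C s : Set (E m)} {f : E m → E N}

/-- the lift to points × projections. -/
noncomputable def adPhi (f : E m → E N) (u : E m) : E N × (E N →L[ℝ] E N) :=
  (f u, projR (fderiv ℝ f u))

/-- the area measure of a piece, in the parameter domain. -/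
noncomputable def adMu (f : E m → E N) (s : Set (E m)) : Measure (E m) :=
  ((μH[(m : ℝ)] : Measure (E m)).restrict s).withDensity
    (fun u => ENNReal.ofReal (nd (fderiv ℝ f u)))

/-- one piece. -/
structure AdPiece (U C s : Set (E m)) (f : E m → E N) : Prop where
  open_U : IsOpen U
  cpt : IsCompact C
  CU : C ⊆ U
  sC : s ⊆ C
  meas : MeasurableSet s
  smooth : ContDiffOn ℝ ∞ f U
  imm : ∀ u ∈ U, Function.Injective (fderiv ℝ f u)

/-- `μH[m]` is a Haar measure on `E m`. -/
theorem ad_pc_haar (m : ℕ) : (μH[(m : ℝ)] : Measure (E m)).IsAddHaarMeasure := by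
  simpa using MeasureTheory.isAddHaarMeasure_hausdorffMeasure (E := EuclideanSpace ℝ (Fin m))

/-- L-AD-PC1.  `Ring.inverse` is continuous at units (`NormedRing.inverse_continuousAt`, `R322.Base.Area.isUnit_gram`). -/
theorem ad_pc_projR_continuousAt (A : E m →L[ℝ] E N) (hA : Function.Injective A) :
    ContinuousAt (projR : (E m →L[ℝ] E N) → (E N →L[ℝ] E N)) A := by
  have hadj : Continuous (fun L : E m →L[ℝ] E N => adj L) :=
    (ContinuousLinearMap.adjoint (𝕜 := ℝ) (E := E m) (F := E N)).continuous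
  have hg : Continuous (fun L : E m →L[ℝ] E N => adj L ∘L L) := hadj.clm_comp continuous_id
  have hu := Claimed.Agent.R322.Base.Area.isUnit_gram A hA
  have hi : ContinuousAt (Ring.inverse : (E m →L[ℝ] E m) → _) (adj A ∘L A) := by
    have := NormedRing.inverse_continuousAt hu.unit
    simpa using this
  have hi2 : ContinuousAt (fun L : E m →L[ℝ] E N => Ring.inverse (adj L ∘L L)) A :=
    ContinuousAt.comp (f := fun L : E m →L[ℝ] E N => adj L ∘L L) hi hg.continuousAt
  unfold projR
  exact continuousAt_id.clm_comp (hi2.clm_comp hadj.continuousAt)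

theorem ad_pc_dcont (h : AdPiece U C s f) : ContinuousOn (fderiv ℝ f) U :=
  h.smooth.continuousOn_fderiv_of_isOpen h.open_U (by simp)

theorem ad_pc_ndcont (h : AdPiece U C s f) : ContinuousOn (fun u => nd (fderiv ℝ f u)) U :=
  Claimed.Agent.R322.Base.Area.continuous_nd.comp_continuousOn (ad_pc_dcont h)

theorem ad_pc_dens_meas (f : E m → E N) :
    Measurable (fun u => ENNReal.ofReal (nd (fderiv ℝ f u))) :=
  ENNReal.measurable_ofReal.comp
    (Claimed.Agent.R322.Base.Area.continuous_nd.measurable.comp (measurable_fderiv ℝ f))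

theorem ad_pc_mu_fin (h : AdPiece U C s f) : (μH[(m : ℝ)] : Measure (E m)) C < ⊤ := by
  have hH := ad_pc_haar m
  exact h.cpt.measure_lt_top

theorem ad_pc_cont (h : AdPiece U C s f) : ContinuousOn (adPhi f) U := by
  refine h.smooth.continuousOn.prodMk fun u hu => ?_
  exact (ad_pc_projR_continuousAt _ (h.imm u hu)).comp_continuousWithinAt (ad_pc_dcont h u hu)

theorem ad_pc_aemeas (h : AdPiece U C s f) : AEMeasurable (adPhi f) (adMu f s) :=
  (((ad_pc_cont h).mono (h.sC.trans h.CU)).aemeasurable h.meas).mono_ac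
    (withDensity_absolutelyContinuous _ _)

theorem ad_pc_integrableOn (h : AdPiece U C s f) {g : E m → ℝ} (hg : ContinuousOn g C) :
    IntegrableOn g s μH[(m : ℝ)] := by
  have hH := ad_pc_haar m
  exact (hg.integrableOn_compact h.cpt).mono_set h.sC

theorem ad_pc_fin (h : AdPiece U C s f) : adMu f s univ < ⊤ := by
  unfold adMu
  rw [withDensity_apply _ MeasurableSet.univ, Measure.restrict_univ]
  exact (ad_pc_integrableOn h ((ad_pc_ndcont h).mono h.CU)).lintegral_lt_top

theorem ad_pc_compl (h : AdPiece U C s f) : adMu f s sᶜ = 0 := by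
  refine withDensity_absolutelyContinuous _ _ ?_
  rw [Measure.restrict_apply h.meas.compl, compl_inter_self, measure_empty]

theorem ad_pc_null (h : AdPiece U C s f) : (adMu f s).map (adPhi f) (adPhi f '' C)ᶜ = 0 := by
  have hc : IsCompact (adPhi f '' C) := h.cpt.image_of_continuousOn ((ad_pc_cont h).mono h.CU)
  rw [Measure.map_apply_of_aemeasurable (ad_pc_aemeas h) hc.isClosed.measurableSet.compl]
  have hsub : adPhi f ⁻¹' (adPhi f '' C)ᶜ ⊆ sᶜ := by
    intro u hu hus
    exact hu (mem_image_of_mem _ (h.sC hus))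
  exact measure_mono_null hsub (ad_pc_compl h)

theorem ad_pc_int (h : AdPiece U C s f) {O : Set (E N × (E N →L[ℝ] E N))} (hO : IsOpen O)
    (hCO : adPhi f '' C ⊆ O) {g : E N × (E N →L[ℝ] E N) → ℝ} (hg : ContinuousOn g O) :
    Integrable g ((adMu f s).map (adPhi f)) ∧
      ∫ q, g q ∂((adMu f s).map (adPhi f)) =
        ∫ u in s, nd (fderiv ℝ f u) * g (adPhi f u) ∂μH[(m : ℝ)] := by
  have hφ := ad_pc_aemeas h
  -- measurability of `g`
  have hnull : ((adMu f s).map (adPhi f)) Oᶜ = 0 :=
    measure_mono_null (compl_subset_compl.2 hCO) (ad_pc_null h)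
  have hres : ((adMu f s).map (adPhi f)).restrict O = (adMu f s).map (adPhi f) :=
    Measure.restrict_eq_self_of_ae_mem (by rw [ae_iff]; exact hnull)
  have hgm : AEStronglyMeasurable g ((adMu f s).map (adPhi f)) := by
    rw [← hres]
    exact hg.aestronglyMeasurable hO.measurableSet
  have hgc : ContinuousOn (fun u => g (adPhi f u)) C :=
    hg.comp ((ad_pc_cont h).mono h.CU) fun u hu => hCO (mem_image_of_mem _ hu)
  have hprod : IntegrableOn (fun u => nd (fderiv ℝ f u) * g (adPhi f u)) s μH[(m : ℝ)] :=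
    ad_pc_integrableOn h (((ad_pc_ndcont h).mono h.CU).mul hgc)
  have htr : ∀ u, (ENNReal.ofReal (nd (fderiv ℝ f u))).toReal • g (adPhi f u)
      = nd (fderiv ℝ f u) * g (adPhi f u) := fun u => by
    rw [ENNReal.toReal_ofReal (Claimed.Agent.R322.Base.Area.nd_nonneg _), smul_eq_mul]
  constructor
  · rw [integrable_map_measure hgm hφ]
    unfold adMu
    rw [integrable_withDensity_iff_integrable_smul' (ad_pc_dens_meas f)
      (Eventually.of_forall fun u => ENNReal.ofReal_lt_top)]
    simp only [Function.comp, htr]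
    exact hprod
  · rw [integral_map hφ hgm]
    unfold adMu
    rw [integral_withDensity_eq_integral_toReal_smul (ad_pc_dens_meas f)
      (Eventually.of_forall fun u => ENNReal.ofReal_lt_top)]
    simp only [htr]

theorem ad_pc_fst (h : AdPiece U C s f) {B : Set (E N)} (hB : MeasurableSet B) :
    ((adMu f s).map (adPhi f)) (Prod.fst ⁻¹' B) =
      ∫⁻ u in s ∩ f ⁻¹' B, ENNReal.ofReal (nd (fderiv ℝ f u)) ∂μH[(m : ℝ)] := by
  rw [Measure.map_apply_of_aemeasurable (ad_pc_aemeas h) (measurable_fst hB)]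
  have e1 : adPhi f ⁻¹' (Prod.fst ⁻¹' B) = f ⁻¹' B := rfl
  rw [e1]
  have hfin : IsFiniteMeasure ((μH[(m : ℝ)] : Measure (E m)).restrict s) :=
    ⟨by rw [Measure.restrict_apply MeasurableSet.univ, univ_inter]
        exact (measure_mono h.sC).trans_lt (ad_pc_mu_fin h)⟩
  unfold adMu
  rw [withDensity_apply' _ _, Measure.restrict_restrict' h.meas, inter_comm]

/-- `f ⟂ Df`. -/
theorem ad_pc_orth (h : AdPiece U C s f) (hsph : ∀ u ∈ U, ‖f u‖ = 1) {u : E m} (hu : u ∈ U)
    (v : E m) : ⟪f u, fderiv ℝ f u v⟫ = 0 := by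
  have hd : HasFDerivAt f (fderiv ℝ f u) u :=
    ((h.smooth.differentiableOn (by simp)).differentiableAt (h.open_U.mem_nhds hu)).hasFDerivAt
  have h1 := hd.inner ℝ hd
  have h2 : (fun t => ⟪f t, f t⟫) =ᶠ[𝓝 u] fun _ => (1 : ℝ) := by
    filter_upwards [h.open_U.mem_nhds hu] with t ht
    rw [real_inner_self_eq_norm_sq, hsph t ht, one_pow]
  have h3 := (h1.congr_of_eventuallyEq h2.symm).unique (hasFDerivAt_const (1 : ℝ) u)
  have h4 := congrArg (fun L : E m →L[ℝ] ℝ => L v) h3
  simp only [ContinuousLinearMap.comp_apply, ContinuousLinearMap.prod_apply,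
    fderivInnerCLM_apply, zero_apply] at h4
  rw [real_inner_comm (f u)] at h4
  linarith

/-- **first variation of one piece.** -/
theorem ad_pc_var (h : AdPiece U C s f) (hsph : ∀ u ∈ U, ‖f u‖ = 1) {ξ : E m → E N}
    (hξ : ContDiffOn ℝ ∞ ξ U) :
    (∀ᶠ t in 𝓝 (0 : ℝ), IntegrableOn
      (fun u => nd (adL t (f u) (ξ u) (fderiv ℝ f u) (fderiv ℝ ξ u))) s μH[(m : ℝ)]) ∧
    HasDerivAt (fun t => ∫ u in s, nd (adL t (f u) (ξ u) (fderiv ℝ f u) (fderiv ℝ ξ u)) ∂μH[(m : ℝ)])
      (∫ u in s, nd (fderiv ℝ f u) * (adTr (Ring.inverse (adj (fderiv ℝ f u) ∘L fderiv ℝ f u) ∘L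
        adj (fderiv ℝ f u) ∘L fderiv ℝ ξ u) - m * ⟪ξ u, f u⟫) ∂μH[(m : ℝ)]) 0 := by
  have hH := ad_pc_haar m
  set z : E m → AdPar m N := fun u => (f u, ξ u, fderiv ℝ f u, fderiv ℝ ξ u) with hz
  have hzc : ContinuousOn z U := by
    refine h.smooth.continuousOn.prodMk (hξ.continuousOn.prodMk ?_)
    exact (h.smooth.continuousOn_fderiv_of_isOpen h.open_U (by simp)).prodMk
      (hξ.continuousOn_fderiv_of_isOpen h.open_U (by simp))
  have hfin : (μH[(m : ℝ)] : Measure (E m)) s ≠ ⊤ :=
    ((measure_mono h.sC).trans_lt h.cpt.measure_lt_top).ne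
  have hmem : ∀ c ∈ z '' C, ((0 : ℝ), c) ∈ adW m N := by
    rintro _ ⟨u, hu, rfl⟩
    have huU := h.CU hu
    refine ⟨?_, ?_⟩
    · simp only [hz, zero_smul, add_zero]
      intro h0
      have := hsph u huU
      rw [h0, norm_zero] at this
      exact zero_ne_one this
    · simp only [hz]
      rw [ad_vl_adL_zero (hsph u huU) (ad_pc_orth h hsph huU)]
      exact h.imm u huU
  have key := ad_vd_dui (μ := (μH[(m : ℝ)] : Measure (E m))) (ad_vl_isOpen (m := m) (N := N))
    ad_vl_contDiffOn h.meas hfin (hzc.mono (h.sC.trans h.CU)) (h.cpt.image_of_continuousOn (hzc.mono h.CU))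
    (fun u hu => mem_image_of_mem z (h.sC hu)) hmem
    (J' := fun u => nd (fderiv ℝ f u) * (adTr (Ring.inverse (adj (fderiv ℝ f u) ∘L fderiv ℝ f u) ∘L
        adj (fderiv ℝ f u) ∘L fderiv ℝ ξ u) - m * ⟪ξ u, f u⟫))
    (fun u hu => by
      have huU := h.CU (h.sC hu)
      exact ad_vl_deriv (hsph u huU) (h.imm u huU) (ad_pc_orth h hsph huU))
  exact ⟨key.1, key.2.2⟩

end Claimed.Agent.R323
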