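import Claimed.Agent.R323.Ad.Defs
import Claimed.Agent.R323.Ad.VarPc
import Claimed.Agent.R323.Ad.VarArea

/-!
# Row 323, block A, package A1+A2 (owner: helper229): the varifold of the immersion and its first variation.      Contract by helper195.

EXITS: `ad_chart` (local sheets; used by `Ad/Mult`, `Ad/Loc`), `ad_var_exists`.

PLAN.  (a) ATLAS.  `M` compact: finitely many points `x_i`, compact `K_i ⊆ (chartAt x_i).source` whose interiors cover `M`; `P_i = K_i \ ⋃_{l<i} K_l`; `e_i = (chartAt x_i).symm`,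
`U_i = (chartAt x_i).target` (open), `s_i = chartAt x_i '' P_i` (difference of compact sets: measurable, contained in the compact `chartAt x_i '' K_i ⊆ U_i`).   Every `x` is `e_i u` for exactly one `(i, u ∈ s_i)`.
For smooth `G : M → E N`: `G ∘ e_i` is smooth on `U_i`.
(b) AREA.  `(G ⁻¹' {y}).encard = ∑_i fibSum (s_i) (G ∘ e_i) 1 y`, hence by `R322.Base.Area.lintegral_fibSum` (weight `w`):
`∫⁻ y, ∑_{x ∈ G⁻¹ y} w x ∂μH[m] = ∑_i ∫⁻ u in s_i, ofReal (nd (fderiv (G ∘ e_i) u)) * w (e_i u) ∂μH[m]`.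
(c) `𝒱 := ∑_i map (fun u => (f_i u, projR (fderiv f_i u))) ((μH[m].restrict s_i).withDensity (ofReal (nd (fderiv f_i u))))`, `f_i = F ∘ e_i`.   `fin`: `nd ∘ fderiv f_i` is bounded on the compact;
`fst`: (b) with `w = 1_{F⁻¹ B}`;  `tan`: `fderiv f_i u = mfderiv F (e_i u) ∘ (invertible)`, `projR (A ∘ T) = projR A` for invertible `T`.
(d) FIRST VARIATION.  `X = W ∘ F`, `G_t = sphereVariation F X t`, `g(t,u) = G_t (e_i u) = (f + t X)/|f + t X|` is jointly smooth near `{0} × K_i`; `Φ(t,u) = nd (D_u g(t,u))` is `C¹` there (`nd² = det(AᵀA) > 0`),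
so `d/dt|_0 ∑_i ∫_{s_i} Φ(t,u) = ∑_i ∫_{s_i} ∂_t Φ(0,u)` (`hasDerivAt_integral_of_dominated_loc_of_deriv_le`; `∂_tΦ` bounded on `[-δ,δ] × K_i`).
`D_u g(t,u) v = ρ (A + tB) v - ρ³ ⟪f + tX, (A + tB) v⟫ (f + tX)`, `ρ = |f+tX|⁻¹`, `A = Df`, `B = DX = DW(f) A`; at `t = 0` (`⟪f, Av⟫ = 0`): `∂_t = C`, `C v = B v - ⟪f,X⟫ A v - (⟪X,Av⟫ + ⟪f,Bv⟫) f`.
`D nd(A)[C] = nd A · tr((AᵀA)⁻¹ Aᵀ C) = nd A · (tr(projR A ∘ DW(f)) - m ⟪X, f⟫)`   (`Aᵀ f = 0`;  `Matrix.det_one_add_smul` for the derivative of `det`).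
`hmin X` says that the derivative is `0` (`toReal` of the finite sum of (b); `HasDerivAt.unique`).
-/

set_option autoImplicit false
open scoped Manifold ContDiff ENNReal NNReal RealInnerProductSpace Topology
open MeasureTheory Metric Set Filter
open Claims.C0508

namespace Claimed.Agent.R323

open Claimed.Agent.Gmt
open Claimed.Agent.R322 (IsProj tdiv)
open Claimed.Agent.R322.Base.Area (nd projR fibSum)

local notation "adj" => ContinuousLinearMap.adjoint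

variable {m : ℕ} {M : Type*} [TopologicalSpace M] [ChartedSpace (E m) M]

/-- **local sheets.** -/
theorem ad_chart [IsManifold (𝓡 m) ∞ M] {F : M → E (m + 2)}
    (hF : ContMDiff (𝓡 m) 𝓘(ℝ, E (m + 2)) ∞ F)
    (himm : ∀ x, Function.Injective (mfderiv (𝓡 m) 𝓘(ℝ, E (m + 2)) F x)) (x₀ : M)
    (O' : Set M) (hO' : O' ∈ 𝓝 x₀) :
    ∃ (O : Set M) (r : ℝ) (f : E m → E (m + 2)), IsOpen O ∧ x₀ ∈ O ∧ O ⊆ O' ∧ 0 < r ∧
      ContDiffOn ℝ ∞ f (ball 0 r) ∧ (∀ u ∈ ball (0 : E m) r, Function.Injective (fderiv ℝ f u)) ∧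
      InjOn f (ball 0 r) ∧ f 0 = F x₀ ∧ F '' O = f '' ball 0 r ∧ InjOn F O ∧
      ∀ δ : ℝ, 0 < δ → δ ≤ r → IsOpen (O ∩ F ⁻¹' (f '' ball 0 δ)) :=
  ad_at_chart hF himm x₀ O' hO'

section atlas

variable {n : ℕ} {e : Fin n → E m → M} {U C s : Fin n → Set (E m)} {N : ℕ} {F : M → E N}

/-- the pieces of an immersion. -/
theorem ad_var_piece (hA : AdAt m M n e U C s) (hF : ContMDiff (𝓡 m) 𝓘(ℝ, E N) ∞ F)
    (himm : ∀ x, Function.Injective (mfderiv (𝓡 m) 𝓘(ℝ, E N) F x)) (i : Fin n) :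
    AdPiece (U i) (C i) (s i) (F ∘ e i) :=
  ⟨hA.open_U i, hA.cpt i, hA.CU i, hA.sC i, hA.meas i, hA.smooth _ F hF i, fun u hu => by
    obtain ⟨T, hT⟩ := hA.tan _ F hF i u hu
    rw [hT]
    exact (himm _).comp T.injective⟩

/-- the varifold. -/
noncomputable def adV (e : Fin n → E m → M) (s : Fin n → Set (E m)) (F : M → E N) :
    Measure (E N × (E N →L[ℝ] E N)) :=
  ∑ i, (adMu (F ∘ e i) (s i)).map (adPhi (F ∘ e i))

theorem ad_var_fin (hP : ∀ i, AdPiece (U i) (C i) (s i) (F ∘ e i)) : IsFiniteMeasure (adV e s F) := by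
  refine ⟨?_⟩
  unfold adV
  rw [Measure.coe_finsetSum, Finset.sum_apply]
  refine ENNReal.sum_lt_top.2 fun i _ => ?_
  rw [Measure.map_apply_of_aemeasurable (ad_pc_aemeas (hP i)) MeasurableSet.univ, preimage_univ]
  exact ad_pc_fin (hP i)

theorem ad_var_fst (hA : AdAt m M n e U C s) (hP : ∀ i, AdPiece (U i) (C i) (s i) (F ∘ e i)) :
    (adV e s F).map Prod.fst =
      (μH[(m : ℝ)]).withDensity (fun y => ((F ⁻¹' {y}).encard : ℝ≥0∞)) := by
  refine Measure.ext fun B hB => ?_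
  rw [Measure.map_apply measurable_fst hB, withDensity_apply _ hB]
  unfold adV
  rw [Measure.coe_finsetSum, Finset.sum_apply]
  rw [(ad_va_area hA F (fun i u => fderiv ℝ (F ∘ e i) u) (fun i u hu =>
    (((hP i).smooth.differentiableOn (by simp)).differentiableAt
      ((hP i).open_U.mem_nhds ((hP i).CU ((hP i).sC hu)))).hasFDerivAt.hasFDerivWithinAt) B hB).2]
  exact Finset.sum_congr rfl fun i _ => ad_pc_fst (hP i) hB

theorem ad_var_tan (hA : AdAt m M n e U C s) (hF : ContMDiff (𝓡 m) 𝓘(ℝ, E N) ∞ F)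
    (himm : ∀ x, Function.Injective (mfderiv (𝓡 m) 𝓘(ℝ, E N) F x))
    (hP : ∀ i, AdPiece (U i) (C i) (s i) (F ∘ e i)) :
    ∀ᵐ q ∂(adV e s F), ∃ x, F x = q.1 ∧
      q.2 = projR (mfderiv (𝓡 m) 𝓘(ℝ, E N) F x : E m →L[ℝ] E N) := by
  unfold adV
  rw [ae_iff, Measure.coe_finsetSum, Finset.sum_apply]
  refine Finset.sum_eq_zero fun i _ => ?_
  refine measure_mono_null ?_ (ad_pc_null (hP i))
  rintro q hq ⟨u, hu, rfl⟩
  apply hq
  refine ⟨e i u, rfl, ?_⟩
  obtain ⟨T, hT⟩ := hA.tan _ F hF i u ((hP i).CU hu)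
  show projR (fderiv ℝ (F ∘ e i) u) = _
  rw [hT]
  exact ad_vl_projR_equiv (mfderiv (𝓡 m) 𝓘(ℝ, E N) F (e i u) : E m →L[ℝ] E N) (himm _) T

/-- the variation does not pass through the origin for small `t`. -/
theorem ad_var_ne_zero [CompactSpace M] (hsph : ∀ x, ‖F x‖ = 1) {X : M → E N} (hX : Continuous X) :
    ∀ᶠ t in 𝓝 (0 : ℝ), ∀ x, F x + t • X x ≠ 0 := by
  obtain ⟨b, hb⟩ := isCompact_univ.exists_bound_of_continuousOn hX.continuousOn
  have hb0 : 0 ≤ b ∨ IsEmpty M := by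
    rcases isEmpty_or_nonempty M with h | ⟨⟨x⟩⟩
    · exact Or.inr h
    · exact Or.inl ((norm_nonneg _).trans (hb x (mem_univ x)))
  rcases hb0 with hb0 | hM
  · have h1 : ∀ᶠ t in 𝓝 (0 : ℝ), |t| < 1 / (b + 1) := by
      have : Tendsto (fun t : ℝ => |t|) (𝓝 0) (𝓝 0) := by
        simpa using (continuous_abs.tendsto (0 : ℝ))
      exact this.eventually (gt_mem_nhds (by positivity))
    filter_upwards [h1] with t ht x h0
    have h2 : ‖t • X x‖ < 1 := by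
      rw [norm_smul, Real.norm_eq_abs]
      rw [lt_div_iff₀ (by positivity)] at ht
      have := hb x (mem_univ x)
      nlinarith [abs_nonneg t, norm_nonneg (X x)]
    have h3 : F x = -(t • X x) := eq_neg_of_add_eq_zero_left h0
    have h4 := hsph x
    rw [h3, norm_neg] at h4
    linarith
  · exact Eventually.of_forall fun t x => (hM.false x).elim

/-- the volume of the variation, in the atlas. -/
theorem ad_var_vol (hA : AdAt m M n e U C s) {F X : M → E (m + 2)}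
    (hf : ∀ i, ContDiffOn ℝ ∞ (F ∘ e i) (U i)) (hξ : ∀ i, ContDiffOn ℝ ∞ (X ∘ e i) (U i)) {t : ℝ}
    (h0 : ∀ x, F x + t • X x ≠ 0)
    (hint : ∀ i, IntegrableOn (fun u => nd (adL t ((F ∘ e i) u) ((X ∘ e i) u)
      (fderiv ℝ (F ∘ e i) u) (fderiv ℝ (X ∘ e i) u))) (s i) μH[(m : ℝ)]) :
    (volWithMult m (sphereVariation F X t)).toReal =
      ∑ i, ∫ u in s i, nd (adL t ((F ∘ e i) u) ((X ∘ e i) u)
        (fderiv ℝ (F ∘ e i) u) (fderiv ℝ (X ∘ e i) u)) ∂μH[(m : ℝ)] := by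
  have hd : ∀ i, ∀ u ∈ s i, HasFDerivWithinAt (sphereVariation F X t ∘ e i)
      (adL t ((F ∘ e i) u) ((X ∘ e i) u) (fderiv ℝ (F ∘ e i) u) (fderiv ℝ (X ∘ e i) u)) (s i) u := by
    intro i u hu
    have huU : U i ∈ 𝓝 u := (hA.open_U i).mem_nhds (hA.CU i (hA.sC i hu))
    have h1 : HasFDerivAt (F ∘ e i) (fderiv ℝ (F ∘ e i) u) u :=
      (((hf i).differentiableOn (by simp)).differentiableAt huU).hasFDerivAt
    have h2 : HasFDerivAt (X ∘ e i) (fderiv ℝ (X ∘ e i) u) u :=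
      (((hξ i).differentiableOn (by simp)).differentiableAt huU).hasFDerivAt
    exact (ad_vl_hasFDerivAt h1 h2 (h0 (e i u))).hasFDerivWithinAt
  have h1 := (ad_va_area hA (sphereVariation F X t) _ hd univ MeasurableSet.univ).2
  simp only [Measure.restrict_univ, preimage_univ, inter_univ] at h1
  unfold volWithMult
  rw [h1, ENNReal.toReal_sum fun i _ => (hint i).lintegral_lt_top.ne]
  refine Finset.sum_congr rfl fun i _ => ?_
  rw [integral_eq_lintegral_of_nonneg_ae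
    (Eventually.of_forall fun u => Claimed.Agent.R322.Base.Area.nd_nonneg _) (hint i).1]

/-- continuity of the integrand of the first variation. -/
theorem ad_var_cont {U' : Set (E N)} {W : E N → E N} (hU' : IsOpen U') (hW : ContDiffOn ℝ ∞ W U') :
    ContinuousOn (fun q : E N × (E N →L[ℝ] E N) => tdiv q.2 (fderiv ℝ W q.1) - m * ⟪W q.1, q.1⟫)
      (U' ×ˢ univ) := by
  have htr : Continuous (fun A : E N →L[ℝ] E N => LinearMap.trace ℝ (E N) (A : E N →ₗ[ℝ] E N)) :=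
    ((LinearMap.trace ℝ (E N)).comp (ContinuousLinearMap.coeLM ℝ)).continuous_of_finiteDimensional
  have h1 : ContinuousOn (fun q : E N × (E N →L[ℝ] E N) => fderiv ℝ W q.1) (U' ×ˢ univ) :=
    (hW.continuousOn_fderiv_of_isOpen hU' (by simp)).comp continuousOn_fst (fun q hq => hq.1)
  have h2 : ContinuousOn (fun q : E N × (E N →L[ℝ] E N) => W q.1) (U' ×ˢ univ) :=
    hW.continuousOn.comp continuousOn_fst (fun q hq => hq.1)
  refine ContinuousOn.sub ?_ (continuousOn_const.mul (h2.inner continuousOn_fst))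
  exact htr.comp_continuousOn (continuousOn_snd.clm_comp h1)

/-- **first variation**, in the atlas. -/
theorem ad_var_stat [CompactSpace M] (hA : AdAt m M n e U C s) {F : M → E (m + 2)}
    (hF : ContMDiff (𝓡 m) 𝓘(ℝ, E (m + 2)) ∞ F) (hsph : ∀ x, ‖F x‖ = 1)
    (hP : ∀ i, AdPiece (U i) (C i) (s i) (F ∘ e i)) (hmin : IsMinimalInSphere m F)
    (U' : Set (E (m + 2))) (W : E (m + 2) → E (m + 2)) (hU' : IsOpen U') (hsub : sphere 0 1 ⊆ U')
    (hW : ContDiffOn ℝ ∞ W U') :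
    ∫ q, (tdiv q.2 (fderiv ℝ W q.1) - m * ⟪W q.1, q.1⟫) ∂(adV e s F) = 0 := by
  have hFU : ∀ x, F x ∈ U' := fun x => hsub (by simp [hsph x])
  have hX : ContMDiff (𝓡 m) 𝓘(ℝ, E (m + 2)) ∞ (W ∘ F) :=
    (contMDiffOn_iff_contDiffOn.2 hW).comp_contMDiff hF hFU
  have hξ : ∀ i, ContDiffOn ℝ ∞ ((W ∘ F) ∘ e i) (U i) := hA.smooth _ _ hX
  have h1 := hmin (W ∘ F) hX
  have hv := fun i => ad_pc_var (hP i) (fun u _ => hsph (e i u)) (hξ i)
  have h2 : ∀ᶠ t in 𝓝 (0 : ℝ), (volWithMult m (sphereVariation F (W ∘ F) t)).toReal =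
      ∑ i, ∫ u in s i, nd (adL t ((F ∘ e i) u) (((W ∘ F) ∘ e i) u)
        (fderiv ℝ (F ∘ e i) u) (fderiv ℝ ((W ∘ F) ∘ e i) u)) ∂μH[(m : ℝ)] := by
    filter_upwards [ad_var_ne_zero hsph hX.continuous, eventually_all.2 fun i => (hv i).1]
      with t ht1 ht2
    exact ad_var_vol hA (fun i => (hP i).smooth) hξ ht1 ht2
  have h3 := (HasDerivAt.fun_sum (u := Finset.univ) fun i _ => (hv i).2).congr_of_eventuallyEq h2
  have h4 := h3.unique h1
  unfold adV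
  have hO : IsOpen (U' ×ˢ (univ : Set (E (m + 2) →L[ℝ] E (m + 2)))) := hU'.prod isOpen_univ
  have hCO : ∀ i, adPhi (F ∘ e i) '' C i ⊆ U' ×ˢ (univ : Set (E (m + 2) →L[ℝ] E (m + 2))) := by
    rintro i _ ⟨u, -, rfl⟩
    exact ⟨hFU _, mem_univ _⟩
  have h5 := fun i => ad_pc_int (hP i) hO (hCO i) (ad_var_cont (m := m) hU' hW)
  rw [integral_finsetSum_measure fun i _ => (h5 i).1, ← h4]
  refine Finset.sum_congr rfl fun i _ => ?_
  rw [(h5 i).2]
  refine setIntegral_congr_fun (hA.meas i) fun u hu => ?_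
  have huU : U i ∈ 𝓝 u := (hA.open_U i).mem_nhds (hA.CU i (hA.sC i hu))
  have e1 : fderiv ℝ ((W ∘ F) ∘ e i) u = fderiv ℝ W ((F ∘ e i) u) ∘L fderiv ℝ (F ∘ e i) u := by
    have hd1 : DifferentiableAt ℝ W ((F ∘ e i) u) :=
      (hW.differentiableOn (by simp)).differentiableAt (hU'.mem_nhds (hFU _))
    have hd2 : DifferentiableAt ℝ (F ∘ e i) u :=
      ((hP i).smooth.differentiableOn (by simp)).differentiableAt huU
    exact fderiv_comp u hd1 hd2
  simp only [e1, ad_vl_tr_amb, adPhi]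
  rfl

end atlas

/-- **the varifold of a minimal immersion.** -/
theorem ad_var_exists [T2Space M] [CompactSpace M] [IsManifold (𝓡 m) ∞ M] {F : M → E (m + 2)}
    (hF : ContMDiff (𝓡 m) 𝓘(ℝ, E (m + 2)) ∞ F) (hsph : ∀ x, ‖F x‖ = 1)
    (himm : ∀ x, Function.Injective (mfderiv (𝓡 m) 𝓘(ℝ, E (m + 2)) F x))
    (hmin : IsMinimalInSphere m F) :
    ∃ 𝒱 : Measure (E (m + 2) × (E (m + 2) →L[ℝ] E (m + 2))), AdVar m F 𝒱 := by
  obtain ⟨n, e, U, C, s, hA⟩ := ad_at_exists (m := m) (M := M)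
  have hP := ad_var_piece hA hF himm
  exact ⟨adV e s F, ad_var_fin hP, ad_var_fst hA hP, ad_var_tan hA hF himm hP,
    fun U' W hU' hsub hW => ad_var_stat hA hF hsph hP hmin U' W hU' hsub hW⟩

end Claimed.Agent.R323
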