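import Claimed.Agent.R322.Pack011

/-!
# Row 323, block A, package A1+A2 (helper229): THE FINITE ATLAS OF PIECES of a compact manifold; local sheets of an immersion.      All of Mathlib's manifold API of the package is used HERE only.

`AdAt m M n e U C s`: `e i : E m → M` inverse charts, `U i` open, `s i ⊆ C i ⊆ U i`, `C i` compact, `s i` Borel; every point of `M` is `e i u` for exactly one `(i, u ∈ s i)`.

PLAN of `ad_at_exists`.  `M` is locally compact (`ChartedSpace.locallyCompactSpace (E m) M`): every `x` has a compact neighbourhood `K x ⊆ (chartAt (E m) x).source` (`local_compact_nhds`/`exists_compact_subset`);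
finitely many interiors cover `M` (`CompactSpace.elim_nhds_subcover`); enumerate the finite set by `Fin n` (`Finset.equivFin`).   `φ i = chartAt (E m) (c i)`, `e i = (φ i).symm`, `U i = (φ i).target`, `C i = φ i '' K i`,
`s i = φ i '' (K i \ ⋃ j < i, K j) = C i \ ⋃ j < i, φ i '' (K i ∩ K j)` (compact sets are closed: `T2Space`, so `s i` is measurable).
`smooth`: `(hG.comp_contMDiffOn (contMDiffOn_chart_symm)).contDiffOn`-type (`contMDiffOn_iff_contDiffOn`).
`tan`: `mfderiv_comp`, `mfderiv_eq_fderiv`; `T = ((mdifferentiable_chart (c i)).symm.mfderiv hu)` (a `ContinuousLinearEquiv`).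
-/

set_option autoImplicit false
open scoped Manifold ContDiff ENNReal NNReal RealInnerProductSpace Topology Function
open MeasureTheory Metric Set Filter

namespace Claimed.Agent.R323

open Claimed.Agent.R322 (E)

/-- a finite atlas of Borel pieces. -/
structure AdAt (m : ℕ) (M : Type*) [TopologicalSpace M] [ChartedSpace (E m) M] (n : ℕ)
    (e : Fin n → E m → M) (U C s : Fin n → Set (E m)) : Prop where
  open_U : ∀ i, IsOpen (U i)
  cpt : ∀ i, IsCompact (C i)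
  CU : ∀ i, C i ⊆ U i
  sC : ∀ i, s i ⊆ C i
  meas : ∀ i, MeasurableSet (s i)
  inj : ∀ i, InjOn (e i) (U i)
  disj : Pairwise (Disjoint on fun i => e i '' s i)
  cover : ⋃ i, e i '' s i = univ
  smooth : ∀ (N : ℕ) (G : M → E N), ContMDiff (𝓡 m) 𝓘(ℝ, E N) ∞ G →
    ∀ i, ContDiffOn ℝ ∞ (G ∘ e i) (U i)
  tan : ∀ (N : ℕ) (G : M → E N), ContMDiff (𝓡 m) 𝓘(ℝ, E N) ∞ G → ∀ i, ∀ u ∈ U i,
    ∃ T : E m ≃L[ℝ] E m, fderiv ℝ (G ∘ e i) u =
      (mfderiv (𝓡 m) 𝓘(ℝ, E N) G (e i u) : E m →L[ℝ] E N) ∘L (T : E m →L[ℝ] E m)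

variable {m : ℕ} {M : Type*} [TopologicalSpace M] [ChartedSpace (E m) M]

/-- smoothness of `G ∘ chart.symm`. -/
theorem ad_at_smooth [IsManifold (𝓡 m) ∞ M] {N : ℕ} {G : M → E N}
    (hG : ContMDiff (𝓡 m) 𝓘(ℝ, E N) ∞ G) (c : M) :
    ContDiffOn ℝ ∞ (G ∘ (chartAt (E m) c).symm) (chartAt (E m) c).target := by
  rw [← contMDiffOn_iff_contDiffOn]
  exact hG.comp_contMDiffOn (contMDiffOn_chart_symm (I := 𝓡 m) (x := c))

/-- the derivative of `G ∘ chart.symm`. -/
theorem ad_at_tan [IsManifold (𝓡 m) ∞ M] {N : ℕ} {G : M → E N}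
    (hG : ContMDiff (𝓡 m) 𝓘(ℝ, E N) ∞ G) (c : M) {u : E m} (hu : u ∈ (chartAt (E m) c).target) :
    ∃ T : E m ≃L[ℝ] E m, fderiv ℝ (G ∘ (chartAt (E m) c).symm) u =
      (mfderiv (𝓡 m) 𝓘(ℝ, E N) G ((chartAt (E m) c).symm u) : E m →L[ℝ] E N) ∘L (T : E m →L[ℝ] E m) := by
  have he := (mdifferentiable_chart (I := 𝓡 m) c).symm
  have hu' : u ∈ (chartAt (E m) c).symm.source := hu
  refine ⟨he.mfderiv hu', ?_⟩
  rw [← mfderiv_eq_fderiv]
  have h1 : MDifferentiableAt (𝓡 m) 𝓘(ℝ, E N) G ((chartAt (E m) c).symm u) :=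
    (hG.mdifferentiable (by simp)) _
  have h2 : MDifferentiableAt (𝓡 m) (𝓡 m) (chartAt (E m) c).symm u := he.mdifferentiableAt hu'
  exact mfderiv_comp u h1 h2

/-- L-AD-AT. -/
theorem ad_at_exists [T2Space M] [CompactSpace M] [IsManifold (𝓡 m) ∞ M] :
    ∃ (n : ℕ) (e : Fin n → E m → M) (U C s : Fin n → Set (E m)), AdAt m M n e U C s := by
  classical
  have hloc : ∀ x : M, ∃ K : Set M, IsCompact K ∧ x ∈ interior K ∧ K ⊆ (chartAt (E m) x).source := fun x =>
    exists_compact_subset (chartAt (E m) x).open_source (mem_chart_source (E m) x)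
  choose K hKc hxK hKs using hloc
  obtain ⟨t, ht⟩ := CompactSpace.elim_nhds_subcover (fun x => interior (K x))
    fun x => isOpen_interior.mem_nhds (hxK x)
  set n := t.card with hn
  let c : Fin n → M := fun i => (t.equivFin.symm i).1
  let φ : ∀ i : Fin n, OpenPartialHomeomorph M (E m) := fun i => chartAt (E m) (c i)
  let A : Fin n → Set M := fun i => K (c i) \ ⋃ j : Fin n, ⋃ _ : j < i, K (c j)
  have hAK : ∀ i, A i ⊆ K (c i) := fun i => diff_subset
  have hAs : ∀ i, A i ⊆ (φ i).source := fun i => (hAK i).trans (hKs (c i))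
  have hcov : ∀ x : M, ∃ i, x ∈ K (c i) := by
    intro x
    have hx : x ∈ ⋃ y ∈ t, interior (K y) := by rw [ht]; trivial
    obtain ⟨y, hy, hxy⟩ := mem_iUnion₂.1 hx
    refine ⟨t.equivFin ⟨y, hy⟩, ?_⟩
    have e : c (t.equivFin ⟨y, hy⟩) = y := by simp [c]
    rw [e]
    exact interior_subset hxy
  have himg : ∀ i, (φ i).symm '' ((φ i) '' A i) = A i := fun i =>
    (φ i).toPartialEquiv.symm_image_image_of_subset_source (hAs i)
  refine ⟨n, fun i => (φ i).symm, fun i => (φ i).target, fun i => φ i '' K (c i), fun i => φ i '' A i, ?_⟩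
  refine ⟨fun i => (φ i).open_target, fun i => (hKc (c i)).image_of_continuousOn
    ((φ i).continuousOn.mono (hKs (c i))), ?_, fun i => image_mono (hAK i), ?_, fun i => (φ i).symm.injOn, ?_, ?_,
    fun N G hG i => ad_at_smooth hG (c i), fun N G hG i u hu => ad_at_tan hG (c i) hu⟩
  · rintro i _ ⟨x, hx, rfl⟩
    exact (φ i).map_source (hKs (c i) hx)
  · intro i
    have e : φ i '' A i = φ i '' K (c i) \ ⋃ j : Fin n, ⋃ _ : j < i, φ i '' (K (c i) ∩ K (c j)) := by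
      ext y
      constructor
      · rintro ⟨x, ⟨hx, hxn⟩, rfl⟩
        refine ⟨⟨x, hx, rfl⟩, fun hy => hxn ?_⟩
        obtain ⟨j, hj, x', ⟨hx'1, hx'2⟩, hxx⟩ := mem_iUnion₂.1 hy
        have : x' = x := (φ i).injOn (hKs (c i) hx'1) (hKs (c i) hx) hxx
        exact mem_iUnion₂.2 ⟨j, hj, this ▸ hx'2⟩
      · rintro ⟨⟨x, hx, rfl⟩, hy⟩
        refine ⟨x, ⟨hx, fun hxn => hy ?_⟩, rfl⟩
        obtain ⟨j, hj, hxj⟩ := mem_iUnion₂.1 hxn
        exact mem_iUnion₂.2 ⟨j, hj, x, ⟨hx, hxj⟩, rfl⟩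
    rw [e]
    have hc1 : IsCompact (φ i '' K (c i)) :=
      (hKc (c i)).image_of_continuousOn ((φ i).continuousOn.mono (hKs (c i)))
    refine hc1.measurableSet.diff (MeasurableSet.iUnion fun j => MeasurableSet.iUnion fun _ => ?_)
    have hc2 : IsCompact (φ i '' (K (c i) ∩ K (c j))) :=
      ((hKc (c i)).inter (hKc (c j))).image_of_continuousOn
        ((φ i).continuousOn.mono (inter_subset_left.trans (hKs (c i))))
    exact hc2.measurableSet
  · intro i j hij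
    show Disjoint ((φ i).symm '' (φ i '' A i)) ((φ j).symm '' (φ j '' A j))
    rw [himg, himg]
    rcases lt_or_gt_of_ne hij with h | h
    · exact disjoint_left.2 fun x hxi hxj => hxj.2 (mem_iUnion₂.2 ⟨i, h, hxi.1⟩)
    · exact disjoint_left.2 fun x hxi hxj => hxi.2 (mem_iUnion₂.2 ⟨j, h, hxj.1⟩)
  · refine eq_univ_of_forall fun x => ?_
    have key : ∀ i : Fin n, x ∈ K (c i) → ∃ j, x ∈ A j := by
      intro i
      induction i using WellFoundedLT.induction with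
      | _ i ih =>
        intro hx
        by_cases h : ∃ j, j < i ∧ x ∈ K (c j)
        · obtain ⟨j, hj, hxj⟩ := h
          exact ih j hj hxj
        · refine ⟨i, hx, fun hxn => h ?_⟩
          obtain ⟨j, hj, hxj⟩ := mem_iUnion₂.1 hxn
          exact ⟨j, hj, hxj⟩
    obtain ⟨i, hi⟩ := hcov x
    obtain ⟨j, hj⟩ := key i hi
    refine mem_iUnion.2 ⟨j, ?_⟩
    show x ∈ (φ j).symm '' (φ j '' A j)
    rw [himg]
    exact hj

/-- a map with an injective strict derivative is injective near the point. -/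
theorem ad_at_locInj {N : ℕ} {g : E m → E N} {g' : E m →L[ℝ] E N} {p : E m} (hg : HasStrictFDerivAt g g' p)
    (hinj : Function.Injective g') : ∃ s ∈ 𝓝 p, InjOn g s := by
  obtain ⟨K, hK0, hK⟩ := g'.injective_iff_antilipschitz.mp hinj
  have hc : (0 : ℝ≥0) < K⁻¹ / 2 := by positivity
  obtain ⟨s, hs, happ⟩ := hg.approximates_deriv_on_nhds (c := K⁻¹ / 2) (Or.inr hc)
  refine ⟨s, hs, fun x hx y hy hxy => ?_⟩
  have h1 := happ x hx y hy
  rw [hxy, sub_self, zero_sub, norm_neg] at h1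
  have h2 : ‖x - y‖ ≤ K * ‖g' (x - y)‖ := ZeroHomClass.bound_of_antilipschitz g' hK (x - y)
  have hK0' : (0 : ℝ) < K := hK0
  have h3 : ‖x - y‖ ≤ 0 := by
    have h4 : (K : ℝ) * ‖g' (x - y)‖ ≤ K * (((K⁻¹ / 2 : ℝ≥0) : ℝ) * ‖x - y‖) :=
      mul_le_mul_of_nonneg_left h1 hK0'.le
    have h5 : (K : ℝ) * (((K⁻¹ / 2 : ℝ≥0) : ℝ) * ‖x - y‖) = ‖x - y‖ / 2 := by
      push_cast
      field_simp
    linarith [norm_nonneg (x - y)]
  exact sub_eq_zero.1 (norm_le_zero_iff.1 h3)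

/-- L-AD-CHART.  **local sheets.**   `φ = chartAt (E m) x₀`, `f u = F (φ.symm (u + φ x₀))`; `f` is smooth near `0` with injective derivative (as in `AdAt.tan`), hence injective on a small ball
(`ContDiffAt.hasStrictFDerivAt`, `HasStrictFDerivAt.approximates_deriv_on_nhds`, `R322.Base.Area.exists_injOn_of_approx`); injectivity of the derivative is an open condition (`nd` continuous, `nd_eq_zero_iff`);
`O = φ.source ∩ φ ⁻¹' ball (φ x₀) r`, `r` so small that `ball (φ x₀) r ⊆ φ.target ∩ φ.symm ⁻¹' O'`.   LAST CLAUSE (needed by `Ad/Loc`, helper195): `O ∩ F ⁻¹' (f '' ball 0 δ) = φ.source ∩ φ ⁻¹' ball (φ x₀) δ` (`f` injective on the ball). -/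
theorem ad_at_chart [IsManifold (𝓡 m) ∞ M] {N : ℕ} {F : M → E N}
    (hF : ContMDiff (𝓡 m) 𝓘(ℝ, E N) ∞ F)
    (himm : ∀ x, Function.Injective (mfderiv (𝓡 m) 𝓘(ℝ, E N) F x)) (x₀ : M)
    (O' : Set M) (hO' : O' ∈ 𝓝 x₀) :
    ∃ (O : Set M) (r : ℝ) (f : E m → E N), IsOpen O ∧ x₀ ∈ O ∧ O ⊆ O' ∧ 0 < r ∧
      ContDiffOn ℝ ∞ f (ball 0 r) ∧ (∀ u ∈ ball (0 : E m) r, Function.Injective (fderiv ℝ f u)) ∧
      InjOn f (ball 0 r) ∧ f 0 = F x₀ ∧ F '' O = f '' ball 0 r ∧ InjOn F O ∧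
      ∀ δ : ℝ, 0 < δ → δ ≤ r → IsOpen (O ∩ F ⁻¹' (f '' ball 0 δ)) := by
  set φ := chartAt (E m) x₀ with hφ
  set p₀ : E m := φ x₀ with hp₀
  set g : E m → E N := F ∘ φ.symm with hg
  have hx₀ : x₀ ∈ φ.source := mem_chart_source (E m) x₀
  have hp₀t : p₀ ∈ φ.target := φ.map_source hx₀
  have hsymm : φ.symm p₀ = x₀ := φ.left_inv hx₀
  have hgs : ContDiffOn ℝ ∞ g φ.target := ad_at_smooth hF x₀
  have hgd : ∀ p ∈ φ.target, Function.Injective (fderiv ℝ g p) := by
    intro p hp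
    obtain ⟨T, hT⟩ := ad_at_tan hF x₀ hp
    rw [hg, hT]
    exact (himm _).comp T.injective
  -- local injectivity
  have hstrict : HasStrictFDerivAt g (fderiv ℝ g p₀) p₀ :=
    ((hgs.contDiffAt (φ.open_target.mem_nhds hp₀t)).hasStrictFDerivAt (by simp))
  obtain ⟨s, hs, hsinj⟩ := ad_at_locInj hstrict (hgd p₀ hp₀t)
  have hpre : φ.symm ⁻¹' O' ∈ 𝓝 p₀ := by
    have hc : ContinuousAt φ.symm p₀ := φ.symm.continuousAt hp₀t
    exact hc.preimage_mem_nhds (by rw [hsymm]; exact hO')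
  obtain ⟨r, hr, hball⟩ := Metric.mem_nhds_iff.1
    (Filter.inter_mem (Filter.inter_mem (φ.open_target.mem_nhds hp₀t) hpre) hs)
  have hbt : ball p₀ r ⊆ φ.target := fun p hp => (hball hp).1.1
  have hbO : ∀ p ∈ ball p₀ r, φ.symm p ∈ O' := fun p hp => (hball hp).1.2
  have hbs : ball p₀ r ⊆ s := fun p hp => (hball hp).2
  have hshift' : ∀ (ρ : ℝ) (u : E m), u ∈ ball (0 : E m) ρ ↔ u + p₀ ∈ ball p₀ ρ := by
    intro ρ u
    simp [mem_ball, dist_eq_norm]
  have hshift : ∀ u : E m, u ∈ ball (0 : E m) r ↔ u + p₀ ∈ ball p₀ r := hshift' r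
  refine ⟨φ.source ∩ φ ⁻¹' ball p₀ r, r, fun u => g (u + p₀), φ.isOpen_inter_preimage isOpen_ball,
    ⟨hx₀, mem_ball_self hr⟩, ?_, hr, ?_, ?_, ?_, ?_, ?_, ?_, ?_⟩
  · rintro x ⟨hx, hxb⟩
    have := hbO _ hxb
    rwa [φ.left_inv hx] at this
  · refine hgs.comp (contDiff_id.add contDiff_const).contDiffOn fun u hu => hbt ((hshift u).1 hu)
  · intro u hu
    have e : fderiv ℝ (fun u => g (u + p₀)) u = fderiv ℝ g (u + p₀) := fderiv_comp_add_right p₀
    rw [e]
    exact hgd _ (hbt ((hshift u).1 hu))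
  · intro u hu v hv huv
    exact add_right_cancel (hsinj (hbs ((hshift u).1 hu)) (hbs ((hshift v).1 hv)) huv)
  · show g (0 + p₀) = F x₀
    rw [zero_add, hg, Function.comp_apply, hsymm]
  · ext y
    constructor
    · rintro ⟨x, ⟨hx, hxb⟩, rfl⟩
      refine ⟨φ x - p₀, (hshift _).2 (by rwa [sub_add_cancel]), ?_⟩
      show g (φ x - p₀ + p₀) = F x
      rw [sub_add_cancel, hg, Function.comp_apply, φ.left_inv hx]
    · rintro ⟨u, hu, rfl⟩
      have hub := (hshift u).1 hu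
      refine ⟨φ.symm (u + p₀), ⟨φ.map_target (hbt hub), ?_⟩, rfl⟩
      show φ (φ.symm (u + p₀)) ∈ ball p₀ r
      rwa [φ.right_inv (hbt hub)]
  · rintro x ⟨hx, hxb⟩ y ⟨hy, hyb⟩ hxy
    have h1 : g (φ x) = g (φ y) := by
      rw [hg, Function.comp_apply, Function.comp_apply, φ.left_inv hx, φ.left_inv hy, hxy]
    exact φ.injOn hx hy (hsinj (hbs hxb) (hbs hyb) h1)
  · intro δ _ hδr
    have e : (φ.source ∩ φ ⁻¹' ball p₀ r) ∩ F ⁻¹' ((fun u => g (u + p₀)) '' ball 0 δ)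
        = φ.source ∩ φ ⁻¹' ball p₀ δ := by
      ext x
      constructor
      · rintro ⟨⟨hx, hxb⟩, u, hu, hux⟩
        refine ⟨hx, ?_⟩
        have hub : u + p₀ ∈ ball p₀ r := ball_subset_ball hδr ((hshift' δ u).1 hu)
        have h1 : g (u + p₀) = g (φ x) := by
          rw [show g (u + p₀) = F x from hux, hg, Function.comp_apply, φ.left_inv hx]
        have h2 : u + p₀ = φ x := hsinj (hbs hub) (hbs hxb) h1
        show φ x ∈ ball p₀ δ
        rw [← h2]
        exact (hshift' δ u).1 hu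
      · rintro ⟨hx, hxb⟩
        refine ⟨⟨hx, ball_subset_ball hδr hxb⟩, φ x - p₀, (hshift' δ _).2 (by rwa [sub_add_cancel]), ?_⟩
        show g (φ x - p₀ + p₀) = F x
        rw [sub_add_cancel, hg, Function.comp_apply, φ.left_inv hx]
    rw [e]
    exact φ.isOpen_inter_preimage isOpen_ball

end Claimed.Agent.R323
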