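import Claimed.Agent.R322.Pack011

/-!
# Row 323, block A, package A1+A2 (helper229): LINEAR ALGEBRA of the first variation.      Imports only `R322/Base/Area` (light).

`adL t f ξ A B` = derivative at `u` of `u ↦ (f + tξ)/|f + tξ|` when `Df = A`, `Dξ = B`.     `Φ(t) = nd (adL t f ξ A B)` is the Jacobian of the sphere variation in a chart.
THIS FILE: definitions + calculus of `adL` (`ad_vl_hasFDerivAt`, `ad_vl_adL_zero`, `ad_vl_adL_hasDerivAt`).   `Ad/VarNd.lean`: calculus of `nd`.   `Ad/VarTr.lean`: traces, `ad_vl_deriv`.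
-/

set_option autoImplicit false
open scoped ContDiff ENNReal NNReal RealInnerProductSpace Topology
open MeasureTheory Metric Set Filter

namespace Claimed.Agent.R323

open Claimed.Agent.R322 (E IsProj tdiv)
open Claimed.Agent.R322.Base.Area (nd projR)

local notation "adj" => ContinuousLinearMap.adjoint

variable {m N : ℕ}

/-- trace of an operator of `E n`. -/
noncomputable def adTr {n : ℕ} (A : E n →L[ℝ] E n) : ℝ := LinearMap.trace ℝ (E n) (A : E n →ₗ[ℝ] E n)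

/-- the derivative of `u ↦ (f + tξ)/|f + tξ|` (`A = Df`, `B = Dξ`). -/
noncomputable def adL (t : ℝ) (f ξ : E N) (A B : E m →L[ℝ] E N) : E m →L[ℝ] E N :=
  ‖f + t • ξ‖⁻¹ • (A + t • B) -
    (‖f + t • ξ‖⁻¹) ^ 3 • ((innerSL ℝ (f + t • ξ)) ∘L (A + t • B)).smulRight (f + t • ξ)

/-- the parameter space `(f, ξ, A, B)`. -/
abbrev AdPar (m N : ℕ) := E N × E N × (E m →L[ℝ] E N) × (E m →L[ℝ] E N)

/-- the Jacobian as a function of `(t, f, ξ, A, B)`. -/
noncomputable def adJ (p : ℝ × AdPar m N) : ℝ := nd (adL p.1 p.2.1 p.2.2.1 p.2.2.2.1 p.2.2.2.2)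

/-- the open set on which `adJ` is smooth. -/
def adW (m N : ℕ) : Set (ℝ × AdPar m N) :=
  {p | p.2.1 + p.1 • p.2.2.1 ≠ 0 ∧ Function.Injective (adL p.1 p.2.1 p.2.2.1 p.2.2.2.1 p.2.2.2.2)}

/-- derivative of `‖w‖⁻¹`. -/
theorem ad_vl_norm_inv {X : Type*} [NormedAddCommGroup X] [NormedSpace ℝ X] {w : X → E N}
    {W' : X →L[ℝ] E N} {x : X} (hw : HasFDerivAt w W' x) (h0 : w x ≠ 0) :
    HasFDerivAt (fun y => ‖w y‖⁻¹) (-((‖w x‖⁻¹) ^ 3) • (innerSL ℝ (w x)).comp W') x := by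
  have hn : 0 < ‖w x‖ := norm_pos_iff.2 h0
  have h1 := hw.norm_sq.sqrt (pow_ne_zero 2 hn.ne')
  have h2 : (fun y => √(‖w y‖ ^ 2)) = fun y => ‖w y‖ := by
    funext y
    exact Real.sqrt_sq (norm_nonneg _)
  rw [h2, Real.sqrt_sq hn.le] at h1
  have h3 := (hasDerivAt_inv hn.ne').comp_hasFDerivAt x h1
  refine h3.congr_fderiv ?_
  ext v
  simp only [smul_apply, smul_eq_mul, nsmul_eq_mul, Nat.cast_ofNat]
  field_simp

/-- derivative of a path of rank one operators. -/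
theorem ad_vl_smulRight {X Y : Type*} [NormedAddCommGroup X] [NormedSpace ℝ X] [NormedAddCommGroup Y]
    [NormedSpace ℝ Y] {c : ℝ → X →L[ℝ] ℝ} {c' : X →L[ℝ] ℝ} {w : ℝ → Y} {w' : Y} {t : ℝ}
    (hc : HasDerivAt c c' t) (hw : HasDerivAt w w' t) :
    HasDerivAt (fun s => (c s).smulRight (w s)) (c'.smulRight (w t) + (c t).smulRight w') t := by
  have hb := (isBoundedBilinearMap_smulRight (𝕜 := ℝ) (E := X) (F := Y)).hasFDerivAt (c t, w t)
  have h2 := hb.comp_hasDerivAt t (hc.prodMk hw)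
  rw [IsBoundedBilinearMap.deriv_apply, add_comm] at h2
  exact h2

/-- L-AD-VL1.  Chain rule: `HasFDerivAt.norm`-type rules (`HasFDerivAt.norm_sq`/`(hasStrictFDerivAt_norm_sq _)`, or `contDiffAt_norm`; simplest: `w ↦ ‖w‖⁻¹ • w` has derivative
`‖w‖⁻¹ • id - ‖w‖⁻³ • (innerSL w).smulRight w` at `w ≠ 0`; compose with `u ↦ f u + t • ξ u`). -/
theorem ad_vl_hasFDerivAt {f ξ : E m → E N} {A B : E m →L[ℝ] E N} {u : E m} {t : ℝ}
    (hf : HasFDerivAt f A u) (hξ : HasFDerivAt ξ B u) (h0 : f u + t • ξ u ≠ 0) :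
    HasFDerivAt (fun u => ‖f u + t • ξ u‖⁻¹ • (f u + t • ξ u)) (adL t (f u) (ξ u) A B) u := by
  have hw : HasFDerivAt (fun u => f u + t • ξ u) (A + t • B) u := hf.add (hξ.const_smul t)
  have h1 := (ad_vl_norm_inv hw h0).smul hw
  refine h1.congr_fderiv ?_
  ext1 v
  simp only [adL, add_apply, smul_apply, ContinuousLinearMap.smulRight_apply, neg_smul,
    sub_eq_add_neg, neg_apply, smul_smul, smul_eq_mul]

theorem ad_vl_adL_zero {f ξ : E N} {A B : E m →L[ℝ] E N} (hf : ‖f‖ = 1)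
    (hfA : ∀ v, ⟪f, A v⟫ = 0) : adL 0 f ξ A B = A := by
  ext1 v
  simp [adL, hf, hfA]

/-- L-AD-VL5.  derivative of the path `t ↦ adL t` at `0`. -/
theorem ad_vl_adL_hasDerivAt {f ξ : E N} {A B : E m →L[ℝ] E N} (hf : ‖f‖ = 1)
    (hfA : ∀ v, ⟪f, A v⟫ = 0) :
    HasDerivAt (fun t => adL t f ξ A B)
      (B - ⟪f, ξ⟫ • A - ((innerSL ℝ ξ) ∘L A + (innerSL ℝ f) ∘L B).smulRight f) 0 := by
  have hw : HasDerivAt (fun t : ℝ => f + t • ξ) ξ 0 := by
    simpa using ((hasDerivAt_id (0 : ℝ)).smul_const ξ).const_add f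
  have hW : HasDerivAt (fun t : ℝ => A + t • B) B 0 := by
    simpa using ((hasDerivAt_id (0 : ℝ)).smul_const B).const_add A
  have hw0 : f + (0 : ℝ) • ξ = f := by simp
  have hW0 : A + (0 : ℝ) • B = A := by
    ext1 v
    simp
  have hf0 : f + (0 : ℝ) • ξ ≠ 0 := by
    rw [hw0]
    intro h
    rw [h, norm_zero] at hf
    exact zero_ne_one hf
  have hρ : HasDerivAt (fun t : ℝ => ‖f + t • ξ‖⁻¹) (-⟪f, ξ⟫) 0 := by
    have := (ad_vl_norm_inv hw.hasFDerivAt hf0).hasDerivAt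
    simpa [hf] using this
  have hin : HasDerivAt (fun t : ℝ => innerSL ℝ (f + t • ξ)) (innerSL ℝ ξ) 0 :=
    (innerSL ℝ (E := E N)).hasFDerivAt.comp_hasDerivAt 0 hw
  have hc : HasDerivAt (fun t : ℝ => (innerSL ℝ (f + t • ξ)) ∘L (A + t • B))
      ((innerSL ℝ ξ) ∘L A + (innerSL ℝ f) ∘L B) 0 := by
    have := hin.clm_comp hW
    simpa using this
  have hz : (innerSL ℝ f) ∘L A = 0 := by
    ext v
    simpa using hfA v
  have hs : HasDerivAt (fun t : ℝ => ((innerSL ℝ (f + t • ξ)) ∘L (A + t • B)).smulRight (f + t • ξ))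
      (((innerSL ℝ ξ) ∘L A + (innerSL ℝ f) ∘L B).smulRight f) 0 := by
    have h2 := ad_vl_smulRight hc hw
    simp only [hw0, hW0, hz, ContinuousLinearMap.zero_smulRight, add_zero] at h2
    exact h2
  have h1 := (hρ.smul hW).sub ((hρ.pow 3).smul hs)
  refine h1.congr_deriv ?_
  simp only [Pi.pow_apply, hw0, hW0, hf, inv_one, one_pow, one_smul, hz,
    ContinuousLinearMap.zero_smulRight, smul_zero, add_zero, neg_smul]
  abel

end Claimed.Agent.R323
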