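import Claimed.Agent.R323.Ad.VarLin

/-!
# Row 323, block A, package A1+A2 (helper229): CALCULUS OF THE JACOBIAN `nd` (smoothness on injective maps, Jacobi's formula).
Patterns copied from `R322/Pack034.lean` (`contDiff_det`, `fderiv_det_one`), `R322/Pack053.lean` (`fderiv_det_of_inv`, `fderiv_vdens`), `R322/Pack012.lean` (`adjL`, `trc_adjoint`, `trc_comp_comm`) (not imported: the closure is huge).
-/

set_option autoImplicit false
open scoped ContDiff ENNReal NNReal RealInnerProductSpace Topology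
open MeasureTheory Metric Set Filter

namespace Claimed.Agent.R323

open Claimed.Agent.R322 (E IsProj tdiv)
open Claimed.Agent.R322.Base.Area (nd projR)

local notation "adj" => ContinuousLinearMap.adjoint

variable {m N : ℕ}

/-! ### the determinant -/

theorem ad_nd_toMatrix (n : ℕ) (B : E n →L[ℝ] E n) (i j : Fin n) :
    LinearMap.toMatrix (EuclideanSpace.basisFun (Fin n) ℝ).toBasis
      (EuclideanSpace.basisFun (Fin n) ℝ).toBasis (B : E n →ₗ[ℝ] E n) i j
      = B (EuclideanSpace.single j 1) i := by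
  simp [LinearMap.toMatrix_apply]

theorem ad_nd_contDiff_entry (n : ℕ) (i j : Fin n) :
    ContDiff ℝ ∞ (fun B : E n →L[ℝ] E n => B (EuclideanSpace.single j 1) i) := by
  have h1 : ContDiff ℝ ∞ (fun B : E n →L[ℝ] E n => B (EuclideanSpace.single j 1)) :=
    contDiff_id.clm_apply contDiff_const
  exact (EuclideanSpace.proj (𝕜 := ℝ) (ι := Fin n) i).contDiff.comp h1

theorem ad_nd_contDiff_det (n : ℕ) :
    ContDiff ℝ ∞ (fun B : E n →L[ℝ] E n => LinearMap.det (B : E n →ₗ[ℝ] E n)) := by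
  have h : (fun B : E n →L[ℝ] E n => LinearMap.det (B : E n →ₗ[ℝ] E n))
      = fun B : E n →L[ℝ] E n => ∑ σ : Equiv.Perm (Fin n),
        (Equiv.Perm.sign σ : ℤ) • ∏ i, B (EuclideanSpace.single i 1) (σ i) := by
    funext B
    rw [← LinearMap.det_toMatrix (EuclideanSpace.basisFun (Fin n) ℝ).toBasis, Matrix.det_apply]
    simp only [ad_nd_toMatrix]
    rfl
  rw [h]
  refine ContDiff.sum fun σ _ => ?_
  refine ContDiff.const_smul _ ?_
  exact contDiff_prod fun i _ => ad_nd_contDiff_entry n (σ i) i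

theorem ad_nd_hasDerivAt_det (n : ℕ) (B : E n →L[ℝ] E n) :
    HasDerivAt (fun t : ℝ => LinearMap.det
      ((ContinuousLinearMap.id ℝ (E n) + t • B : E n →L[ℝ] E n) : E n →ₗ[ℝ] E n)) (adTr B) 0 := by
  set b := (EuclideanSpace.basisFun (Fin n) ℝ).toBasis with hb
  set Mx := LinearMap.toMatrix b b (B : E n →ₗ[ℝ] E n) with hMx
  have h1 : ∀ t : ℝ, LinearMap.det
      ((ContinuousLinearMap.id ℝ (E n) + t • B : E n →L[ℝ] E n) : E n →ₗ[ℝ] E n)
      = 1 + Matrix.trace Mx * t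
        + (Matrix.det (1 + (Polynomial.X : Polynomial ℝ) • Mx.map Polynomial.C)).divX.divX.eval t
          * t ^ 2 := by
    intro t
    rw [← Matrix.det_one_add_smul, ← LinearMap.det_toMatrix b]
    congr 1
    have : ((ContinuousLinearMap.id ℝ (E n) + t • B : E n →L[ℝ] E n) : E n →ₗ[ℝ] E n)
        = LinearMap.id + t • (B : E n →ₗ[ℝ] E n) := rfl
    rw [this, map_add, map_smul, LinearMap.toMatrix_id]
  have h2 : adTr B = Matrix.trace Mx := LinearMap.trace_eq_matrix_trace ℝ b _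
  simp only [h1, h2]
  set p := (Matrix.det (1 + (Polynomial.X : Polynomial ℝ) • Mx.map Polynomial.C)).divX.divX
  have h3 : HasDerivAt (fun t : ℝ => 1 + Matrix.trace Mx * t + p.eval t * t ^ 2)
      (Matrix.trace Mx * 1 + ((Polynomial.derivative p).eval 0 * 0 ^ 2
        + p.eval 0 * ((2 : ℕ) * 0 ^ (2 - 1) * 1))) 0 :=
    (((hasDerivAt_id (0 : ℝ)).const_mul (Matrix.trace Mx)).const_add 1).add
      ((p.hasDerivAt 0).mul ((hasDerivAt_id (0 : ℝ)).pow 2))
  convert h3 using 1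
  simp

theorem ad_nd_fderiv_det_one (n : ℕ) (B : E n →L[ℝ] E n) :
    fderiv ℝ (fun B : E n →L[ℝ] E n => LinearMap.det (B : E n →ₗ[ℝ] E n))
      (ContinuousLinearMap.id ℝ (E n)) B = adTr B := by
  have hd : DifferentiableAt ℝ (fun B : E n →L[ℝ] E n => LinearMap.det (B : E n →ₗ[ℝ] E n))
      (ContinuousLinearMap.id ℝ (E n) + (0 : ℝ) • B) :=
    (ad_nd_contDiff_det n).differentiable (by simp) _
  have hγ : HasDerivAt (fun t : ℝ => ContinuousLinearMap.id ℝ (E n) + t • B) B 0 := by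
    have := ((hasDerivAt_id (0 : ℝ)).smul_const B).const_add (ContinuousLinearMap.id ℝ (E n))
    simpa using this
  have h1 := hd.hasFDerivAt.comp_hasDerivAt (0 : ℝ) hγ
  have h2 := h1.unique (ad_nd_hasDerivAt_det n B)
  have e : ContinuousLinearMap.id ℝ (E n) + (0 : ℝ) • B = ContinuousLinearMap.id ℝ (E n) := by
    rw [show (0 : ℝ) • B = 0 from zero_smul ℝ B, add_zero]
  rwa [e] at h2

/-- derivative of the determinant at an invertible operator. -/
theorem ad_nd_fderiv_det_of_inv {n : ℕ} (G K H : E n →L[ℝ] E n)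
    (hKG : K ∘L G = ContinuousLinearMap.id ℝ (E n)) :
    fderiv ℝ (fun B : E n →L[ℝ] E n => LinearMap.det (B : E n →ₗ[ℝ] E n)) G H
      = LinearMap.det (G : E n →ₗ[ℝ] E n) * adTr (K ∘L H) := by
  set dt : (E n →L[ℝ] E n) → ℝ := fun B => LinearMap.det (B : E n →ₗ[ℝ] E n) with hdt
  set Φ : (E n →L[ℝ] E n) →L[ℝ] (E n →L[ℝ] E n) :=
    ContinuousLinearMap.compL ℝ (E n) (E n) (E n) K with hΦ
  have hd : Differentiable ℝ dt := (ad_nd_contDiff_det n).differentiable (by simp)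
  have hmul : ∀ X Y : E n →L[ℝ] E n, dt (X ∘L Y) = dt X * dt Y := fun X Y => LinearMap.det_comp _ _
  have hone : dt K * dt G = 1 := by
    rw [← hmul, hKG]
    exact LinearMap.det_id
  have h1 : HasFDerivAt (fun X => dt (Φ X)) ((fderiv ℝ dt (Φ G)).comp Φ) G :=
    (hd (Φ G)).hasFDerivAt.comp G Φ.hasFDerivAt
  have h2 := h1.const_mul (dt G)
  have h3 : (fun X => dt G * dt (Φ X)) = dt := by
    funext X
    have : dt (Φ X) = dt K * dt X := hmul K X
    rw [this, ← mul_assoc, mul_comm (dt G), hone, one_mul]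
  rw [h3] at h2
  rw [h2.fderiv]
  have h4 : Φ G = ContinuousLinearMap.id ℝ (E n) := hKG
  rw [h4]
  simp only [smul_apply, ContinuousLinearMap.comp_apply, smul_eq_mul]
  rw [ad_nd_fderiv_det_one]
  rfl

/-! ### the adjoint, traces -/

/-- the adjoint as a continuous `ℝ`-linear map. -/
noncomputable def adAdjL (a b : ℕ) : (E a →L[ℝ] E b) →L[ℝ] (E b →L[ℝ] E a) :=
  LinearMap.toContinuousLinearMap
    { toFun := fun A => adj A
      map_add' := fun A B => map_add _ A B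
      map_smul' := fun c A => by simp }

theorem adAdjL_apply {a b : ℕ} (A : E a →L[ℝ] E b) : adAdjL a b A = adj A := rfl

theorem adTr_add {n : ℕ} (A B : E n →L[ℝ] E n) : adTr (A + B) = adTr A + adTr B := by
  unfold adTr
  rw [ContinuousLinearMap.toLinearMap_add, map_add]

theorem adTr_comp_comm {a b : ℕ} (A : E a →L[ℝ] E b) (B : E b →L[ℝ] E a) :
    adTr (A ∘L B) = adTr (B ∘L A) :=
  LinearMap.trace_comp_comm' (B : E b →ₗ[ℝ] E a) (A : E a →ₗ[ℝ] E b)

theorem adTr_eq_sum {n : ℕ} (A : E n →L[ℝ] E n) :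
    adTr A = ∑ i : Fin n, inner ℝ (A (EuclideanSpace.single i 1)) (EuclideanSpace.single i 1) := by
  unfold adTr
  rw [LinearMap.trace_eq_sum_inner _ (EuclideanSpace.basisFun (Fin n) ℝ)]
  refine Finset.sum_congr rfl fun i _ => ?_
  rw [EuclideanSpace.basisFun_apply, real_inner_comm]
  rfl

theorem adTr_adjoint {n : ℕ} (A : E n →L[ℝ] E n) : adTr (adj A) = adTr A := by
  rw [adTr_eq_sum, adTr_eq_sum]
  refine Finset.sum_congr rfl fun i _ => ?_
  rw [ContinuousLinearMap.adjoint_inner_left, real_inner_comm]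

/-! ### the Jacobian -/

/-- the Gram operator. -/
noncomputable def adGram (L : E m →L[ℝ] E N) : E m →L[ℝ] E m := adj L ∘L L

theorem ad_nd_contDiff_gram : ContDiff ℝ ∞ (adGram : (E m →L[ℝ] E N) → E m →L[ℝ] E m) :=
  (adAdjL m N).contDiff.clm_comp contDiff_id

theorem ad_nd_hasFDerivAt_gram (A : E m →L[ℝ] E N) :
    HasFDerivAt (adGram : (E m →L[ℝ] E N) → E m →L[ℝ] E m)
      ((ContinuousLinearMap.compL ℝ (E m) (E N) (E m) (adj A)) +
        ((ContinuousLinearMap.compL ℝ (E m) (E N) (E m)).flip A).comp (adAdjL m N)) A := by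
  have hB : HasFDerivAt (fun L : E m →L[ℝ] E N => adj L) (adAdjL m N) A := (adAdjL m N).hasFDerivAt
  have hA : HasFDerivAt (fun L : E m →L[ℝ] E N => L) (ContinuousLinearMap.id ℝ _) A :=
    hasFDerivAt_id A
  have := hB.clm_comp hA
  rw [ContinuousLinearMap.comp_id] at this
  exact this

theorem ad_nd_eq_sqrt (L : E m →L[ℝ] E N) :
    nd L = Real.sqrt (LinearMap.det ((adGram L : E m →L[ℝ] E m) : E m →ₗ[ℝ] E m)) := by
  have h := Claimed.Agent.R322.Base.Area.nd_sq L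
  have h2 : LinearMap.det ((adGram L : E m →L[ℝ] E m) : E m →ₗ[ℝ] E m) = nd L ^ 2 := h.symm
  rw [h2, Real.sqrt_sq (Claimed.Agent.R322.Base.Area.nd_nonneg L)]

theorem ad_nd_pos {A : E m →L[ℝ] E N} (hA : Function.Injective A) : 0 < nd A :=
  lt_of_le_of_ne (Claimed.Agent.R322.Base.Area.nd_nonneg A)
    (fun h => (Claimed.Agent.R322.Base.Area.nd_eq_zero_iff A).1 h.symm hA)

theorem ad_nd_det_gram (A : E m →L[ℝ] E N) :
    LinearMap.det ((adGram A : E m →L[ℝ] E m) : E m →ₗ[ℝ] E m) = nd A ^ 2 :=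
  (Claimed.Agent.R322.Base.Area.nd_sq A).symm

theorem ad_nd_contDiffAt {A : E m →L[ℝ] E N} (hA : Function.Injective A) :
    ContDiffAt ℝ ∞ (nd : (E m →L[ℝ] E N) → ℝ) A := by
  have h1 : (nd : (E m →L[ℝ] E N) → ℝ) = fun L =>
      Real.sqrt (LinearMap.det ((adGram L : E m →L[ℝ] E m) : E m →ₗ[ℝ] E m)) := by
    funext L
    exact ad_nd_eq_sqrt L
  rw [h1]
  refine ContDiffAt.sqrt ?_ ?_
  · exact ((ad_nd_contDiff_det m).comp ad_nd_contDiff_gram).contDiffAt
  · rw [ad_nd_det_gram]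
    exact pow_ne_zero 2 (ad_nd_pos hA).ne'

/-- L-AD-VL4.  **Jacobi's formula for `nd`**. -/
theorem ad_vl_nd_hasFDerivAt (A : E m →L[ℝ] E N) (hA : Function.Injective A) :
    ∃ D : (E m →L[ℝ] E N) →L[ℝ] ℝ, HasFDerivAt (nd : (E m →L[ℝ] E N) → ℝ) D A ∧
      ∀ H, D H = nd A * adTr (Ring.inverse (adj A ∘L A) ∘L adj A ∘L H) := by
  have hd : Differentiable ℝ (fun B : E m →L[ℝ] E m => LinearMap.det (B : E m →ₗ[ℝ] E m)) :=
    (ad_nd_contDiff_det m).differentiable (by simp)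
  have h1 := (hd (adGram A)).hasFDerivAt.comp A (ad_nd_hasFDerivAt_gram A)
  have hne : ((fun B : E m →L[ℝ] E m => LinearMap.det (B : E m →ₗ[ℝ] E m)) ∘ adGram) A ≠ 0 := by
    show LinearMap.det ((adGram A : E m →L[ℝ] E m) : E m →ₗ[ℝ] E m) ≠ 0
    rw [ad_nd_det_gram]
    exact pow_ne_zero 2 (ad_nd_pos hA).ne'
  have h2 := h1.sqrt hne
  have h3 : (fun L : E m →L[ℝ] E N =>
      √(((fun B : E m →L[ℝ] E m => LinearMap.det (B : E m →ₗ[ℝ] E m)) ∘ adGram) L)) = nd := by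
    funext L
    exact (ad_nd_eq_sqrt L).symm
  rw [h3] at h2
  refine ⟨_, h2, fun H => ?_⟩
  set K := Ring.inverse (adj A ∘L A) with hK
  have hKG : K ∘L adGram A = ContinuousLinearMap.id ℝ (E m) :=
    Claimed.Agent.R322.Base.Area.inv_gram_comp A hA
  simp only [smul_apply, ContinuousLinearMap.comp_apply, add_apply, smul_eq_mul]
  rw [ad_nd_fderiv_det_of_inv (adGram A) K _ hKG]
  have e1 : (ContinuousLinearMap.compL ℝ (E m) (E N) (E m) (adj A)) H = adj A ∘L H := rfl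
  have e2 : ((ContinuousLinearMap.compL ℝ (E m) (E N) (E m)).flip A) ((adAdjL m N) H)
      = adj H ∘L A := rfl
  rw [e1, e2, ContinuousLinearMap.comp_add, adTr_add]
  have e3 : adTr (K ∘L adj H ∘L A) = adTr (K ∘L adj A ∘L H) := by
    rw [← adTr_adjoint, ContinuousLinearMap.adjoint_comp, ContinuousLinearMap.adjoint_comp,
      ContinuousLinearMap.adjoint_adjoint, hK,
      Claimed.Agent.R322.Base.Area.adjoint_inv_gram A hA, adTr_comp_comm]
  rw [e3]
  have e5 : √(((fun B : E m →L[ℝ] E m => LinearMap.det (B : E m →ₗ[ℝ] E m)) ∘ adGram) A) = nd A :=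
    (ad_nd_eq_sqrt A).symm
  rw [e5, ad_nd_det_gram]
  have e6 : nd A ≠ 0 := (ad_nd_pos hA).ne'
  field_simp
  ring

/-! ### the Jacobian of the variation as a function of the parameters -/

/-- the open set `{w ≠ 0}`. -/
def adW0 (m N : ℕ) : Set (ℝ × AdPar m N) := {p | p.2.1 + p.1 • p.2.2.1 ≠ 0}

theorem ad_nd_isOpen_W0 : IsOpen (adW0 m N) := by
  have hc : Continuous (fun p : ℝ × AdPar m N => p.2.1 + p.1 • p.2.2.1) := by fun_prop
  exact isOpen_ne_fun hc continuous_const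

theorem ad_nd_contDiffAt_adL {p : ℝ × AdPar m N} (hp : p ∈ adW0 m N) :
    ContDiffAt ℝ ∞ (fun p : ℝ × AdPar m N => adL p.1 p.2.1 p.2.2.1 p.2.2.2.1 p.2.2.2.2) p := by
  have hw : ContDiff ℝ ∞ (fun p : ℝ × AdPar m N => p.2.1 + p.1 • p.2.2.1) := by fun_prop
  have hA : ContDiff ℝ ∞ (fun p : ℝ × AdPar m N => p.2.2.2.1 + p.1 • p.2.2.2.2) := by fun_prop
  have hn : ContDiffAt ℝ ∞ (fun p : ℝ × AdPar m N => ‖p.2.1 + p.1 • p.2.2.1‖⁻¹) p :=
    (hw.contDiffAt.norm ℝ hp).inv (norm_ne_zero_iff.2 hp)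
  have hi : ContDiff ℝ ∞ (fun p : ℝ × AdPar m N =>
      (innerSL ℝ (p.2.1 + p.1 • p.2.2.1) : E N →L[ℝ] ℝ)) :=
    (innerSL ℝ : E N →L[ℝ] E N →L[ℝ] ℝ).contDiff.comp hw
  unfold adL
  exact (hn.smul hA.contDiffAt).sub
    ((hn.pow 3).smul ((hi.clm_comp hA).contDiffAt.smulRight hw.contDiffAt))

theorem ad_nd_adW_eq : adW m N = adW0 m N ∩ adJ ⁻¹' {0}ᶜ := by
  ext p
  simp only [adW, adW0, adJ, mem_ofPred_eq, mem_inter_iff, mem_preimage, mem_compl_iff,
    mem_singleton_iff, Claimed.Agent.R322.Base.Area.nd_eq_zero_iff, not_not]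

/-- L-AD-VL2. -/
theorem ad_vl_isOpen : IsOpen (adW m N) := by
  rw [ad_nd_adW_eq]
  refine ContinuousOn.isOpen_inter_preimage ?_ ad_nd_isOpen_W0 isOpen_compl_singleton
  intro p hp
  exact (Claimed.Agent.R322.Base.Area.continuous_nd.continuousAt.comp
    (ad_nd_contDiffAt_adL hp).continuousAt).continuousWithinAt

/-- L-AD-VL3. -/
theorem ad_vl_contDiffOn : ContDiffOn ℝ 1 (adJ : ℝ × AdPar m N → ℝ) (adW m N) := by
  intro p hp
  have h1 := ad_nd_contDiffAt_adL (p := p) hp.1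
  have h2 := ad_nd_contDiffAt hp.2
  exact ((h2.comp p h1).of_le (by exact_mod_cast le_top)).contDiffWithinAt

end Claimed.Agent.R323
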