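import Claimed.Agent.R323.Ad.VarNd

/-!
# Row 323, block A, package A1+A2 (helper229): TRACES; the derivative of the Jacobian of the sphere variation (`ad_vl_deriv`).
-/

set_option autoImplicit false
open scoped ContDiff ENNReal NNReal RealInnerProductSpace Topology
open MeasureTheory Metric Set Filter

namespace Claimed.Agent.R323

open Claimed.Agent.R322 (E IsProj tdiv)
open Claimed.Agent.R322.Base.Area (nd projR)

local notation "adj" => ContinuousLinearMap.adjoint

variable {m N : ℕ}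

theorem adTr_sub {n : ℕ} (A B : E n →L[ℝ] E n) : adTr (A - B) = adTr A - adTr B := by
  unfold adTr
  rw [ContinuousLinearMap.toLinearMap_sub, map_sub]

theorem adTr_smul {n : ℕ} (c : ℝ) (A : E n →L[ℝ] E n) : adTr (c • A) = c * adTr A := by
  unfold adTr
  rw [ContinuousLinearMap.toLinearMap_smul, map_smul, smul_eq_mul]

theorem adTr_zero {n : ℕ} : adTr (0 : E n →L[ℝ] E n) = 0 := by
  unfold adTr
  simp

theorem adTr_id {n : ℕ} : adTr (ContinuousLinearMap.id ℝ (E n)) = n := by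
  unfold adTr
  have : ((ContinuousLinearMap.id ℝ (E n) : E n →L[ℝ] E n) : E n →ₗ[ℝ] E n) = LinearMap.id := rfl
  rw [this, LinearMap.trace_id]
  simp

/-- L-AD-VL6.  trace computation: `Aᵀ f = 0`, `tr ((AᵀA)⁻¹ AᵀA) = m`. -/
theorem ad_vl_tr {f ξ : E N} {A B : E m →L[ℝ] E N} (hA : Function.Injective A)
    (hfA : ∀ v, ⟪f, A v⟫ = 0) :
    adTr (Ring.inverse (adj A ∘L A) ∘L adj A ∘L
      (B - ⟪f, ξ⟫ • A - ((innerSL ℝ ξ) ∘L A + (innerSL ℝ f) ∘L B).smulRight f))
      = adTr (Ring.inverse (adj A ∘L A) ∘L adj A ∘L B) - m * ⟪ξ, f⟫ := by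
  have h0 : adj A f = 0 := by
    refine ext_inner_right ℝ fun v => ?_
    rw [ContinuousLinearMap.adjoint_inner_left, inner_zero_left]
    exact hfA v
  have h1 : adj A ∘L ((innerSL ℝ ξ) ∘L A + (innerSL ℝ f) ∘L B).smulRight f = 0 := by
    ext1 v
    simp [h0]
  have h2 : Ring.inverse (adj A ∘L A) ∘L adj A ∘L A = ContinuousLinearMap.id ℝ (E m) :=
    Claimed.Agent.R322.Base.Area.inv_gram_comp A hA
  rw [ContinuousLinearMap.comp_sub, ContinuousLinearMap.comp_sub, ContinuousLinearMap.comp_sub,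
    ContinuousLinearMap.comp_sub, h1, ContinuousLinearMap.comp_zero, sub_zero,
    ContinuousLinearMap.comp_smul, ContinuousLinearMap.comp_smul, h2, adTr_sub, adTr_smul, adTr_id,
    real_inner_comm]
  ring

/-- **the derivative of the Jacobian of the sphere variation.** -/
theorem ad_vl_deriv {f ξ : E N} {A B : E m →L[ℝ] E N} (hf : ‖f‖ = 1) (hA : Function.Injective A)
    (hfA : ∀ v, ⟪f, A v⟫ = 0) :
    HasDerivAt (fun t => nd (adL t f ξ A B))
      (nd A * (adTr (Ring.inverse (adj A ∘L A) ∘L adj A ∘L B) - m * ⟪ξ, f⟫)) 0 := by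
  obtain ⟨D, hD, hD'⟩ := ad_vl_nd_hasFDerivAt A hA
  have h1 := ad_vl_adL_hasDerivAt (ξ := ξ) (B := B) hf hfA
  have h0 : adL 0 f ξ A B = A := ad_vl_adL_zero hf hfA
  rw [← h0] at hD
  have h2 := hD.comp_hasDerivAt (0 : ℝ) h1
  rw [hD', ad_vl_tr hA hfA] at h2
  exact h2

/-- L-AD-VL7.  ambient fields: cyclicity of the trace. -/
theorem ad_vl_tr_amb (A : E m →L[ℝ] E N) (D : E N →L[ℝ] E N) :
    adTr (Ring.inverse (adj A ∘L A) ∘L adj A ∘L (D ∘L A)) = tdiv (projR A) D :=
  LinearMap.trace_comp_comm' (A : E m →ₗ[ℝ] E N)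
    ((Ring.inverse (adj A ∘L A) ∘L adj A ∘L D : E N →L[ℝ] E m) : E N →ₗ[ℝ] E m)

/-- L-AD-VL8.  `projR` only depends on the range. -/
theorem ad_vl_projR_equiv (A : E m →L[ℝ] E N) (hA : Function.Injective A) (T : E m ≃L[ℝ] E m) :
    projR (A ∘L (T : E m →L[ℝ] E m)) = projR A := by
  have hAT : Function.Injective (A ∘L (T : E m →L[ℝ] E m)) := hA.comp T.injective
  set P := projR A with hP
  set P' := projR (A ∘L (T : E m →L[ℝ] E m)) with hP'
  have h1 : P ∘L A = A := Claimed.Agent.R322.Base.Area.projR_comp_self A hA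
  have h2 : P' ∘L (A ∘L (T : E m →L[ℝ] E m)) = A ∘L (T : E m →L[ℝ] E m) :=
    Claimed.Agent.R322.Base.Area.projR_comp_self _ hAT
  have h3 : P' ∘L A = A := by
    ext1 v
    have := congrArg (fun L : E m →L[ℝ] E N => L (T.symm v)) h2
    simpa using this
  have h4 : P' ∘L P = P := by
    rw [hP]
    unfold projR
    rw [← ContinuousLinearMap.comp_assoc, h3]
  have h5 : P ∘L P' = P' := by
    rw [hP']
    unfold projR
    have h7 : P ∘L (A ∘L (T : E m →L[ℝ] E m)) = A ∘L (T : E m →L[ℝ] E m) := by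
      rw [← ContinuousLinearMap.comp_assoc, h1]
    rw [← ContinuousLinearMap.comp_assoc, h7]
  have h6 : P ∘L P' = P := by
    have := congrArg adj h4
    rwa [ContinuousLinearMap.adjoint_comp, Claimed.Agent.R322.Base.Area.adjoint_projR A hA,
      Claimed.Agent.R322.Base.Area.adjoint_projR _ hAT] at this
  rw [← h5, h6]

end Claimed.Agent.R323
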